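import Crest.Agent.N207.I.Car1

-- ▼ part N207/I/Car2
section

/-!
# Row 207, block I (helper98): `core v`, `glob L` are atlases, `T.χ` is a partition of unity
-/

set_option autoImplicit false
set_option linter.unusedSectionVars false

open scoped ContDiff Topology
open Set Filter Metric

noncomputable section

namespace Crest.Agent.N207.I

namespace TD

variable {M : Type*} {T : TD M}

/-! ### the bumps on `base v` -/

/-- support of the bump of the chart `s` of `base v` -/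
def bK (T : TD M) (v : T.V) : T.S → Set E4 :=
  Sum.elim (fun a => {x | T.vx a = v ∧ ‖x‖ ≤ 3 / 2})
    fun w => {u | u ∈ (T.base v).U (Sum.inr w) ∧ T.Sup v w u}

theorem bK_sub (v : T.V) (s : T.S) : T.bK v s ⊆ (T.base v).U s := by
  cases s with
  | inl a => exact fun x hx => mem_base_inl.2 ⟨hx.1, by linarith [hx.2]⟩
  | inr w => exact fun x hx => hx.1

theorem sup_ev {v w : T.V} {u : E4} (h : ¬ T.Sup v w u) : ∀ᶠ z in 𝓝 u, ¬ T.Sup v w z := by
  by_cases hw : w = v
  · have h1 : ‖u‖ < 3 / 2 := by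
      by_contra h2
      exact h ⟨fun _ => not_lt.1 h2, fun h3 => absurd hw h3⟩
    filter_upwards [continuous_norm.continuousAt.eventually (gt_mem_nhds h1)] with z hz h3
    exact absurd (h3.1 hw) (not_le.2 hz)
  · have h1 : 3 / 4 * T.r < ‖u‖ := by
      by_contra h2
      exact h ⟨fun h3 => absurd h3 hw, fun _ => not_lt.1 h2⟩
    filter_upwards [continuous_norm.continuousAt.eventually (lt_mem_nhds h1)] with z hz h3
    exact absurd (h3.2 hw) (not_le.2 hz)

theorem Ok.th0_ne (h : T.Ok) {v : T.V} {s : T.S} {u : E4} (hu : u ∈ (T.base v).U s)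
    (h0 : T.th0 v s u ≠ 0) : u ∈ T.bK v s := by
  cases s with
  | inl a => exact ⟨(mem_base_inl.1 hu).1, bmp_ne h0⟩
  | inr w =>
    refine ⟨hu, fun hw => zet_ne (by simpa [th0, hw] using h0), fun hw => ?_⟩
    have h1 : ‖(2 / T.r) • u‖ ≤ 3 / 2 := bmp_ne (by simpa [th0, hw] using h0)
    have hr := h.r_pos
    rw [norm_smul, Real.norm_of_nonneg (by positivity), div_mul_eq_mul_div, div_le_iff₀ hr] at h1
    linarith

theorem th0_inv {v : T.V} {s : T.S} {γ : Iso4} (x : E4) : T.th0 v s (γ x) = T.th0 v s x := by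
  cases s with
  | inl a => simp [th0, bmp]
  | inr w => simp [th0, bmp, zet, norm_smul]

theorem th0_sm (v : T.V) (s : T.S) : ContDiff ℝ ∞ (T.th0 v s) := by
  cases s with
  | inl a => exact bmp_sm
  | inr w =>
    by_cases hw : w = v
    · have : T.th0 v (Sum.inr w) = zet := by ext x; simp [th0, hw]
      rw [this]; exact zet_sm
    · have : T.th0 v (Sum.inr w) = fun x => bmp ((2 / T.r) • x) := by ext x; simp [th0, hw]
      rw [this]; exact bmp_sm.comp (contDiff_const_smul _)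

theorem th_nonneg (v : T.V) (s : T.S) (p : M) : 0 ≤ T.th v s p := by
  refine Atl.ext_nonneg (fun x => ?_) p
  cases s with
  | inl a => exact bmp_nonneg x
  | inr w =>
    simp only [th0, Sum.elim_inr]
    split_ifs
    exacts [zet_nonneg _, bmp_nonneg _]

theorem Ok.th_apply (h : T.Ok) {v : T.V} {s : T.S} {x : E4} (hx : x ∈ (T.base v).U s) :
    T.th v s ((T.base v).c s x) = T.th0 v s x :=
  (h.base v).ext_apply (fun _ _ y _ => th0_inv y) hx

theorem Ok.th_ne (h : T.Ok) {v : T.V} {s : T.S} {p : M} (hp : T.th v s p ≠ 0) :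
    p ∈ (T.base v).c s '' T.bK v s := by
  obtain ⟨x, hx, e, e'⟩ := Atl.ext_spec hp
  exact ⟨x, h.th0_ne hx (e' ▸ hp), e⟩

theorem Ok.base_cl (h : T.Ok) (v : T.V) (s : T.S) :
    (T.base v).Cl ((T.base v).c s '' T.bK v s) := by
  have hb := h.base v
  cases s with
  | inl a =>
    refine hb.cl_cpt ?_ (bK_sub v _)
    refine (isCompact_closedBall (0 : E4) (3 / 2)).of_isClosed_subset
      (isClosed_const.inter (isClosed_le continuous_norm continuous_const)) fun x hx => ?_
    simpa using hx.2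
  | inr w =>
    intro b y hy hn
    cases b with
    | inr w' =>
      by_cases hw : w' = w
      · subst hw
        have h1 : ¬ T.Sup v w' y := fun h1 => hn ⟨y, ⟨hy, h1⟩, rfl⟩
        filter_upwards [sup_ev h1, (hb.isOpen _).mem_nhds hy] with z h2 h3
        rintro ⟨x, hx, e⟩
        obtain ⟨γ, -, rfl⟩ := (hb.fib _ x hx.1 z h3).1 e
        exact h2 (by simpa [Sup] using hx.2)
      · filter_upwards [(hb.isOpen _).mem_nhds hy] with z h3
        rintro ⟨x, hx, e⟩
        exact h.disj v w w' (Ne.symm hw) x hx.1 z h3 e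
    | inl a =>
      obtain ⟨rfl, -⟩ := mem_base_inl.1 hy
      have hr := h.r_pos
      set C : Set E4 := {u | (w = T.vx a ∨ T.kid (T.vx a) w) ∧
        (w = T.vx a → 3 / 2 ≤ ‖u‖ ∧ ‖u‖ ≤ 3) ∧
        (w ≠ T.vx a → T.r / 3 ≤ ‖u‖ ∧ ‖u‖ ≤ 3 / 4 * T.r)} with hC
      have hCK : C ⊆ T.bK (T.vx a) (Sum.inr w) := by
        rintro u ⟨h1, h2, h3⟩
        refine ⟨?_, fun e => (h2 e).1, fun e => (h3 e).2⟩
        by_cases hw : w = T.vx a
        · rw [hw, mem_base_out]; constructor <;> linarith [h2 hw]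
        · rw [mem_base_inn hw]
          refine ⟨h1.resolve_left hw, ?_, ?_⟩ <;> linarith [h3 hw]
      have hCc : IsCompact C := by
        refine (isCompact_closedBall (0 : E4) 3).of_isClosed_subset
          (isClosed_const.inter (IsClosed.inter ?_ ?_)) fun u hu => ?_
        · exact isClosed_imp isOpen_const ((isClosed_le continuous_const continuous_norm).inter
            (isClosed_le continuous_norm continuous_const))
        · exact isClosed_imp isOpen_const ((isClosed_le continuous_const continuous_norm).inter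
            (isClosed_le continuous_norm continuous_const))
        · rw [mem_closedBall_zero_iff]
          by_cases hw : w = T.vx a
          · exact (hu.2.1 hw).2
          · linarith [hu.2.2 hw, h.r_lt]
      have h1 := hb.cl_cpt hCc (hCK.trans (bK_sub _ _)) _ y hy fun h2 => hn (image_mono hCK h2)
      filter_upwards [h1, (hb.isOpen _).mem_nhds hy] with z h2 h3
      rintro ⟨x, hx, e⟩
      have h4 := h.not_far (mem_base_inl.1 h3).2 hx.1 e.symm
      refine h2 ⟨x, ⟨?_, fun hw => ⟨hx.2.1 hw, ?_⟩, fun hw => ⟨?_, hx.2.2 hw⟩⟩, e⟩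
      · by_cases hw : w = T.vx a
        exacts [Or.inl hw, Or.inr ((mem_base_inn hw).1 hx.1).1]
      · by_contra h5
        exact h4 ⟨fun _ => (not_le.1 h5).le, fun h6 => absurd hw h6⟩
      · by_contra h5
        exact h4 ⟨fun h6 => absurd h6 hw, fun _ => (not_le.1 h5).le⟩

theorem Ok.th_sm (h : T.Ok) (v : T.V) (s : T.S) : (T.base v).SmF (T.th v s) :=
  (h.base v).ext_sm (fun _ _ y _ => th0_inv y) (th0_sm v s).contDiffOn
    (fun _ hx h0 => h.th0_ne hx h0) (bK_sub v s) (h.base_cl v s)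

theorem Ok.bmp_in (h : T.Ok) {y : E4} (hy : ‖y‖ ≤ T.r / 2) : bmp ((2 / T.r) • y) = 1 := by
  have hr := h.r_pos
  refine bmp_one ?_
  rw [norm_smul, Real.norm_of_nonneg (by positivity), div_mul_eq_mul_div, div_le_one hr]
  linarith

theorem Ok.sum_ge (h : T.Ok) {v : T.V} {s : T.S} {x : E4} (hx : x ∈ (T.base v).U s) :
    1 ≤ ∑ s', T.th v s' ((T.base v).c s x) := by
  have key : ∀ s', ∀ y ∈ (T.base v).U s', (T.base v).c s' y = (T.base v).c s x →
      T.th0 v s' y = 1 → 1 ≤ ∑ s', T.th v s' ((T.base v).c s x) := fun s' y hy e e1 => by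
    have := Finset.single_le_sum (f := fun s' => T.th v s' ((T.base v).c s x))
      (fun s' _ => th_nonneg v s' _) (Finset.mem_univ s')
    rwa [← e, h.th_apply hy, e1, e] at this
  rcases h.cover v s x hx with ⟨b, hb, y, hy, e⟩ | ⟨y, h1, h2, e⟩ | ⟨w, hw, y, h1, h2, e⟩
  · rw [mem_ball_zero_iff] at hy
    exact key (Sum.inl b) y (mem_base_inl.2 ⟨hb, by linarith⟩) e (bmp_one hy.le)
  · exact key (Sum.inr v) y (mem_base_out.2 ⟨by linarith, h2⟩) (by rw [base_c_out]; exact e)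
      (by simp [th0, zet_one h1])
  · have hn := h.kid_ne hw
    exact key (Sum.inr w) y ((mem_base_inn hn).2 ⟨hw, h1, by linarith [h.r_pos]⟩)
      (by rw [base_c_inn hn]; exact e) (by simp [th0, hn, h.bmp_in h2])

theorem Ok.th_far (h : T.Ok) {v w : T.V} {u : E4} (hu : u ∈ (T.base v).U (Sum.inr w))
    (hf : T.Far v w u) (s : T.S) :
    T.th v s ((T.base v).c (Sum.inr w) u) = if s = Sum.inr w then 1 else 0 := by
  split_ifs with hs
  · subst hs
    rw [h.th_apply hu]
    by_cases hw : w = v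
    · simp [th0, hw, zet_one (show 2 ≤ ‖u‖ by linarith [hf.1 hw])]
    · simp [th0, hw, h.bmp_in (show ‖u‖ ≤ T.r / 2 by linarith [hf.2 hw, h.r_pos])]
  · by_contra h0
    obtain ⟨x, hx, e⟩ := h.th_ne h0
    have hx' := bK_sub v s hx
    cases s with
    | inl a =>
      obtain ⟨rfl, h2⟩ := mem_base_inl.1 hx'
      exact h.not_far h2 hu e hf
    | inr w' => exact h.disj v w' w (fun e => hs (by rw [e])) x hx' u hu e

theorem χ_inl (s : T.S) (v : T.V) (p : M) :
    T.χ s (Sum.inl (v, p)) = T.th v s p / ∑ s', T.th v s' p := rfl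

theorem χ_inr (s : T.S) (w : T.V) (o : Set E4) :
    T.χ s (Sum.inr (w, o)) = if s = Sum.inr w then 1 else 0 := rfl

theorem χ_nonneg (s : T.S) (p : T.Car) : 0 ≤ T.χ s p := by
  rcases p with ⟨v, p⟩ | ⟨w, o⟩
  · exact div_nonneg (th_nonneg _ _ _) (Finset.sum_nonneg fun _ _ => th_nonneg _ _ _)
  · rw [χ_inr]; split_ifs <;> norm_num

theorem Ok.χ_far0 (h : T.Ok) {v w : T.V} {u : E4} (hu : u ∈ (T.base v).U (Sum.inr w))
    (hf : T.Far v w u) (s : T.S) :
    T.χ s (Sum.inl (v, (T.base v).c (Sum.inr w) u)) = if s = Sum.inr w then 1 else 0 := by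
  simp [χ_inl, h.th_far hu hf]

variable {A : Atl T.Car T.S} {act : T.V → Prop} {lam : T.V → T.V → ℝ}

/-- on the far part of an end only the bump of the end survives -/
theorem Str.χ_far (hA : T.Str A act lam) (h : T.Ok) {w : T.V} {z : E4} (hz : z ∈ A.U (Sum.inr w))
    (hf : ∀ v, act v → lam w v • z ∈ (T.base v).U (Sum.inr w) → T.Far v w (lam w v • z))
    (s : T.S) : T.χ s (A.c (Sum.inr w) z) = if s = Sum.inr w then 1 else 0 := by
  rcases hA.cases w z hz with ⟨v, hv, h1⟩ | ⟨h1, -⟩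
  · rw [(hA.conv w v z hv h1).2]; exact h.χ_far0 h1 (hf v hv h1) s
  · rw [h1, χ_inr]

theorem Str.pou (hA : T.Str A act lam) (h : T.Ok) {K : T.S → Set E4}
    (Kb : ∀ a x, x ∈ K (Sum.inl a) ↔ act (T.vx a) ∧ ‖x‖ ≤ 3 / 2)
    (Ke : ∀ w x, x ∈ K (Sum.inr w) ↔ x ∈ A.U (Sum.inr w) ∧ ∀ v, act v →
      lam w v • x ∈ (T.base v).U (Sum.inr w) → T.Sup v w (lam w v • x)) : A.PoU T.χ K := by
  have hO := hA.ok h
  have hsub : ∀ s, K s ⊆ A.U s := by
    rintro (a | w) x hx
    · exact (hA.Ub a x).2 ⟨((Kb a x).1 hx).1, by linarith [((Kb a x).1 hx).2]⟩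
    · exact ((Ke w x).1 hx).1
  have hup : ∀ v, act v → ∀ s p, p ∈ (T.base v).c s '' T.bK v s →
      Sum.inl (v, p) ∈ A.c s '' K s := by
    rintro v hv s _ ⟨u, hu, rfl⟩
    have h0 := (hA.sc_pos s v).ne'
    have h1 : sc lam s v • (sc lam s v)⁻¹ • u ∈ (T.base v).U s := by
      rw [smul_inv_smul₀ h0]; exact bK_sub v s hu
    have h2 := hA.conv' hv h1
    refine ⟨(sc lam s v)⁻¹ • u, ?_, by rw [h2.2, smul_inv_smul₀ h0]⟩
    cases s with
    | inl a => exact (Kb a _).2 ⟨hu.1 ▸ hv, by simpa [sc] using hu.2⟩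
    | inr w =>
      refine (Ke w _).2 ⟨h2.1, fun v' hv' h3 => ?_⟩
      have h4 := (hA.conv w v' _ hv' h3).2
      rw [h2.2] at h4
      obtain ⟨rfl, -⟩ := Prod.mk.inj (Sum.inl.inj h4)
      have h5 : lam w v • (sc lam (Sum.inr w) v)⁻¹ • u = u := smul_inv_smul₀ h0 u
      rw [h5]; exact hu.2
  have hfar : ∀ w, ∀ y ∈ A.U (Sum.inr w), A.c (Sum.inr w) y = Sum.inr (w, T.orb w y) →
      y ∈ K (Sum.inr w) := fun w y hy e => (Ke w y).2 ⟨hy, fun v hv h1 => by
        rw [(hA.conv w v y hv h1).2] at e; cases e⟩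
  refine ⟨fun s b y hy => ContDiffAt.contDiffWithinAt ?_, χ_nonneg, fun b y hy => ?_, hsub,
    fun s b y hy h0 => ?_, fun s => ?_⟩
  · rcases hA.cases' hy with ⟨v, hv, h1⟩ | ⟨w, rfl, -, h1⟩
    · have h2 : ∀ s', ContDiffAt ℝ ∞ (fun z => T.th v s' ((T.base v).c b (sc lam b v • z))) y :=
        fun s' => ((h.th_sm v s' b).contDiffAt (((h.base v).isOpen b).mem_nhds h1)).comp y
          (f := fun z : E4 => sc lam b v • z) (contDiff_const_smul _).contDiffAt
      refine ((h2 s).div (ContDiffAt.sum (s := Finset.univ) fun s' _ => h2 s')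
        (by linarith [h.sum_ge h1])).congr_of_eventuallyEq ?_
      filter_upwards [hA.conv_ev h hv h1] with z hz
      rw [hz.2, χ_inl]; rfl
    · refine (contDiffAt_const (c := if s = Sum.inr w then (1 : ℝ) else 0)).congr_of_eventuallyEq ?_
      filter_upwards [h1, (hA.isOpen w).mem_nhds hy] with z h2 h3 using hA.χ_far h h3 h2 s
  · rcases hA.cases' hy with ⟨v, hv, h1⟩ | ⟨w, rfl, h1, -⟩
    · simp only [(hA.conv' hv h1).2, χ_inl]
      rw [← Finset.sum_div, div_self (by linarith [h.sum_ge h1])]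
    · simp [h1, χ_inr]
  · rcases hA.cases' hy with ⟨v, hv, h1⟩ | ⟨w, rfl, h1, -⟩
    · rw [(hA.conv' hv h1).2] at h0 ⊢
      exact hup v hv s _ (h.th_ne fun e => h0 (by rw [χ_inl, e, zero_div]))
    · have hs : s = Sum.inr w := by
        by_contra hs
        exact h0 (by rw [h1, χ_inr, if_neg hs])
      subst hs
      exact ⟨y, hfar w y hy h1, rfl⟩
  · cases s with
    | inl a =>
      refine hO.cl_cpt ?_ (hsub _)
      have : K (Sum.inl a) = {x | act (T.vx a)} ∩ closedBall 0 (3 / 2) := by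
        ext x; simp [Kb]
      rw [this]
      exact (isCompact_closedBall _ _).inter_left isClosed_const
    | inr w =>
      intro b y hy hn
      rcases hA.cases' hy with ⟨v, hv, h1⟩ | ⟨w', rfl, h1, -⟩
      · have h2 := h.base_cl v (Sum.inr w) b _ h1 fun h2 =>
          hn (by rw [(hA.conv' hv h1).2]; exact hup v hv _ _ h2)
        have hc : Continuous fun z : E4 => sc lam b v • z := continuous_const_smul _
        filter_upwards [hc.continuousAt.eventually h2, hA.conv_ev h hv h1] with z h3 h4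
        rintro ⟨x, hx, e⟩
        obtain ⟨h5, h6⟩ := (Ke w x).1 hx
        rw [h4.2] at e
        rcases hA.cases w x h5 with ⟨v', hv', h7⟩ | ⟨h7, -⟩
        · rw [(hA.conv w v' x hv' h7).2] at e
          obtain ⟨rfl, e'⟩ := Prod.mk.inj (Sum.inl.inj e)
          exact h3 ⟨_, ⟨h7, h6 _ hv h7⟩, e'⟩
        · rw [h7] at e; cases e
      · have hw : w ≠ w' := by
          rintro rfl
          exact hn ⟨y, hfar w y hy h1, rfl⟩
        filter_upwards [(hA.isOpen w').mem_nhds hy] with z hz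
        rintro ⟨x, hx, e⟩
        exact hA.disj h hw (hsub _ hx) hz e

end TD

end Crest.Agent.N207.I

end
end

-- ▼ part N207/I/Car3

/-!
# Row 207, block I (helper98): `core_ok`, `glob_ok`, `core_pou`, `glob_pou`, scales
-/

set_option autoImplicit false
set_option linter.unusedSectionVars false

open scoped ContDiff Topology
open Set Filter Metric

noncomputable section

namespace Crest.Agent.N207.I

namespace TD

variable {M : Type*} {T : TD M} {L : T.V → ℝ}

/-! ### the charts of `core v` -/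

theorem mem_core_inl {v : T.V} {a : T.B} {x : E4} :
    x ∈ (T.core v).U (Sum.inl a) ↔ T.vx a = v ∧ ‖x‖ < 2 := mem_bU

theorem core_c_inl (v : T.V) (a : T.B) (x : E4) :
    (T.core v).c (Sum.inl a) x = Sum.inl (T.vx a, T.φ a x) := rfl

theorem mem_core_out {v : T.V} {x : E4} : x ∈ (T.core v).U (Sum.inr v) ↔ 1 < ‖x‖ := by simp [core]

theorem mem_core_inn {v w : T.V} (h : w ≠ v) {x : E4} :
    x ∈ (T.core v).U (Sum.inr w) ↔ T.kid v w ∧ 0 < ‖x‖ ∧ ‖x‖ < T.r := by
  by_cases hk : T.kid v w <;> simp [core, h, hk]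

theorem core_c_out (v : T.V) (x : E4) : (T.core v).c (Sum.inr v) x =
    if ‖x‖ < 4 then Sum.inl (v, T.co v x) else Sum.inr (v, T.orb v x) := by simp [core]

theorem core_c_inn {v w : T.V} (h : w ≠ v) (x : E4) : (T.core v).c (Sum.inr w) x =
    if T.r / 4 < ‖x‖ then Sum.inl (v, T.ci w x) else Sum.inr (w, T.orb w x) := by simp [core, h]

theorem Ok.str_core (h : T.Ok) (v : T.V) : T.Str (T.core v) (fun u => u = v) fun _ _ => 1 := by
  have hr := h.r_pos
  refine ⟨rfl, fun w => ?_, fun a x => mem_core_inl, core_c_inl v, fun w x hx => ?_,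
    fun w γ hγ x hx => ?_, fun _ _ => one_pos, ?_, fun w x hx => ?_⟩
  · by_cases hw : w = v
    · subst hw
      have : (T.core w).U (Sum.inr w) = {x | 1 < ‖x‖} := by ext x; exact mem_core_out
      rw [this]; exact isOpen_lt continuous_const continuous_norm
    · have : (T.core v).U (Sum.inr w) = {x | T.kid v w} ∩ ({x | 0 < ‖x‖} ∩ {x | ‖x‖ < T.r}) := by
        ext x; exact mem_core_inn hw
      rw [this]
      exact isOpen_const.inter ((isOpen_lt continuous_const continuous_norm).inter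
        (isOpen_lt continuous_norm continuous_const))
  · rw [← norm_pos_iff]
    by_cases hw : w = v
    · subst hw; linarith [mem_core_out.1 hx]
    · exact ((mem_core_inn hw).1 hx).2.1
  · by_cases hw : w = v
    · subst hw
      rw [mem_core_out] at hx
      refine ⟨mem_core_out.2 (by simpa using hx), ?_⟩
      rw [core_c_out, core_c_out, γ.norm_map, orb_inv hγ]
      split_ifs with h4
      · have := (h.base w).c_inv (a := Sum.inr w) hγ (mem_base_out.2 ⟨hx, h4⟩)
        rw [base_c_out] at this; rw [this]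
      · rfl
    · rw [mem_core_inn hw] at hx
      refine ⟨(mem_core_inn hw).2 (by simpa using hx), ?_⟩
      rw [core_c_inn hw, core_c_inn hw, γ.norm_map, orb_inv hγ]
      split_ifs with h4
      · have := (h.base v).c_inv (a := Sum.inr w) hγ ((mem_base_inn hw).2 ⟨hx.1, h4, hx.2.2⟩)
        rw [base_c_inn hw] at this; rw [this]
      · rfl
  · rintro w _ x rfl hx
    rw [one_smul] at hx ⊢
    rename_i v
    by_cases hw : w = v
    · subst hw
      rw [mem_base_out] at hx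
      exact ⟨mem_core_out.2 hx.1, by rw [core_c_out, if_pos hx.2, base_c_out]⟩
    · rw [mem_base_inn hw] at hx
      exact ⟨(mem_core_inn hw).2 ⟨hx.1, by linarith [hx.2.1], hx.2.2⟩,
        by rw [core_c_inn hw, if_pos hx.2.1, base_c_inn hw]⟩
  · simp only [one_smul]
    by_cases hw : w = v
    · subst hw
      by_cases h4 : ‖x‖ < 4
      · exact Or.inl ⟨w, rfl, mem_base_out.2 ⟨mem_core_out.1 hx, h4⟩⟩
      · refine Or.inr ⟨by rw [core_c_out, if_neg h4], ?_⟩
        filter_upwards [continuous_norm.continuousAt.eventually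
          (lt_mem_nhds (show 3 < ‖x‖ by linarith))] with z hz
        rintro _ rfl -
        exact ⟨fun _ => hz.le, fun h5 => absurd rfl h5⟩
    · rw [mem_core_inn hw] at hx
      by_cases h4 : T.r / 4 < ‖x‖
      · exact Or.inl ⟨v, rfl, (mem_base_inn hw).2 ⟨hx.1, h4, hx.2.2⟩⟩
      · refine Or.inr ⟨by rw [core_c_inn hw, if_neg h4], ?_⟩
        filter_upwards [continuous_norm.continuousAt.eventually
          (gt_mem_nhds (show ‖x‖ < T.r / 3 by linarith))] with z hz
        rintro _ rfl -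
        exact ⟨fun h5 => absurd h5 hw, fun _ => hz.le⟩

theorem Ok.core_ok (h : T.Ok) (v : T.V) : (T.core v).Ok := (h.str_core v).ok h

theorem mem_cK_inl {v : T.V} {a : T.B} {x : E4} :
    x ∈ T.cK v (Sum.inl a) ↔ T.vx a = v ∧ ‖x‖ ≤ 3 / 2 := by
  by_cases hv : T.vx a = v <;> simp [cK, hv]

theorem mem_cK_out {v : T.V} {x : E4} : x ∈ T.cK v (Sum.inr v) ↔ 3 / 2 ≤ ‖x‖ := by simp [cK]

theorem mem_cK_inn {v w : T.V} (h : w ≠ v) {x : E4} :
    x ∈ T.cK v (Sum.inr w) ↔ T.kid v w ∧ 0 < ‖x‖ ∧ ‖x‖ ≤ 3 / 4 * T.r := by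
  by_cases hk : T.kid v w <;> simp [cK, h, hk]

theorem Ok.core_pou (h : T.Ok) (v : T.V) : (T.core v).PoU T.χ (T.cK v) := by
  have hr := h.r_pos
  refine (h.str_core v).pou h (fun a x => mem_cK_inl) fun w x => ?_
  simp only [one_smul, forall_eq]
  by_cases hw : w = v
  · subst hw
    rw [mem_cK_out, mem_core_out, mem_base_out]
    refine ⟨fun h1 => ⟨by linarith, fun _ => ⟨fun _ => h1, fun h2 => absurd rfl h2⟩⟩, fun h1 => ?_⟩
    by_contra h2
    exact h2 ((h1.2 ⟨h1.1, by linarith⟩).1 rfl)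
  · rw [mem_cK_inn hw, mem_core_inn hw, mem_base_inn hw]
    refine ⟨fun h1 => ⟨⟨h1.1, h1.2.1, by linarith [h1.2.2]⟩,
      fun _ => ⟨fun h2 => absurd h2 hw, fun _ => h1.2.2⟩⟩, fun h1 => ⟨h1.1.1, h1.1.2.1, ?_⟩⟩
    by_contra h2
    exact h2 ((h1.2 ⟨h1.1.1, by linarith, h1.1.2.2⟩).2 hw)

/-- `χ` on the far part of the outer end -/
theorem Ok.core_χ_out (h : T.Ok) (v : T.V) {x : E4} (hx : 3 ≤ ‖x‖) (s : T.S) :
    T.χ s ((T.core v).c (Sum.inr v) x) = if s = Sum.inr v then 1 else 0 :=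
  (h.str_core v).χ_far h (mem_core_out.2 (by linarith)) (by
    rintro _ rfl -
    exact ⟨fun _ => by simpa using hx, fun h5 => absurd rfl h5⟩) s

/-- `χ` near a puncture -/
theorem Ok.core_χ_inn (h : T.Ok) {v w : T.V} (hk : T.kid v w) {x : E4} (h0 : 0 < ‖x‖)
    (hx : ‖x‖ ≤ T.r / 3) (s : T.S) :
    T.χ s ((T.core v).c (Sum.inr w) x) = if s = Sum.inr w then 1 else 0 :=
  (h.str_core v).χ_far h ((mem_core_inn (h.kid_ne hk)).2 ⟨hk, h0, by linarith [h.r_pos]⟩) (by
    rintro _ rfl -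
    exact ⟨fun h5 => absurd h5 (h.kid_ne hk), fun _ => by simpa using hx⟩) s

/-! ### the charts of `glob L` -/

/-- the scalings of the necks -/
def lm (L : T.V → ℝ) (w v : T.V) : ℝ := if w = v then 1 else Real.exp (-L w)

theorem mem_glob_inl {a : T.B} {x : E4} : x ∈ (T.glob L).U (Sum.inl a) ↔ ‖x‖ < 2 :=
  mem_ball_zero_iff

theorem glob_c_inl (a : T.B) (x : E4) :
    (T.glob L).c (Sum.inl a) x = Sum.inl (T.vx a, T.φ a x) := rfl

theorem mem_glob_inr {w : T.V} {x : E4} : x ∈ (T.glob L).U (Sum.inr w) ↔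
    1 < ‖x‖ ∧ (w ≠ T.root → ‖x‖ < T.r * Real.exp (L w)) := Iff.rfl

theorem glob_c_inr (w : T.V) (x : E4) : (T.glob L).c (Sum.inr w) x =
    if ‖x‖ < 4 then Sum.inl (w, T.co w x)
    else if w ≠ T.root ∧ T.r / 4 < ‖Real.exp (-L w) • x‖ then
      Sum.inl (T.par w, T.ci w (Real.exp (-L w) • x))
    else Sum.inr (w, T.orb w x) := rfl

theorem nrm_exp (t : ℝ) (x : E4) : ‖Real.exp (-t) • x‖ = ‖x‖ / Real.exp t := by
  rw [norm_smul, Real.norm_of_nonneg (Real.exp_pos _).le, Real.exp_neg, inv_mul_eq_div]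

theorem lt_nrm_exp {t c : ℝ} {x : E4} : c < ‖Real.exp (-t) • x‖ ↔ c * Real.exp t < ‖x‖ := by
  rw [nrm_exp, lt_div_iff₀ (Real.exp_pos _)]

theorem nrm_exp_lt {t c : ℝ} {x : E4} : ‖Real.exp (-t) • x‖ < c ↔ ‖x‖ < c * Real.exp t := by
  rw [nrm_exp, div_lt_iff₀ (Real.exp_pos _)]

theorem nrm_exp_le {t c : ℝ} {x : E4} : ‖Real.exp (-t) • x‖ ≤ c ↔ ‖x‖ ≤ c * Real.exp t := by
  rw [nrm_exp, div_le_iff₀ (Real.exp_pos _)]

theorem glob_open (w : T.V) : IsOpen ((T.glob L).U (Sum.inr w)) := by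
  have : (T.glob L).U (Sum.inr w) =
      {x | 1 < ‖x‖} ∩ ({x | w = T.root} ∪ {x | ‖x‖ < T.r * Real.exp (L w)}) := by
    ext x; simp [mem_glob_inr, imp_iff_not_or]
  rw [this]
  exact (isOpen_lt continuous_const continuous_norm).inter
    (isOpen_const.union (isOpen_lt continuous_norm continuous_const))

theorem glob_c_out {w : T.V} {x : E4} (hx : ‖x‖ < 4) :
    (T.glob L).c (Sum.inr w) x = Sum.inl (w, T.co w x) := by rw [glob_c_inr, if_pos hx]

theorem glob_c_inn (hL : T.Long L) {w : T.V} (hw : w ≠ T.root) {x : E4}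
    (hx : T.r / 4 < ‖Real.exp (-L w) • x‖) :
    (T.glob L).c (Sum.inr w) x = Sum.inl (T.par w, T.ci w (Real.exp (-L w) • x)) := by
  have h1 := lt_nrm_exp.1 hx
  rw [glob_c_inr, if_neg (by linarith [hL w hw]), if_pos ⟨hw, hx⟩]

theorem Ok.str_glob (h : T.Ok) (hL : T.Long L) : T.Str (T.glob L) (fun _ => True) (lm L) := by
  have hr := h.r_pos
  have hconv : ∀ w v x, lm L w v • x ∈ (T.base v).U (Sum.inr w) → x ∈ (T.glob L).U (Sum.inr w) ∧
      (T.glob L).c (Sum.inr w) x = Sum.inl (v, (T.base v).c (Sum.inr w) (lm L w v • x)) := by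
    intro w v x hx
    by_cases hw : w = v
    · subst hw
      simp only [lm, if_true, one_smul, mem_base_out] at hx ⊢
      exact ⟨⟨hx.1, fun h1 => by linarith [hL w h1, hx.2]⟩, by rw [glob_c_out hx.2, base_c_out]⟩
    · simp only [lm, if_neg hw, mem_base_inn hw] at hx ⊢
      obtain ⟨⟨h1, rfl⟩, h2, h3⟩ := hx
      have h4 := lt_nrm_exp.1 h2
      exact ⟨⟨by linarith [hL w h1], fun _ => nrm_exp_lt.1 h3⟩,
        by rw [glob_c_inn hL h1 h2, base_c_inn hw]⟩
  have hcase : ∀ w, ∀ x ∈ (T.glob L).U (Sum.inr w),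
      (∃ v, lm L w v • x ∈ (T.base v).U (Sum.inr w)) ∨
        (4 ≤ ‖x‖ ∧ (w ≠ T.root → ‖Real.exp (-L w) • x‖ ≤ T.r / 4) ∧
          (T.glob L).c (Sum.inr w) x = Sum.inr (w, T.orb w x)) := by
    intro w x hx
    by_cases h4 : ‖x‖ < 4
    · exact Or.inl ⟨w, by simpa [lm, mem_base_out, h4] using hx.1⟩
    by_cases h5 : w ≠ T.root ∧ T.r / 4 < ‖Real.exp (-L w) • x‖
    · have hw := h.par_ne h5.1
      refine Or.inl ⟨T.par w, ?_⟩
      rw [lm, if_neg hw, mem_base_inn hw]
      exact ⟨⟨h5.1, rfl⟩, h5.2, nrm_exp_lt.2 (hx.2 h5.1)⟩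
    · exact Or.inr ⟨not_lt.1 h4, fun h6 => not_lt.1 fun h7 => h5 ⟨h6, h7⟩,
        by rw [glob_c_inr, if_neg h4, if_neg h5]⟩
  refine ⟨rfl, glob_open, fun a x => by simp [mem_glob_inl], glob_c_inl, fun w x hx => ?_,
    fun w γ hγ x hx => ?_, fun w v => ?_, fun w v x _ hx => hconv w v x hx, fun w x hx => ?_⟩
  · rw [← norm_pos_iff]; linarith [hx.1]
  · refine ⟨by simpa [mem_glob_inr] using hx, ?_⟩
    rcases hcase w x hx with ⟨v, h1⟩ | ⟨h1, h2, h3⟩
    · have h2 := (h.base v).inv (Sum.inr w) γ hγ _ h1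
      have h3 := (h.base v).c_inv (a := Sum.inr w) hγ h1
      rw [map_smul] at h2 h3
      rw [(hconv w v _ h2).2, (hconv w v _ h1).2, h3]
    · have h4 : ‖Real.exp (-L w) • γ x‖ = ‖Real.exp (-L w) • x‖ := by simp [norm_smul]
      rw [h3, glob_c_inr, γ.norm_map, if_neg (not_lt.2 h1), h4,
        if_neg fun h5 => absurd h5.2 (not_lt.2 (h2 h5.1)), orb_inv hγ]
  · unfold lm; split_ifs
    exacts [one_pos, Real.exp_pos _]
  · rcases hcase w x hx with ⟨v, h1⟩ | ⟨h1, h2, h3⟩
    · exact Or.inl ⟨v, trivial, h1⟩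
    · refine Or.inr ⟨h3, ?_⟩
      have h4 : ∀ᶠ z in 𝓝 x, w ≠ T.root → ‖Real.exp (-L w) • z‖ < T.r / 3 := by
        by_cases hw : w = T.root
        · exact Eventually.of_forall fun _ h5 => absurd hw h5
        · have hc : Continuous fun z : E4 => ‖Real.exp (-L w) • z‖ := by fun_prop
          exact (hc.continuousAt.eventually
            (gt_mem_nhds (show _ < T.r / 3 by linarith [h2 hw]))).mono fun z hz _ => hz
      filter_upwards [h4, continuous_norm.continuousAt.eventually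
        (lt_mem_nhds (show 3 < ‖x‖ by linarith))] with z h5 h6 v _ h7
      refine ⟨fun hw => by simpa [lm, hw] using h6.le, fun hw => ?_⟩
      rw [mem_base_inn hw] at h7
      rw [lm, if_neg hw]
      exact (h5 h7.1.1).le

theorem Ok.glob_ok (h : T.Ok) (hL : T.Long L) : (T.glob L).Ok := (h.str_glob hL).ok h

theorem mem_gK_inl {a : T.B} {x : E4} : x ∈ T.gK L (Sum.inl a) ↔ ‖x‖ ≤ 3 / 2 :=
  mem_closedBall_zero_iff

theorem mem_gK_inr {w : T.V} {x : E4} : x ∈ T.gK L (Sum.inr w) ↔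
    3 / 2 ≤ ‖x‖ ∧ (w ≠ T.root → ‖x‖ ≤ 3 / 4 * T.r * Real.exp (L w)) := Iff.rfl

theorem Ok.glob_pou (h : T.Ok) (hL : T.Long L) : (T.glob L).PoU T.χ (T.gK L) := by
  have hr := h.r_pos
  refine (h.str_glob hL).pou h (fun a x => by simp [mem_gK_inl]) fun w x => ?_
  rw [mem_gK_inr, mem_glob_inr]
  have he := mul_pos hr (Real.exp_pos (L w))
  refine ⟨fun h1 => ⟨⟨by linarith [h1.1], fun hw => by linarith [h1.2 hw]⟩, fun v _ h2 =>
    ⟨fun hw => by simpa [lm, hw] using h1.1, fun hw => ?_⟩⟩, fun h1 => ⟨?_, fun hw => ?_⟩⟩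
  · rw [mem_base_inn hw] at h2
    rw [lm, if_neg hw]
    exact nrm_exp_le.2 (h1.2 h2.1.1)
  · by_contra h2
    have h3 := (h1.2 w trivial (by
      simp only [lm, if_true, one_smul, mem_base_out]; exact ⟨h1.1.1, by linarith⟩)).1 rfl
    exact h2 (by simpa [lm] using h3)
  · by_contra h2
    have hp := h.par_ne hw
    have h3 := (h1.2 (T.par w) trivial (by
      rw [lm, if_neg hp, mem_base_inn hp]
      exact ⟨⟨hw, rfl⟩, lt_nrm_exp.2 (by linarith), nrm_exp_lt.2 (h1.1.2 hw)⟩)).2 hp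
    rw [lm, if_neg hp] at h3
    exact h2 (nrm_exp_le.1 h3)

/-- `χ` on the middle part of a neck -/
theorem Ok.glob_χ_mid (h : T.Ok) (hL : T.Long L) {w : T.V} {x : E4} (hx : 3 ≤ ‖x‖)
    (hx' : w ≠ T.root → ‖x‖ ≤ T.r / 3 * Real.exp (L w)) (s : T.S) :
    T.χ s ((T.glob L).c (Sum.inr w) x) = if s = Sum.inr w then 1 else 0 := by
  have he := mul_pos h.r_pos (Real.exp_pos (L w))
  refine (h.str_glob hL).χ_far h ⟨by linarith, fun hw => by linarith [hx' hw]⟩ (fun v _ h1 =>
    ⟨fun hw => by simpa [lm, hw] using hx, fun hw => ?_⟩) s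
  rw [mem_base_inn hw] at h1
  rw [lm, if_neg hw]
  exact nrm_exp_le.2 (hx' h1.1.1)

/-- the first half of the neck `w` is the outer end of `core w` -/
theorem glob_eq_out {w : T.V} {x : E4} (hx : w ≠ T.root → ‖x‖ ≤ T.r / 4 * Real.exp (L w)) :
    (T.glob L).c (Sum.inr w) x = (T.core w).c (Sum.inr w) x := by
  rw [glob_c_inr, core_c_out]
  split_ifs with h1 h2
  · rfl
  · exact absurd (lt_nrm_exp.1 h2.2) (not_lt.2 (hx h2.1))
  · rfl

/-- `χ` on the second half of the neck `w` is `χ` on the puncture of `core (par w)` -/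
theorem Ok.χ_glob_inn (h : T.Ok) (hL : T.Long L) {w : T.V} (hw : w ≠ T.root) {x : E4}
    (hx : 4 ≤ ‖x‖) (s : T.S) : T.χ s ((T.glob L).c (Sum.inr w) x) =
      T.χ s ((T.core (T.par w)).c (Sum.inr w) (Real.exp (-L w) • x)) := by
  rw [core_c_inn (h.par_ne hw)]
  split_ifs with h1
  · rw [glob_c_inn hL hw h1]
  · rw [glob_c_inr, if_neg (not_lt.2 hx), if_neg fun h2 => h1 h2.2, χ_inr, χ_inr]

/-! ### scales -/

theorem eps_pos (L : T.V → ℝ) (v : T.V) : 0 < T.eps L v := Real.exp_pos _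

theorem Ok.eps_root (h : T.Ok) (L : T.V → ℝ) : T.eps L T.root = 1 := by simp [eps, h.dep_root]

theorem Ok.eps_kid (h : T.Ok) (L : T.V → ℝ) {w : T.V} (hw : w ≠ T.root) :
    T.eps L w = T.eps L (T.par w) * Real.exp (-L w) := by
  rw [eps, eps, h.dep_par w hw, Finset.sum_range_succ', ← Real.exp_add]
  simp only [Function.iterate_succ, Function.comp_apply, Function.iterate_zero, id_eq]
  congr 1; ring

/-- induction over the tree -/
theorem Ok.ind (h : T.Ok) {P : T.V → Prop} (h0 : P T.root)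
    (h1 : ∀ w, w ≠ T.root → P (T.par w) → P w) (v : T.V) : P v := by
  induction hd : T.dep v generalizing v with
  | zero =>
    by_cases hv : v = T.root
    · exact hv ▸ h0
    · have := h.dep_par v hv; omega
  | succ n ih =>
    have hv : v ≠ T.root := fun e => by rw [e, h.dep_root] at hd; omega
    exact h1 v hv (ih _ (by have := h.dep_par v hv; omega))


end TD

end Crest.Agent.N207.I

end
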