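import Crest.Agent.N207.I.Cal1
import Crest.Agent.N207.I.Car1

-- ▼ part N207/I/Cal2
section

/-!
# Row 207, block I (helper67): calculus on an atlas, part 2: change of charts in integrals
-/

set_option autoImplicit false

open scoped ContDiff Topology ENNReal
open Set Filter MeasureTheory
open Crest.GeometryTopology.CoordMetric

noncomputable section

namespace Crest.Agent.N207.I.Atl

variable {X : Type*} {α : Type} {A : Atl X α} {a b : α} {G : α → MetricField 4}

/-- the volume density -/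
def rho (G : α → MetricField 4) (a : α) (x : E4) : ℝ≥0∞ := ENNReal.ofReal √(G a x).det

theorem exists_pieces (h : A.Ok) {B : Set E4} (hB : MeasurableSet B) (hBU : B ⊆ A.U a)
    (hb : ∀ x ∈ B, A.c a x ∈ A.c b '' A.U b) : ∃ (P : ℕ → Set E4) (F : ℕ → E4 → E4),
      (∀ i, MeasurableSet (P i)) ∧ Pairwise (Function.onFun Disjoint P) ∧ ⋃ i, P i = B ∧
      (∀ i, ∀ z ∈ P i, A.Tr a b z (F i)) ∧ ∀ i, InjOn (F i) (P i) := by
  have h1 : ∀ x ∈ B, ∃ p : (E4 → E4) × Set E4, IsOpen p.2 ∧ x ∈ p.2 ∧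
      (∀ z ∈ p.2, A.Tr a b z p.1) ∧ InjOn p.1 p.2 := fun x hx => by
    obtain ⟨y, hy, e⟩ := hb x hx
    obtain ⟨F, t, -⟩ := h.loc a b x (hBU hx) y hy e.symm
    obtain ⟨V, hV⟩ := t.exists_nbhd h
    exact ⟨(F, V), hV⟩
  choose! p hp using h1
  rcases B.eq_empty_or_nonempty with rfl | hne
  · exact ⟨fun _ => ∅, fun _ => id, by simp, fun _ _ _ => by simp, by simp, by simp, by simp⟩
  obtain ⟨s, hs, hc, hcov⟩ := TopologicalSpace.countable_cover_nhdsWithin
    (f := fun x => (p x).2) (s := B) fun x hx =>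
      mem_nhdsWithin_of_mem_nhds ((hp x hx).1.mem_nhds (hp x hx).2.1)
  have hs0 : s.Nonempty := by
    obtain ⟨x, hx⟩ := hne
    obtain ⟨y, hy, -⟩ := mem_iUnion₂.1 (hcov hx)
    exact ⟨y, hy⟩
  obtain ⟨e, rfl⟩ := hc.exists_eq_range hs0
  have he : ∀ i, e i ∈ B := fun i => hs ⟨i, rfl⟩
  refine ⟨disjointed fun i => (p (e i)).2 ∩ B, fun i => (p (e i)).1,
    MeasurableSet.disjointed fun i => (hp _ (he i)).1.measurableSet.inter hB,
    disjoint_disjointed _, ?_, fun i z hz => (hp _ (he i)).2.2.1 z (disjointed_subset _ i hz).1,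
    fun i => (hp _ (he i)).2.2.2.mono fun z hz => (disjointed_subset _ i hz).1⟩
  rw [iUnion_disjointed, ← iUnion_inter, inter_eq_right]
  simpa using hcov

theorem lintegral_tr (h : A.Ok) (hG : A.IsMet G) {P : Set E4} {F : E4 → E4} (hP : MeasurableSet P)
    (t : ∀ z ∈ P, A.Tr a b z F) (hi : InjOn F P) {φ : α → E4 → ℝ≥0∞} (hφ : A.CompF φ) :
    MeasurableSet (F '' P) ∧
      ∫⁻ y in F '' P, rho G b y * φ b y = ∫⁻ x in P, rho G a x * φ a x := by
  have hd : ∀ z ∈ P, HasFDerivWithinAt F (fderiv ℝ F z) P z := fun z hz =>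
    (t z hz).diff.hasFDerivAt.hasFDerivWithinAt
  refine ⟨measurable_image_of_fderivWithin hP hd hi, ?_⟩
  rw [lintegral_image_eq_lintegral_abs_det_fderiv_mul volume hP hd hi]
  refine setLIntegral_congr_fun hP fun z hz => ?_
  simp only [rho]
  rw [hG.sqrt_det h (t z hz), hφ.tr (t z hz), ENNReal.ofReal_mul (Real.sqrt_nonneg _)]
  ring

/-- **change of charts**; `n` is the number of points of `B` over a point of `S` -/
theorem chg (h : A.Ok) (hG : A.IsMet G) {B S : Set E4} (hB : MeasurableSet B) (hBU : B ⊆ A.U a)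
    (hb : ∀ x ∈ B, A.c a x ∈ A.c b '' A.U b) (hS : MeasurableSet S) (hSU : S ⊆ A.U b) (n : ℕ)
    (h1 : ∀ y ∈ S, {x ∈ B | A.c a x = A.c b y}.encard = n)
    (h0 : ∀ y ∈ A.U b, A.c b y ∈ A.c a '' B → y ∈ S) {φ : α → E4 → ℝ≥0∞} (hφ : A.CompF φ) :
    (Nat.card (A.Γ b) : ℝ≥0∞) * ∫⁻ x in B, rho G a x * φ a x =
      n * ∫⁻ y in S, rho G b y * φ b y := by
  classical
  have := h.fin b
  have := Fintype.ofFinite (A.Γ b)
  obtain ⟨P, F, hP, hd, hU, ht, hi⟩ := exists_pieces h hB hBU hb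
  let Q : ℕ × A.Γ b → Set E4 := fun p => (fun z => (p.2 : Iso4) (F p.1 z)) '' P p.1
  have ht' : ∀ p : ℕ × A.Γ b, ∀ z ∈ P p.1, A.Tr a b z fun z => (p.2 : Iso4) (F p.1 z) :=
    fun p z hz => (ht _ z hz).comp (h.tr_deck p.2.2 (ht _ z hz).mem')
  have hQ := fun p : ℕ × A.Γ b => lintegral_tr h hG (hP p.1) (ht' p)
    (fun z hz w hw e => hi _ hz hw (p.2.1.injective e)) hφ
  have hPB : ∀ i, P i ⊆ B := fun i => hU ▸ subset_iUnion P i
  have hcnt : ∀ y, ∑' p, (Q p).indicator (1 : E4 → ℝ≥0∞) y = S.indicator (fun _ => (n : ℝ≥0∞)) y := by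
    intro y
    have e1 : ∀ p, (Q p).indicator (1 : E4 → ℝ≥0∞) y =
        {p | y ∈ Q p}.indicator (fun _ => (1 : ℝ≥0∞)) p := fun p => by
      simp only [indicator, mem_ofPred_eq, Pi.one_apply]
    simp only [e1]
    rw [← tsum_subtype, ENNReal.tsum_set_one]
    by_cases hy : y ∈ S
    · rw [indicator_of_mem hy]
      have hx : ∀ p : ℕ × A.Γ b, y ∈ Q p → ∃ z ∈ P p.1, (p.2 : Iso4) (F p.1 z) = y := fun p hp => hp
      choose! z hz using hx
      have hbij : BijOn z {p | y ∈ Q p} {x ∈ B | A.c a x = A.c b y} := by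
        refine ⟨fun p hp => ⟨hPB _ (hz p hp).1, ?_⟩, fun p hp q hq e => ?_, fun x hx => ?_⟩
        · rw [← (ht' p _ (hz p hp).1).eq0, (hz p hp).2]
        · have e1 : p.1 = q.1 := by
            by_contra hne
            exact disjoint_left.1 (hd hne) (hz p hp).1 (e ▸ (hz q hq).1)
          refine Prod.ext e1 (Subtype.ext (h.deck_inj p.2.2 q.2.2 (ht _ _ (hz p hp).1).mem' ?_))
          rw [(hz p hp).2, e1, e, (hz q hq).2]
        · obtain ⟨i, hxi⟩ := mem_iUnion.1 (hU ▸ hx.1 : x ∈ ⋃ i, P i)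
          obtain ⟨γ, hγ, e⟩ := (h.fib b _ (ht i x hxi).mem' y (hSU hy)).1
            ((ht i x hxi).eq0.trans hx.2)
          have hp : y ∈ Q (i, ⟨γ, hγ⟩) := ⟨x, hxi, e⟩
          exact ⟨_, hp, hi i (hz _ hp).1 hxi (γ.injective ((hz _ hp).2.trans e.symm))⟩
      rw [← hbij.injOn.encard_image, hbij.image_eq, h1 y hy]
      rfl
    · rw [indicator_of_notMem hy, show {p | y ∈ Q p} = ∅ from eq_empty_of_forall_notMem ?_]
      · simp
      · rintro p ⟨z, hz, rfl⟩
        exact hy (h0 _ (ht' p z hz).mem' ⟨z, hPB _ hz, (ht' p z hz).eq0.symm⟩)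
  have hm : (Measure.sum fun p => volume.restrict (Q p)) = (n : ℝ≥0∞) • volume.restrict S := by
    ext E hE
    rw [Measure.sum_apply _ hE, Measure.smul_apply, Measure.restrict_apply hE, smul_eq_mul]
    have e1 : ∀ p, volume.restrict (Q p) E = ∫⁻ y in E, (Q p).indicator 1 y := fun p => by
      rw [lintegral_indicator_one (hQ p).1, Measure.restrict_apply hE,
        Measure.restrict_apply (hQ p).1, inter_comm]
    simp only [e1]
    rw [← lintegral_tsum fun p => (measurable_one.indicator (hQ p).1).aemeasurable]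
    rw [lintegral_congr hcnt, lintegral_indicator_const hS, Measure.restrict_apply hS, inter_comm]
  rw [← smul_eq_mul (n : ℝ≥0∞), ← lintegral_smul_measure, ← hm, lintegral_sum_measure, ← hU,
    lintegral_iUnion hP hd, ENNReal.tsum_prod', ← ENNReal.tsum_mul_left]
  refine tsum_congr fun i => ?_
  simp only [Q, fun γ => (hQ (i, γ)).2]
  simp

/-- the part of the chart `a` that meets the chart `b` -/
def ov (A : Atl X α) (a b : α) : Set E4 := {x ∈ A.U a | A.c a x ∈ A.c b '' A.U b}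

theorem isOpen_pre (h : A.Ok) {B : Set E4} (hB : IsOpen B) (hBU : B ⊆ A.U a) (b : α) :
    IsOpen {y ∈ A.U b | A.c b y ∈ A.c a '' B} :=
  isOpen_iff_mem_nhds.2 fun _ hy =>
    (((h.isOpen b).eventually_mem hy.1).and (Tr.ev_mem_image h hB hBU hy.1 hy.2) :)

theorem isOpen_ov (h : A.Ok) (a b : α) : IsOpen (A.ov a b) :=
  isOpen_pre h (h.isOpen b) Subset.rfl a

theorem encard_fib (h : A.Ok) {x : E4} (hx : x ∈ A.U a) :
    {z ∈ A.U a | A.c a z = A.c a x}.encard = Nat.card (A.Γ a) := by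
  have := h.fin a
  have e : {z ∈ A.U a | A.c a z = A.c a x} = range fun γ : A.Γ a => (γ : Iso4) x := by
    ext z
    refine ⟨fun hz => ?_, ?_⟩
    · obtain ⟨γ, hγ, e⟩ := (h.fib a x hx z hz.1).1 hz.2.symm
      exact ⟨⟨γ, hγ⟩, e⟩
    · rintro ⟨γ, rfl⟩
      exact ⟨h.inv a γ γ.2 x hx, h.c_deck γ.2 hx⟩
  rw [e, ← image_univ, Function.Injective.encard_image
    fun γ δ e => Subtype.ext (h.deck_inj γ.2 δ.2 hx e), encard_univ, ENat.card_eq_coe_natCard]

theorem chg_ov (h : A.Ok) (hG : A.IsMet G) (a b : α) {φ : α → E4 → ℝ≥0∞} (hφ : A.CompF φ) :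
    (Nat.card (A.Γ b) : ℝ≥0∞) * ∫⁻ x in A.ov a b, rho G a x * φ a x =
      Nat.card (A.Γ a) * ∫⁻ y in A.ov b a, rho G b y * φ b y := by
  refine chg h hG (isOpen_ov h a b).measurableSet (fun _ hx => hx.1) (fun _ hx => hx.2)
    (isOpen_ov h b a).measurableSet (fun _ hx => hx.1) _ (fun y hy => ?_)
    (fun y hy e => ⟨hy, image_mono (fun _ hx => hx.1) e⟩) hφ
  obtain ⟨x, hx, e⟩ := hy.2
  rw [← encard_fib h hx, e]
  congr 1
  ext z
  exact ⟨fun k => ⟨k.1.1, k.2⟩, fun k => ⟨⟨k.1, y, hy.1, k.2.symm⟩, k.2⟩⟩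

/-- a set on which the chart is injective is a fundamental domain of its saturation -/
theorem chg_inj (h : A.Ok) (hG : A.IsMet G) {B : Set E4} (hB : IsOpen B) (hBU : B ⊆ A.U a)
    (hi : InjOn (A.c a) B) {φ : α → E4 → ℝ≥0∞} (hφ : A.CompF φ) :
    (Nat.card (A.Γ a) : ℝ≥0∞) * ∫⁻ x in B, rho G a x * φ a x =
      ∫⁻ y in {y ∈ A.U a | A.c a y ∈ A.c a '' B}, rho G a y * φ a y := by
  have := chg h hG hB.measurableSet hBU (fun x hx => ⟨x, hBU hx, rfl⟩)
    (isOpen_pre h hB hBU a).measurableSet (fun _ hx => hx.1) 1 (fun y hy => ?_)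
    (fun y hy e => ⟨hy, e⟩) hφ
  · simpa using this
  · obtain ⟨x, hx, e⟩ := hy.2
    rw [show {z ∈ B | A.c a z = A.c a y} = {x} from ?_]
    · simp
    · ext z
      exact ⟨fun k => hi k.1 hx (k.2.trans e.symm), fun k => k ▸ ⟨hx, e⟩⟩

theorem card_ne (h : A.Ok) (a : α) : (Nat.card (A.Γ a) : ℝ≥0∞) ≠ 0 := by
  have := h.fin a
  exact_mod_cast Nat.card_pos.ne'

theorem card_pos (h : A.Ok) (a : α) : (0 : ℝ) < Nat.card (A.Γ a) := by
  have := h.fin a
  exact_mod_cast Nat.card_pos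

variable [Fintype α] {χ : α → X → ℝ} {K : α → Set E4}

omit [Fintype α] in
theorem ofReal_den (h : A.Ok) (h0 : ∀ a p, 0 ≤ χ a p) (a : α) (x : E4) :
    ENNReal.ofReal (A.den χ G a x) =
      (Nat.card (A.Γ a) : ℝ≥0∞)⁻¹ * (rho G a x * ENNReal.ofReal (χ a (A.c a x))) := by
  rw [den, ENNReal.ofReal_mul (by positivity), ENNReal.ofReal_mul (h0 _ _), rho,
    ENNReal.ofReal_inv_of_pos (card_pos h a), ENNReal.ofReal_natCast, mul_comm (ENNReal.ofReal _)]

/-- the part of the integral that is seen by the chart `a` -/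
theorem sum_ov (h : A.Ok) (hG : A.IsMet G) (hχ : A.PoU χ K) {φ : α → E4 → ℝ≥0∞} (hφ : A.CompF φ)
    (a : α) (hm : AEMeasurable (φ a) (volume.restrict (A.U a))) :
    ∑ b, ∫⁻ y in A.ov b a, ENNReal.ofReal (A.den χ G b y) * φ b y =
      (Nat.card (A.Γ a) : ℝ≥0∞)⁻¹ * ∫⁻ x in A.U a, rho G a x * φ a x := by
  have hU := (h.isOpen a).measurableSet
  have e1 : ∀ b, ∫⁻ y in A.ov b a, ENNReal.ofReal (A.den χ G b y) * φ b y =
      (Nat.card (A.Γ a) : ℝ≥0∞)⁻¹ *
        ∫⁻ x in A.U a, rho G a x * (ENNReal.ofReal (χ b (A.c a x)) * φ a x) := by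
    intro b
    have e2 := chg_ov h hG a b (φ := fun d x => ENNReal.ofReal (χ b (A.c d x)) * φ d x)
      ((compF_comp (χ b)).map₂ hφ fun s t => ENNReal.ofReal s * t)
    have e3 : ∫⁻ x in A.ov a b, rho G a x * (ENNReal.ofReal (χ b (A.c a x)) * φ a x) =
        ∫⁻ x in A.U a, rho G a x * (ENNReal.ofReal (χ b (A.c a x)) * φ a x) := by
      rw [← lintegral_indicator (isOpen_ov h a b).measurableSet, ← lintegral_indicator hU]
      refine lintegral_congr fun x => ?_
      by_cases hx : x ∈ A.ov a b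
      · rw [indicator_of_mem hx, indicator_of_mem hx.1]
      · rw [indicator_of_notMem hx]
        by_cases hx' : x ∈ A.U a
        · have : χ b (A.c a x) = 0 := by
            by_contra hne
            exact hx ⟨hx', image_mono (hχ.sub b) (hχ.supp b a x hx' hne)⟩
          simp [indicator_of_mem hx', this]
        · rw [indicator_of_notMem hx']
    simp only [ofReal_den h hχ.nonneg, mul_assoc]
    rw [lintegral_const_mul' _ _ (ENNReal.inv_ne_top.2 (card_ne h b)), ← e3,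
      ← ENNReal.mul_right_inj (card_ne h a) (ENNReal.natCast_ne_top _), mul_left_comm, ← e2,
      ENNReal.inv_mul_cancel_left (card_ne h b) (ENNReal.natCast_ne_top _),
      ENNReal.mul_inv_cancel_left (card_ne h a) (ENNReal.natCast_ne_top _)]
  simp only [e1]
  have mρ : AEMeasurable (rho G a) (volume.restrict (A.U a)) :=
    ((sm_sqrt_det (hG.riem a)).continuousOn.aemeasurable hU).ennreal_ofReal
  rw [← Finset.mul_sum, ← lintegral_finsetSum' _
    (f := fun b x => rho G a x * (ENNReal.ofReal (χ b (A.c a x)) * φ a x)) fun b _ =>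
    mρ.mul (((hχ.sm b a).continuousOn.aemeasurable hU).ennreal_ofReal.mul hm)]
  congr 1
  refine setLIntegral_congr_fun hU fun x hx => ?_
  rw [← Finset.mul_sum, ← Finset.sum_mul,
    ← ENNReal.ofReal_sum_of_nonneg fun b _ => hχ.nonneg b _, hχ.sum a x hx]
  simp

theorem chart_le (h : A.Ok) (hG : A.IsMet G) (hχ : A.PoU χ K) {φ : α → E4 → ℝ≥0∞}
    (hφ : A.CompF φ) (a : α) (hm : AEMeasurable (φ a) (volume.restrict (A.U a))) :
    (Nat.card (A.Γ a) : ℝ≥0∞)⁻¹ * ∫⁻ x in A.U a, rho G a x * φ a x ≤ A.lint χ G φ := by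
  rw [← sum_ov h hG hχ hφ a hm]
  exact Finset.sum_le_sum fun b _ => lintegral_mono_set fun _ hx => hx.1

/-- **one-chart formula** -/
theorem lint_chart (h : A.Ok) (hG : A.IsMet G) (hχ : A.PoU χ K) {φ : α → E4 → ℝ≥0∞}
    (hφ : A.CompF φ) (a : α) (hm : AEMeasurable (φ a) (volume.restrict (A.U a)))
    (hs : ∀ b, ∀ y ∈ A.U b, φ b y ≠ 0 → A.c b y ∈ A.c a '' A.U a) :
    A.lint χ G φ = (Nat.card (A.Γ a) : ℝ≥0∞)⁻¹ * ∫⁻ x in A.U a, rho G a x * φ a x := by
  rw [← sum_ov h hG hχ hφ a hm]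
  refine Finset.sum_congr rfl fun b _ => ?_
  rw [← lintegral_indicator (isOpen_ov h b a).measurableSet,
    ← lintegral_indicator (h.isOpen b).measurableSet]
  refine lintegral_congr fun y => ?_
  by_cases hy : y ∈ A.ov b a
  · rw [indicator_of_mem hy, indicator_of_mem hy.1]
  · rw [indicator_of_notMem hy]
    by_cases hy' : y ∈ A.U b
    · have : φ b y = 0 := by
        by_contra hne
        exact hy ⟨hy', hs b y hy' hne⟩
      simp [indicator_of_mem hy', this]
    · rw [indicator_of_notMem hy']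


theorem lint_inj (h : A.Ok) (hG : A.IsMet G) (hχ : A.PoU χ K) {φ : α → E4 → ℝ≥0∞}
    (hφ : A.CompF φ) {B : Set E4} (hB : IsOpen B) (hBU : B ⊆ A.U a) (hi : InjOn (A.c a) B)
    (hm : AEMeasurable (φ a) (volume.restrict (A.U a)))
    (hs : ∀ b, ∀ y ∈ A.U b, φ b y ≠ 0 → A.c b y ∈ A.c a '' B) :
    A.lint χ G φ = ∫⁻ x in B, rho G a x * φ a x := by
  rw [lint_chart h hG hχ hφ a hm fun b y hy e => image_mono hBU (hs b y hy e),
    ← ENNReal.inv_mul_cancel_left (card_ne h a) (ENNReal.natCast_ne_top _)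
    (b := ∫⁻ x in B, rho G a x * φ a x), chg_inj h hG hB hBU hi hφ,
    ← lintegral_indicator (isOpen_pre h hB hBU a).measurableSet,
    ← lintegral_indicator (h.isOpen a).measurableSet]
  congr 1
  refine lintegral_congr fun y => ?_
  by_cases hy : y ∈ {y ∈ A.U a | A.c a y ∈ A.c a '' B}
  · rw [indicator_of_mem hy, indicator_of_mem hy.1]
  · rw [indicator_of_notMem hy]
    by_cases hy' : y ∈ A.U a
    · have : φ a y = 0 := by
        by_contra hne
        exact hy ⟨hy', hs a y hy' hne⟩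
      simp [indicator_of_mem hy', this]
    · rw [indicator_of_notMem hy']

end Crest.Agent.N207.I.Atl

end
end

-- ▼ part N207/I/Cal3

/-!
# Row 207, block I (helper67): calculus on an atlas, part 3: the real integral
-/

set_option autoImplicit false

open scoped ContDiff Topology ENNReal
open Set Filter MeasureTheory
open Crest.GeometryTopology.CoordMetric

noncomputable section

namespace Crest.Agent.N207.I.Atl

variable {X : Type*} {α : Type} {A : Atl X α} {a b : α} {G : α → MetricField 4}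
  {χ : α → X → ℝ} {K : α → Set E4} {f g : α → E4 → ℝ} {S S' : Set X}

/-- measurable families -/
def Ms (A : Atl X α) (f : α → E4 → ℝ) : Prop :=
  ∀ a, AEStronglyMeasurable (f a) (volume.restrict (A.U a))

/-- continuous families -/
def Ct (A : Atl X α) (f : α → E4 → ℝ) : Prop := ∀ a, ContinuousOn (f a) (A.U a)

/-- relatively compact subsets of the carrier -/
def CS (A : Atl X α) (S : Set X) : Prop :=
  ∃ C : α → Set E4, (∀ a, IsCompact (C a) ∧ C a ⊆ A.U a) ∧ S ⊆ ⋃ a, A.c a '' C a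

/-- `f` vanishes off `S` -/
def Van (A : Atl X α) {Y : Type*} [Zero Y] (f : α → E4 → Y) (S : Set X) : Prop :=
  ∀ b, ∀ y ∈ A.U b, f b y ≠ 0 → A.c b y ∈ S

theorem Ct.ms (h : A.Ok) (hf : A.Ct f) : A.Ms f := fun a =>
  (hf a).aestronglyMeasurable (h.isOpen a).measurableSet

theorem CS.mono (hS : A.CS S) (e : S' ⊆ S) : A.CS S' :=
  let ⟨C, h1, h2⟩ := hS; ⟨C, h1, e.trans h2⟩

theorem CS.union (hS : A.CS S) (hS' : A.CS S') : A.CS (S ∪ S') := by
  obtain ⟨C, h1, h2⟩ := hS
  obtain ⟨C', h1', h2'⟩ := hS'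
  refine ⟨fun a => C a ∪ C' a, fun a => ⟨(h1 a).1.union (h1' a).1,
    union_subset (h1 a).2 (h1' a).2⟩, union_subset ?_ ?_⟩
  · exact h2.trans (iUnion_mono fun a => image_mono subset_union_left)
  · exact h2'.trans (iUnion_mono fun a => image_mono subset_union_right)

theorem cs_image {C : Set E4} (hC : IsCompact C) (hU : C ⊆ A.U a) : A.CS (A.c a '' C) := by
  classical
  refine ⟨fun b => if b = a then C else ∅, fun b => ?_, subset_iUnion_of_subset a (by simp)⟩
  dsimp only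
  split_ifs with e
  · exact ⟨hC, e ▸ hU⟩
  · simp

/-- a relatively compact set lies in a closed one -/
theorem CS.exists_cl [Finite α] (h : A.Ok) (hS : A.CS S) : ∃ S', S ⊆ S' ∧ A.CS S' ∧ A.Cl S' := by
  obtain ⟨C, h1, h2⟩ := hS
  refine ⟨_, h2, ⟨C, h1, Subset.rfl⟩, fun b y hy hn => ?_⟩
  simp only [mem_iUnion, not_exists] at hn ⊢
  exact eventually_all.2 fun a => h.cl_cpt (h1 a).1 (h1 a).2 b y hy (hn a)

theorem Van.mono {Y : Type*} [Zero Y] {f : α → E4 → Y} (hf : A.Van f S) (e : S ⊆ S') :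
    A.Van f S' := fun b y hy k => e (hf b y hy k)

theorem Van.of_imp {Y Z : Type*} [Zero Y] [Zero Z] {f : α → E4 → Y} {g : α → E4 → Z}
    (hf : A.Van f S) (e : ∀ b, ∀ y ∈ A.U b, f b y = 0 → g b y = 0) : A.Van g S :=
  fun b y hy k => hf b y hy fun k' => k (e b y hy k')

/-- off a closed support the family vanishes near the point -/
theorem Van.ev {Y : Type*} [Zero Y] {f : α → E4 → Y} (h : A.Ok) (hf : A.Van f S) (hc : A.Cl S)
    {y : E4} (hy : y ∈ A.U b) (hn : A.c b y ∉ S) : f b =ᶠ[𝓝 y] 0 := by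
  filter_upwards [hc b y hy hn, (h.isOpen b).mem_nhds hy] with z h1 h2
  by_contra k
  exact h1 (hf b z h2 k)

/-- local operators preserve closed supports -/
theorem Van.op {Y Z : Type*} [Zero Y] [Zero Z] {f : α → E4 → Y} {g : α → E4 → Z} (h : A.Ok)
    (hf : A.Van f S) (hc : A.Cl S) (e : ∀ b, ∀ y ∈ A.U b, f b =ᶠ[𝓝 y] 0 → g b y = 0) :
    A.Van g S := fun b y hy k => by
  by_contra hn
  exact k (e b y hy (hf.ev h hc hy hn))

/-- the trace of a compact set on a closed piece of the chart `a` is relatively compact -/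
theorem exists_cpt₁ (h : A.Ok) {K C : Set E4} (hK : K ⊆ A.U a) (hc : A.Cl (A.c a '' K))
    (hC : IsCompact C) (hU : C ⊆ A.U b) : ∃ D, IsCompact D ∧ D ⊆ A.U a ∧
      ∀ x ∈ A.U a, A.c a x ∈ A.c a '' K → A.c a x ∈ A.c b '' C → x ∈ D := by
  have := h.fin a
  refine hC.induction_on (p := fun C => ∃ D, IsCompact D ∧ D ⊆ A.U a ∧
      ∀ x ∈ A.U a, A.c a x ∈ A.c a '' K → A.c a x ∈ A.c b '' (C ∩ A.U b) → x ∈ D)
    ⟨∅, isCompact_empty, empty_subset _, by simp⟩ ?_ ?_ ?_ |>.imp fun D hD =>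
      ⟨hD.1, hD.2.1, by simpa only [inter_eq_left.2 hU] using hD.2.2⟩
  · rintro s t hst ⟨D, h1, h2, h3⟩
    exact ⟨D, h1, h2, fun x hx k k' => h3 x hx k (image_mono (inter_subset_inter_left _ hst) k')⟩
  · rintro s t ⟨D, h1, h2, h3⟩ ⟨D', h1', h2', h3'⟩
    refine ⟨D ∪ D', h1.union h1', union_subset h2 h2', fun x hx k k' => ?_⟩
    rw [union_inter_distrib_right, image_union] at k'
    exact k'.imp (h3 x hx k) (h3' x hx k)
  · intro y hy
    by_cases e : A.c b y ∈ A.c a '' K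
    · obtain ⟨x, hx, e⟩ := e
      obtain ⟨F, t, -⟩ := h.loc b a y (hU hy) x (hK hx) e.symm
      obtain ⟨N, h1, h2, h3⟩ := local_compact_nhds (t.ev h)
      refine ⟨N, mem_nhdsWithin_of_mem_nhds h1, ⋃ γ : A.Γ a, (fun z => (γ : Iso4) (F z)) '' N,
        isCompact_iUnion fun γ => h3.image_of_continuousOn fun z hz =>
          (γ.1.continuous.continuousAt.comp (h2 hz).cont).continuousWithinAt, ?_, ?_⟩
      · refine iUnion_subset fun γ => ?_
        rintro _ ⟨z, hz, rfl⟩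
        exact h.inv a γ γ.2 _ (h2 hz).mem'
      · rintro x' hx' - ⟨z, hz, e'⟩
        obtain ⟨γ, hγ, e2⟩ := (h.fib a _ (h2 hz.1).mem' x' hx').1 ((h2 hz.1).eq0.trans e')
        exact mem_iUnion.2 ⟨⟨γ, hγ⟩, z, hz.1, e2⟩
    · refine ⟨_, mem_nhdsWithin_of_mem_nhds (hc b y (hU hy) e), ∅, isCompact_empty,
        empty_subset _, ?_⟩
      rintro x' - k ⟨z, hz, e'⟩
      exact hz.1 (e' ▸ k)

theorem CS.exists_cpt [Finite α] (h : A.Ok) (hS : A.CS S) {K : Set E4} (hK : K ⊆ A.U a)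
    (hc : A.Cl (A.c a '' K)) : ∃ D, IsCompact D ∧ D ⊆ A.U a ∧
      ∀ x ∈ A.U a, A.c a x ∈ A.c a '' K → A.c a x ∈ S → x ∈ D := by
  obtain ⟨C, h1, h2⟩ := hS
  choose D d1 d2 d3 using fun b => exists_cpt₁ h hK hc (h1 b).1 (h1 b).2
  refine ⟨⋃ b, D b, isCompact_iUnion d1, iUnion_subset d2, fun x hx k k' => ?_⟩
  obtain ⟨b, hb⟩ := mem_iUnion.1 (h2 k')
  exact mem_iUnion.2 ⟨b, d3 b x hx k hb⟩

theorem integrableOn_of_cpt {U D : Set E4} {u : E4 → ℝ} (hU : IsOpen U) (hD : IsCompact D)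
    (hDU : D ⊆ U) (hu : ContinuousOn u U) (h0 : ∀ x ∈ U, x ∉ D → u x = 0) : IntegrableOn u U :=
  ((hu.mono hDU).integrableOn_compact hD).of_forall_sdiff_eq_zero hU.measurableSet
    fun x hx => h0 x hx.1 hx.2

theorem Intg.add (hf : A.Intg χ G f) (hg : A.Intg χ G g) :
    A.Intg χ G fun a x => f a x + g a x := fun a => by
  simp only [mul_add]; exact (hf a).add (hg a)

theorem Intg.sub (hf : A.Intg χ G f) (hg : A.Intg χ G g) :
    A.Intg χ G fun a x => f a x - g a x := fun a => by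
  simp only [mul_sub]; exact (hf a).sub (hg a)

theorem Intg.const_mul (hf : A.Intg χ G f) (c : ℝ) : A.Intg χ G fun a x => c * f a x := fun a => by
  simp only [mul_left_comm _ c]; exact Integrable.const_mul (hf a) c

theorem Intg.neg (hf : A.Intg χ G f) : A.Intg χ G fun a x => -f a x := fun a => by
  simp only [mul_neg]; exact (hf a).neg


theorem Intg.sum {ι : Type*} (s : Finset ι) {F : ι → α → E4 → ℝ}
    (hF : ∀ i ∈ s, A.Intg χ G (F i)) : A.Intg χ G fun a x => ∑ i ∈ s, F i a x := fun a => by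
  simp only [Finset.mul_sum]
  exact integrable_finsetSum s fun i hi => hF i hi a

theorem Intg.congr (h : A.Ok) (hf : A.Intg χ G f) (e : ∀ a, ∀ x ∈ A.U a, g a x = f a x) :
    A.Intg χ G g := fun a =>
  (hf a).congr_fun (fun x hx => by simp only [e a x hx]) (h.isOpen a).measurableSet

variable [Fintype α]

theorem den_nonneg (hχ : A.PoU χ K) (a : α) (x : E4) : 0 ≤ A.den χ G a x :=
  mul_nonneg (by positivity) (mul_nonneg (hχ.nonneg _ _) (Real.sqrt_nonneg _))

theorem sm_den (hG : A.IsMet G) (hχ : A.PoU χ K) (a : α) :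
    ContDiffOn ℝ ∞ (A.den χ G a) (A.U a) :=
  contDiffOn_const.mul ((hχ.sm a a).mul (sm_sqrt_det (hG.riem a)))

theorem Intg.mono (h : A.Ok) (hG : A.IsMet G) (hχ : A.PoU χ K) (hg : A.Intg χ G g)
    (hf : A.Ms f) (e : ∀ a, ∀ x ∈ A.U a, |f a x| ≤ g a x) : A.Intg χ G f := fun a => by
  refine Integrable.mono' (hg a) (((sm_den hG hχ a).continuousOn.aestronglyMeasurable
    (h.isOpen a).measurableSet).mul (hf a)) ?_
  filter_upwards [ae_restrict_mem (h.isOpen a).measurableSet] with x hx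
  rw [Real.norm_eq_abs, abs_mul, abs_of_nonneg (den_nonneg hχ a x)]
  exact mul_le_mul_of_nonneg_left (e a x hx) (den_nonneg hχ a x)

/-- continuous families with compact support are integrable -/
theorem intg_of_cs (h : A.Ok) (hG : A.IsMet G) (hχ : A.PoU χ K) (hS : A.CS S) (hf : A.Ct f)
    (hv : A.Van f S) : A.Intg χ G f := fun a => by
  obtain ⟨D, d1, d2, d3⟩ := hS.exists_cpt h (hχ.sub a) (hχ.cl a)
  refine integrableOn_of_cpt (h.isOpen a) d1 d2 ((sm_den hG hχ a).continuousOn.mul (hf a))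
    fun x hx hn => ?_
  by_contra k
  exact hn (d3 x hx (hχ.supp a a x hx fun e => k (by simp [den, e]))
    (hv a x hx fun e => k (by simp [e])))

theorem int_add (hf : A.Intg χ G f) (hg : A.Intg χ G g) :
    A.int χ G (fun a x => f a x + g a x) = A.int χ G f + A.int χ G g := by
  simp only [int, mul_add, fun a => integral_add (hf a) (hg a), Finset.sum_add_distrib]

theorem int_sub (hf : A.Intg χ G f) (hg : A.Intg χ G g) :
    A.int χ G (fun a x => f a x - g a x) = A.int χ G f - A.int χ G g := by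
  simp only [int, mul_sub, fun a => integral_sub (hf a) (hg a), Finset.sum_sub_distrib]

theorem int_const_mul (c : ℝ) (f : α → E4 → ℝ) :
    A.int χ G (fun a x => c * f a x) = c * A.int χ G f := by
  simp only [int, mul_left_comm _ c, integral_const_mul, Finset.mul_sum]

theorem int_neg (f : α → E4 → ℝ) : A.int χ G (fun a x => -f a x) = -A.int χ G f := by
  simp only [int, mul_neg, integral_neg, Finset.sum_neg_distrib]

theorem int_zero : A.int χ G (fun _ _ => 0) = 0 := by simp [int]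

theorem int_sum {ι : Type*} (s : Finset ι) {F : ι → α → E4 → ℝ}
    (hF : ∀ i ∈ s, A.Intg χ G (F i)) :
    A.int χ G (fun a x => ∑ i ∈ s, F i a x) = ∑ i ∈ s, A.int χ G (F i) := by
  simp only [int, Finset.mul_sum]
  rw [Finset.sum_comm]
  exact Finset.sum_congr rfl fun a _ => integral_finsetSum s fun i hi => hF i hi a

theorem int_congr (h : A.Ok) (e : ∀ a, ∀ x ∈ A.U a, f a x = g a x) :
    A.int χ G f = A.int χ G g := Finset.sum_congr rfl fun a _ =>
  setIntegral_congr_fun (h.isOpen a).measurableSet fun x hx => by simp only [e a x hx]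

theorem int_mono (h : A.Ok) (hχ : A.PoU χ K) (hf : A.Intg χ G f) (hg : A.Intg χ G g)
    (e : ∀ a, ∀ x ∈ A.U a, f a x ≤ g a x) : A.int χ G f ≤ A.int χ G g :=
  Finset.sum_le_sum fun a _ => setIntegral_mono_on (hf a) (hg a) (h.isOpen a).measurableSet
    fun x hx => mul_le_mul_of_nonneg_left (e a x hx) (den_nonneg hχ a x)

theorem int_nonneg (h : A.Ok) (hχ : A.PoU χ K) (e : ∀ a, ∀ x ∈ A.U a, 0 ≤ f a x) :
    0 ≤ A.int χ G f := Finset.sum_nonneg fun a _ =>
  setIntegral_nonneg (h.isOpen a).measurableSet fun x hx =>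
    mul_nonneg (den_nonneg hχ a x) (e a x hx)

theorem abs_int_le (hχ : A.PoU χ K) (f : α → E4 → ℝ) :
    |A.int χ G f| ≤ A.int χ G fun a x => |f a x| :=
  (Finset.abs_sum_le_sum_abs _ _).trans (Finset.sum_le_sum fun a _ => by
    simpa only [abs_mul, abs_of_nonneg (den_nonneg hχ a _)] using
      abs_integral_le_integral_abs (μ := volume.restrict (A.U a))
        (f := fun x => A.den χ G a x * f a x))

theorem lint_mono (h : A.Ok) {φ ψ : α → E4 → ℝ≥0∞} (e : ∀ a, ∀ x ∈ A.U a, φ a x ≤ ψ a x) :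
    A.lint χ G φ ≤ A.lint χ G ψ := Finset.sum_le_sum fun a _ =>
  setLIntegral_mono' (h.isOpen a).measurableSet fun x hx => mul_le_mul_right (e a x hx) _

theorem intg_iff (h : A.Ok) (hG : A.IsMet G) (hχ : A.PoU χ K) (hf : A.Ms f) :
    A.Intg χ G f ↔ A.lint χ G (fun a x => ENNReal.ofReal |f a x|) < ⊤ := by
  rw [lint, ENNReal.sum_lt_top]
  refine forall_congr' fun a => ?_
  have hm : AEStronglyMeasurable (fun x => A.den χ G a x * f a x) (volume.restrict (A.U a)) :=
    ((sm_den hG hχ a).continuousOn.aestronglyMeasurable (h.isOpen a).measurableSet).mul (hf a)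
  simp only [IntegrableOn, Integrable, hm, true_and, hasFiniteIntegral_iff_norm, Real.norm_eq_abs,
    abs_mul, abs_of_nonneg (den_nonneg hχ a _), ENNReal.ofReal_mul (den_nonneg hχ a _),
    Finset.mem_univ, forall_const]

theorem int_eq_lint (hχ : A.PoU χ K) (hf : A.Intg χ G f) : A.int χ G f =
    (A.lint χ G fun a x => ENNReal.ofReal (f a x)).toReal -
      (A.lint χ G fun a x => ENNReal.ofReal (-f a x)).toReal := by
  simp only [lint, ← ENNReal.ofReal_mul (den_nonneg hχ _ _), mul_neg]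
  rw [ENNReal.toReal_sum fun a _ => (hf a).lintegral_lt_top.ne,
    ENNReal.toReal_sum (f := fun a => ∫⁻ x in A.U a, ENNReal.ofReal (-(A.den χ G a x * f a x)))
      fun a _ => (hf a).neg.lintegral_lt_top.ne, ← Finset.sum_sub_distrib]
  exact Finset.sum_congr rfl fun a _ =>
    integral_eq_lintegral_pos_part_sub_lintegral_neg_part (hf a)

theorem ofReal_int (h : A.Ok) (hχ : A.PoU χ K) (hf : A.Intg χ G f)
    (e : ∀ a, ∀ x ∈ A.U a, 0 ≤ f a x) :
    ENNReal.ofReal (A.int χ G f) = A.lint χ G fun a x => ENNReal.ofReal (f a x) := by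
  have h0 : ∀ a, ∀ x ∈ A.U a, 0 ≤ A.den χ G a x * f a x := fun a x hx =>
    mul_nonneg (den_nonneg hχ a x) (e a x hx)
  simp only [lint, int, ← ENNReal.ofReal_mul (den_nonneg hχ _ _)]
  rw [ENNReal.ofReal_sum_of_nonneg fun a _ =>
    setIntegral_nonneg (h.isOpen a).measurableSet (h0 a)]
  exact Finset.sum_congr rfl fun a _ => ofReal_integral_eq_lintegral_ofReal (hf a)
    ((ae_restrict_mem (h.isOpen a).measurableSet).mono (h0 a))

/-- transfer of a formula for `lint` to `int` -/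
theorem transfer (h : A.Ok) (hG : A.IsMet G) (hχ : A.PoU χ K) (hf : A.Ms f) {B : Set E4}
    (hBU : B ⊆ A.U a) {c : ℝ} (hc : 0 < c)
    (e : ∀ φ : ℝ → ℝ≥0∞, Measurable φ → φ 0 = 0 → A.lint χ G (fun a x => φ (f a x)) =
      ENNReal.ofReal c * ∫⁻ x in B, rho G a x * φ (f a x)) :
    (A.Intg χ G f ↔ IntegrableOn (fun x => √(G a x).det * f a x) B) ∧
      (A.Intg χ G f → A.int χ G f = c * ∫ x in B, √(G a x).det * f a x) := by
  have hm : AEStronglyMeasurable (fun x => √(G a x).det * f a x) (volume.restrict B) :=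
    (((sm_sqrt_det (hG.riem a)).continuousOn.aestronglyMeasurable
      (h.isOpen a).measurableSet).mul (hf a)).mono_set hBU
  have h1 : A.Intg χ G f ↔ IntegrableOn (fun x => √(G a x).det * f a x) B := by
    rw [intg_iff h hG hχ hf, e (fun t => ENNReal.ofReal |t|) (by fun_prop) (by simp)]
    simp only [IntegrableOn, Integrable, hm, true_and, hasFiniteIntegral_iff_norm, Real.norm_eq_abs,
      abs_mul, abs_of_nonneg (Real.sqrt_nonneg _), ENNReal.ofReal_mul (Real.sqrt_nonneg _), rho]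
    exact ⟨fun k => ENNReal.lt_top_of_mul_ne_top_right k.ne (by simpa using hc),
      fun k => ENNReal.mul_lt_top ENNReal.ofReal_lt_top k⟩
  refine ⟨h1, fun hi => ?_⟩
  rw [int_eq_lint hχ hi, e ENNReal.ofReal (by fun_prop) (by simp),
    e (fun t => ENNReal.ofReal (-t)) (by fun_prop) (by simp),
    integral_eq_lintegral_pos_part_sub_lintegral_neg_part (h1.1 hi)]
  simp only [rho, ← ENNReal.ofReal_mul (Real.sqrt_nonneg _), mul_neg, ENNReal.toReal_mul,
    ENNReal.toReal_ofReal hc.le, mul_sub]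

/-- **one-chart formula** -/
theorem int_chart (h : A.Ok) (hG : A.IsMet G) (hχ : A.PoU χ K) (hc : A.CompF f) (hf : A.Ms f)
    (hv : A.Van f (A.c a '' A.U a)) :
    (A.Intg χ G f ↔ IntegrableOn (fun x => √(G a x).det * f a x) (A.U a)) ∧
      (A.Intg χ G f →
        A.int χ G f = (Nat.card (A.Γ a) : ℝ)⁻¹ * ∫ x in A.U a, √(G a x).det * f a x) :=
  transfer h hG hχ hf Subset.rfl (inv_pos.2 (card_pos h a)) fun φ hφ h0 => by
    rw [lint_chart h hG hχ (hc.map φ) a (hφ.comp_aemeasurable (hf a).aemeasurable)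
      (hv.of_imp fun b y _ k => by rw [k, h0]), ENNReal.ofReal_inv_of_pos (card_pos h a),
      ENNReal.ofReal_natCast]

/-- the same for a support in an open set on which the chart is injective -/
theorem int_inj (h : A.Ok) (hG : A.IsMet G) (hχ : A.PoU χ K) (hc : A.CompF f) (hf : A.Ms f)
    {B : Set E4} (hB : IsOpen B) (hBU : B ⊆ A.U a) (hi : InjOn (A.c a) B)
    (hv : A.Van f (A.c a '' B)) :
    (A.Intg χ G f ↔ IntegrableOn (fun x => √(G a x).det * f a x) B) ∧
      (A.Intg χ G f → A.int χ G f = ∫ x in B, √(G a x).det * f a x) := by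
  simpa using transfer h hG hχ hf hBU one_pos fun φ hφ h0 => by
    rw [lint_inj h hG hχ (hc.map φ) hB hBU hi (hφ.comp_aemeasurable (hf a).aemeasurable)
      (hv.of_imp fun b y _ k => by rw [k, h0])]
    simp

/-- a chart sees at most `|Γ a|` times the integral -/
theorem int_chart_le (h : A.Ok) (hG : A.IsMet G) (hχ : A.PoU χ K) (hc : A.CompF f) (hf : A.Ms f)
    (h0 : ∀ a, ∀ x ∈ A.U a, 0 ≤ f a x) (hi : A.Intg χ G f) {B : Set E4} (hB : MeasurableSet B)
    (hBU : B ⊆ A.U a) {c : ℝ≥0∞} (hc0 : c ≠ ⊤)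
    (e : ∫⁻ x in B, rho G a x * ENNReal.ofReal (f a x) ≤
      c * A.lint χ G fun a x => ENNReal.ofReal (f a x)) :
    IntegrableOn (fun x => √(G a x).det * f a x) B ∧
      ∫ x in B, √(G a x).det * f a x ≤ c.toReal * A.int χ G f := by
  have hm : AEStronglyMeasurable (fun x => √(G a x).det * f a x) (volume.restrict B) :=
    (((sm_sqrt_det (hG.riem a)).continuousOn.aestronglyMeasurable
      (h.isOpen a).measurableSet).mul (hf a)).mono_set hBU
  have hn : 0 ≤ᵐ[volume.restrict B] fun x => √(G a x).det * f a x :=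
    (ae_restrict_mem hB).mono fun x hx => mul_nonneg (Real.sqrt_nonneg _) (h0 a x (hBU hx))
  rw [← ofReal_int h hχ hi h0] at e
  simp only [rho, ← ENNReal.ofReal_mul (Real.sqrt_nonneg _)] at e
  have ht := ENNReal.mul_ne_top hc0 (ENNReal.ofReal_ne_top (r := A.int χ G f))
  have _ := hc
  refine ⟨⟨hm, (hasFiniteIntegral_iff_ofReal hn).2 (e.trans_lt ht.lt_top)⟩, ?_⟩
  rw [integral_eq_lintegral_of_nonneg_ae hn hm]
  refine (ENNReal.toReal_mono ht e).trans_eq ?_
  rw [ENNReal.toReal_mul, ENNReal.toReal_ofReal (int_nonneg h hχ h0)]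


theorem int_U_le (h : A.Ok) (hG : A.IsMet G) (hχ : A.PoU χ K) (hc : A.CompF f) (hf : A.Ms f)
    (h0 : ∀ a, ∀ x ∈ A.U a, 0 ≤ f a x) (hi : A.Intg χ G f) (a : α) :
    IntegrableOn (fun x => √(G a x).det * f a x) (A.U a) ∧
      ∫ x in A.U a, √(G a x).det * f a x ≤ Nat.card (A.Γ a) * A.int χ G f := by
  simpa using int_chart_le h hG hχ hc hf h0 hi (h.isOpen a).measurableSet Subset.rfl
    (ENNReal.natCast_ne_top (Nat.card (A.Γ a))) (by
    have := chart_le h hG hχ (hc.map ENNReal.ofReal) a (hf a).aemeasurable.ennreal_ofReal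
    exact (ENNReal.inv_mul_le_iff (card_ne h a) (ENNReal.natCast_ne_top _)).1 this)

omit [Fintype α] in
/-- small balls on which the chart is injective -/
theorem Ok.exists_ball (h : A.Ok) {x : E4} (hx : x ∈ A.U a) :
    ∃ r > 0, Metric.closedBall x r ⊆ A.U a ∧ InjOn (A.c a) (Metric.closedBall x r) := by
  have h1 := h.locInj hx
  rw [nhds_prod_eq] at h1
  obtain ⟨t, ht, h2⟩ := (eventually_prod_self_iff (r := fun z w => A.c a z = A.c a w → z = w)).1 h1
  obtain ⟨r, hr, h3⟩ := Metric.nhds_basis_closedBall.mem_iff.1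
    (inter_mem ht ((h.isOpen a).mem_nhds hx))
  exact ⟨r, hr, fun z hz => (h3 hz).2, fun z hz w hw e => h2 z (h3 hz).1 w (h3 hw).1 e⟩

end Crest.Agent.N207.I.Atl

end
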