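import Crest.Agent.N207.I.Cal3
import Crest.Agent.N207.K.Hd1

/-!
# Row 207, block I (helper67): calculus on an atlas, part 4: extension by zero, integration by parts
-/

set_option autoImplicit false

open scoped ContDiff Topology ENNReal
open Set Filter MeasureTheory
open Crest.GeometryTopology.CoordMetric

noncomputable section

namespace Crest.Agent.N207.I.Atl

variable {X : Type*} {α : Type} {A : Atl X α} {k : ℕ} {a b : α} {G : α → MetricField 4}
  {χ : α → X → ℝ} {K : α → Set E4} {S : Set X}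

open Classical in
/-- extension by zero of a tensor given on `B ⊆ U a` -/
def extT (A : Atl X α) (a : α) (B : Set E4) (T : Tn 4 k) (b : α) : Tn 4 k := fun y =>
  if h : ∃ F, A.Tr b a y F ∧ F y ∈ B then pullT h.choose T y else 0

section ext

variable {B C : Set E4} {T : Tn 4 k} {y : E4}

theorem extT_eq (h : A.Ok) (hi : InjOn (A.c a) B) {F : E4 → E4} (t : A.Tr b a y F) (hF : F y ∈ B) :
    A.extT a B T b y = pullT F T y := by
  have h1 : ∃ F, A.Tr b a y F ∧ F y ∈ B := ⟨F, t, hF⟩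
  rw [extT, dif_pos h1]
  exact AI.pullT_congr (h1.choose_spec.1.uniq h t
    (hi h1.choose_spec.2 hF (h1.choose_spec.1.eq0.trans t.eq0.symm))) rfl

theorem extT_self (h : A.Ok) (hBU : B ⊆ A.U a) (hi : InjOn (A.c a) B) (hy : y ∈ B) :
    A.extT a B T a y = T y := by rw [extT_eq h hi (tr_id (hBU hy)) hy, AI.pullT_id]

theorem van_extT (h0 : ∀ x ∈ B, T x ≠ 0 → x ∈ C) : A.Van (A.extT a B T) (A.c a '' C) := by
  intro b y _ hne
  by_cases h1 : ∃ F, A.Tr b a y F ∧ F y ∈ B
  · refine ⟨_, h0 _ h1.choose_spec.2 fun e => hne ?_, h1.choose_spec.1.eq0⟩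
    rw [extT, dif_pos h1]
    funext I
    simp [pullT, evT, e]
  · exact absurd (dif_neg h1) hne



theorem compat_extT (h : A.Ok) (hBU : B ⊆ A.U a) (hi : InjOn (A.c a) B) :
    A.Compat (A.extT a B T) := by
  intro b d y F t
  by_cases h1 : ∃ F', A.Tr d a (F y) F' ∧ F' (F y) ∈ B
  · obtain ⟨F', t', hF⟩ := h1
    rw [extT_eq h hi (t.comp t') hF, ← AI.pullT_comp T t.diff t'.diff]
    exact AI.pullT_congr EventuallyEq.rfl (extT_eq h hi t' hF).symm
  · have h2 : ¬∃ F', A.Tr b a y F' ∧ F' y ∈ B := by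
      rintro ⟨F', t', hF⟩
      obtain ⟨F'', t'', e⟩ := h.loc d a _ t.mem' _ (hBU hF) (t.eq0.trans t'.eq0.symm)
      exact h1 ⟨F'', t'', e ▸ hF⟩
    rw [extT, dif_neg h2]
    funext I
    simp [pullT, evT, extT, dif_neg h1]

/-- **extension by zero** -/
theorem sec_extT (h : A.Ok) (hB : IsOpen B) (hBU : B ⊆ A.U a) (hi : InjOn (A.c a) B)
    (hT : SmT T B) (hC : C ⊆ B) (hc : A.Cl (A.c a '' C)) (h0 : ∀ x ∈ B, T x ≠ 0 → x ∈ C) :
    A.Sec (A.extT a B T) := by
  refine ⟨fun b I y hy => ContDiffAt.contDiffWithinAt ?_, compat_extT h hBU hi⟩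
  by_cases e : A.c b y ∈ A.c a '' C
  · obtain ⟨x, hx, e⟩ := e
    obtain ⟨F, t, rfl⟩ := h.loc b a y hy x (hBU (hC hx)) e.symm
    obtain ⟨V, h1, h2, h3⟩ := eventually_nhds_iff.1 ((t.ev h).and (t.cont (hB.mem_nhds (hC hx))))
    have h4 : SmT (pullT F T) V := AI.smT_pullT h2 (fun z hz => (h1 z hz).1.cda.contDiffWithinAt)
      (fun z hz => (h1 z hz).2) hT
    refine ((h4 I).contDiffAt (h2.mem_nhds h3)).congr_of_eventuallyEq ?_
    filter_upwards [h2.mem_nhds h3] with z hz
    rw [extT_eq h hi (h1 z hz).1 (h1 z hz).2]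
  · refine (contDiffAt_const (c := (0 : ℝ))).congr_of_eventuallyEq ?_
    filter_upwards [(van_extT h0).ev h hc hy e] with z hz
    rw [hz]; rfl

/-- the package for a compact support -/
theorem exists_extT (h : A.Ok) (hB : IsOpen B) (hBU : B ⊆ A.U a) (hi : InjOn (A.c a) B)
    (hT : SmT T B) (hC : IsCompact C) (hCB : C ⊆ B) (h0 : ∀ x ∈ B, T x ≠ 0 → x ∈ C) :
    ∃ t : α → Tn 4 k, A.Sec t ∧ (∀ x ∈ B, t a x = T x) ∧ A.Van t (A.c a '' C) ∧
      A.CS (A.c a '' C) ∧ A.Cl (A.c a '' C) :=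
  have hc := h.cl_cpt hC (hCB.trans hBU)
  ⟨_, sec_extT h hB hBU hi hT hCB hc h0, fun _ hx => extT_self h hBU hi hx, van_extT h0,
    cs_image hC (hCB.trans hBU), hc⟩

end ext

/-! ### supports -/

section van

variable {T R : α → Tn 4 k}

theorem Van.cov (h : A.Ok) (hT : A.Van T S) (hc : A.Cl S) :
    A.Van (fun a => cov (G a) (T a)) S := hT.op h hc fun b y _ e => by
  rw [(cov_congr EventuallyEq.rfl e).eq_of_nhds, cov_zero]; rfl

theorem Van.trT {T : α → Tn 4 (k + 2)} (hT : A.Van T S) :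
    A.Van (fun a => trT (G a) (T a)) S := hT.of_imp fun b y _ e => by
  funext I; simp [N207.trT, e]

theorem Van.divT {T : α → Tn 4 (k + 1)} (h : A.Ok) (hT : A.Van T S) (hc : A.Cl S) :
    A.Van (fun a => divT (G a) (T a)) S := (hT.cov h hc).trT

theorem Van.lapT (h : A.Ok) (hT : A.Van T S) (hc : A.Cl S) :
    A.Van (fun a => lapT (G a) (T a)) S := ((hT.cov h hc).cov h hc).trT

theorem Van.ip_left (hT : A.Van T S) (R : α → Tn 4 k) :
    A.Van (fun a => ip (G a) (T a) (R a)) S := hT.of_imp fun b y _ e => by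
  simp only [ip, e, ipA_zero_left]

theorem Van.ip_right (hT : A.Van T S) (R : α → Tn 4 k) :
    A.Van (fun a => ip (G a) (R a) (T a)) S := hT.of_imp fun b y _ e => by
  simp only [ip, e, ipA_zero_right]

theorem Van.conT_left (hT : A.Van T S) (R : α → Tn 4 (k + 1)) :
    A.Van (fun a => conT (G a) (T a) (R a)) S := hT.of_imp fun b y _ e => by
  funext I; simp only [conT, e, ipA_zero_left]; rfl


theorem Van.smT_right (hT : A.Van T S) (f : α → E4 → ℝ) :
    A.Van (fun a => smT (f a) (T a)) S := hT.of_imp fun b y _ e => by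
  funext I; simp [smT, e]

theorem Van.smT_left {f : α → E4 → ℝ} (hf : A.Van f S) (T : α → Tn 4 k) :
    A.Van (fun a => smT (f a) (T a)) S := hf.of_imp fun b y _ e => by
  funext I; simp [smT, e]

theorem Van.val {T : α → Tn 4 0} (hT : A.Van T S) : A.Van (fun a x => T a x ![]) S :=
  hT.of_imp fun b y _ e => by rw [e]; rfl

theorem Van.add {Y : Type*} [AddZeroClass Y] {f g : α → E4 → Y} {S' : Set X} (hf : A.Van f S)
    (hg : A.Van g S') : A.Van (f + g) (S ∪ S') := fun b y hy k => by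
  by_contra hn
  refine k ?_
  have h1 : f b y = 0 := by by_contra e; exact hn (.inl (hf b y hy e))
  have h2 : g b y = 0 := by by_contra e; exact hn (.inr (hg b y hy e))
  simp [h1, h2]

theorem Sec.ct_ip (hG : A.IsMet G) (hT : A.Sec T) (hR : A.Sec R) :
    A.Ct fun a => ip (G a) (T a) (R a) :=
  fun a => ((hT.sm a).ip (hG.riem a) (hR.sm a)).continuousOn

theorem Sec.ct_val {T : α → Tn 4 0} (hT : A.Sec T) : A.Ct fun a x => T a x ![] :=
  fun a => (hT.sm a _).continuousOn

theorem Sec.dfT (h : A.Ok) (hT : A.Sec T) {y : E4} (hy : y ∈ A.U a) : DfT (T a) y :=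
  (hT.sm a).dAt (h.isOpen a) hy

end van

/-- the divergence theorem in one chart -/
theorem int_div_chart {U D : Set E4} {g : MetricField 4} (hg : IsRiemannianOn g U) {w : Tn 4 1}
    (hw : SmT w U) (hD : IsCompact D) (hDU : D ⊆ U) (h0 : ∀ x ∈ U, x ∉ D → w x = 0) :
    ∫ x in U, √(g x).det * divT g w x ![] = 0 := by
  have hU := hg.isOpen
  have hs : ∀ i, ContDiffOn ℝ ∞ (fun z => √(g z).det * ∑ j, (g z)⁻¹ i j * w z ![j]) U := fun i =>
    (sm_sqrt_det hg).mul (ContDiffOn.sum fun j _ => (sm_inv hg i j).mul (hw _))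
  rw [setIntegral_eq_of_subset_of_forall_sdiff_eq_zero hU.measurableSet hDU fun x hx => ?_,
    setIntegral_congr_fun hD.measurableSet fun x hx =>
      sqrt_det_mul_divT hg (hDU hx) (hw.dAt hU (hDU hx)),
    integral_finsetSum _ fun i _ =>
      ((sm_pd hU (hs i) i).continuousOn.mono hDU).integrableOn_compact hD]
  · exact Finset.sum_eq_zero fun i _ => Hd.int_pderiv hU hD hDU ((hs i).of_le (by norm_cast))
      (fun x hx hn => by simp [h0 x hx hn]) i
  · have e : w =ᶠ[𝓝 x] 0 := by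
      filter_upwards [hU.mem_nhds hx.1, hD.isClosed.isOpen_compl.mem_nhds hx.2] with z h1 h2
        using h0 z h1 h2
    rw [(divT_congr EventuallyEq.rfl e).eq_of_nhds, divT, cov_zero]
    simp [trT]

variable [Fintype α]

/-- **divergence theorem** -/
theorem int_div (h : A.Ok) (hG : A.IsMet G) (hχ : A.PoU χ K) {W : α → Tn 4 1} (hW : A.Sec W)
    (hS : A.CS S) (hv : A.Van W S) : A.Intg χ G (fun a x => divT (G a) (W a) x ![]) ∧
      A.int χ G (fun a x => divT (G a) (W a) x ![]) = 0 := by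
  obtain ⟨S', h1, hS', hc⟩ := hS.exists_cl h
  replace hv := hv.mono h1
  let V : α → α → Tn 4 1 := fun d a => smT (fun x => χ d (A.c a x)) (W a)
  have hV : ∀ d, A.Sec (V d) := fun d => hW.smF (hχ.sm d)
  have hi : ∀ d, A.Intg χ G fun a x => divT (G a) (V d a) x ![] := fun d =>
    intg_of_cs h hG hχ hS' ((hV d).divT h hG).ct_val ((hv.smT_right _).divT h hc).val
  refine ⟨intg_of_cs h hG hχ hS' (hW.divT h hG).ct_val (hv.divT h hc).val, ?_⟩
  rw [int_congr h (g := fun a x => ∑ d, divT (G a) (V d a) x ![]) fun a x hx => ?_,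
    int_sum _ fun d _ => hi d]
  · refine Finset.sum_eq_zero fun d _ => ?_
    have hk : A.Van (V d) (A.c d '' K d) :=
      Van.smT_left (f := fun a x => χ d (A.c a x)) (hχ.supp d) W
    obtain ⟨D, d1, d2, d3⟩ := hS'.exists_cpt h (hχ.sub d) (hχ.cl d)
    rw [(int_chart h hG hχ (((hV d).divT h hG).compat.val h) (((hV d).divT h hG).ct_val.ms h)
      ((hk.divT h (hχ.cl d)).val.mono (image_mono (hχ.sub d)))).2 (hi d),
      int_div_chart (hG.riem d) ((hV d).sm d) d1 d2 fun x hx hn => ?_, mul_zero]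
    by_contra e
    exact hn (d3 x hx (hk d x hx e) (hv.smT_right (fun a x => χ d (A.c a x)) d x hx e))
  · have e : W a =ᶠ[𝓝 x] ∑ d, V d a := by
      filter_upwards [(h.isOpen a).mem_nhds hx] with z hz
      funext I
      simp only [Finset.sum_apply, V, smT, ← Finset.sum_mul, hχ.sum a z hz, one_mul]
    rw [(divT_congr EventuallyEq.rfl e).eq_of_nhds]
    simp only [divT, trT, cov_sum _ fun d _ => (hV d).dfT h hx, Finset.sum_apply, Finset.mul_sum]
    rw [Finset.sum_comm]
    conv_rhs => rw [Finset.sum_comm]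
    rw [Finset.sum_comm]
    exact Finset.sum_congr rfl fun _ _ => Finset.sum_comm

variable {T R : α → Tn 4 k} {W : α → Tn 4 (k + 1)}

theorem green_aux (h : A.Ok) (hG : A.IsMet G) (hχ : A.PoU χ K) (hT : A.Sec T) (hW : A.Sec W)
    (hS : A.CS S) (hv : A.Van (fun a => conT (G a) (T a) (W a)) S)
    (i1 : A.Intg χ G fun a => ip (G a) (cov (G a) (T a)) (W a))
    (i2 : A.Intg χ G fun a => ip (G a) (T a) (divT (G a) (W a))) :
    A.int χ G (fun a => ip (G a) (cov (G a) (T a)) (W a)) =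
      -A.int χ G fun a => ip (G a) (T a) (divT (G a) (W a)) := by
  rw [eq_neg_iff_add_eq_zero, ← int_add i1 i2, ← (int_div h hG hχ (hT.conT h hG hW) hS hv).2]
  exact int_congr h fun a x hx =>
    (divT_conT (hG.riem a) hx (hT.dfT h hx) (hW.dfT h hx)).symm

/-- **integration by parts**, `T` has compact support -/
theorem green (h : A.Ok) (hG : A.IsMet G) (hχ : A.PoU χ K) (hT : A.Sec T) (hW : A.Sec W)
    (hS : A.CS S) (hv : A.Van T S) :
    A.int χ G (fun a => ip (G a) (cov (G a) (T a)) (W a)) =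
      -A.int χ G fun a => ip (G a) (T a) (divT (G a) (W a)) := by
  obtain ⟨S', h1, hS', hc⟩ := hS.exists_cl h
  replace hv := hv.mono h1
  exact green_aux h hG hχ hT hW hS' (hv.conT_left W)
    (intg_of_cs h hG hχ hS' ((hT.cov h hG).ct_ip hG hW) ((hv.cov h hc).ip_left W))
    (intg_of_cs h hG hχ hS' (hT.ct_ip hG (hW.divT h hG)) (hv.ip_left _))


/-- Green's formula for the rough Laplacian, `T` has compact support -/
theorem green_lap (h : A.Ok) (hG : A.IsMet G) (hχ : A.PoU χ K) (hT : A.Sec T) (hR : A.Sec R)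
    (hS : A.CS S) (hv : A.Van T S) :
    A.int χ G (fun a => ip (G a) (cov (G a) (T a)) (cov (G a) (R a))) =
      -A.int χ G fun a => ip (G a) (T a) (lapT (G a) (R a)) :=
  green h hG hχ hT (hR.cov h hG) hS hv

end Crest.Agent.N207.I.Atl

end
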