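import Mathlib
import Crest.Agent.N250.Gr.AA

-- ▼ part N207/I/Jet
section

/-!
# Row 207, block I (helper24): jet calculus for pointed families of germs along a filter

`GB l f x`: `f j` is smooth at `x j`, all jets bounded along `l`.
`GE l f x g y`: both are `GB` and the jets of `f j` at `x j` and of `g j` at `y j` are
asymptotically equal.  Uniformity on sets `S j` is the filter `un l S` on pairs `(j, x)`.
-/

set_option autoImplicit false
open Set Filter Topology Function Metric Asymptotics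
open scoped ContDiff

noncomputable section

namespace Crest.Agent.N207.Jt

variable {ι κ X Y Z W : Type} [NormedAddCommGroup X] [NormedSpace ℝ X] [NormedAddCommGroup Y]
  [NormedSpace ℝ Y] [NormedAddCommGroup Z] [NormedSpace ℝ Z] [NormedAddCommGroup W]
  [NormedSpace ℝ W]

/-- smooth germs with bounded jets -/
structure GB (l : Filter ι) (f : ι → X → Y) (x : ι → X) : Prop where
  sm : ∀ᶠ j in l, ContDiffAt ℝ ∞ (f j) (x j)
  bd : ∀ k : ℕ, ∃ C : ℝ, ∀ᶠ j in l, ‖iteratedFDeriv ℝ k (f j) (x j)‖ ≤ C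

/-- asymptotically equal jets -/
structure GE (l : Filter ι) (f : ι → X → Y) (x : ι → X) (g : ι → X → Y) (y : ι → X) : Prop where
  left : GB l f x
  right : GB l g y
  lim : ∀ k : ℕ, Tendsto (fun j => iteratedFDeriv ℝ k (f j) (x j) - iteratedFDeriv ℝ k (g j) (y j))
    l (𝓝 0)

variable {l : Filter ι} {f f' f'' : ι → X → Y} {x x' x'' : ι → X}

theorem kle (k : ℕ) : (k : WithTop ℕ∞) ≤ ∞ := by exact_mod_cast le_top

theorem GB.ge (h : GB l f x) : GE l f x f x := ⟨h, h, fun k => by simpa using tendsto_const_nhds⟩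

theorem GE.symm (h : GE l f x f' x') : GE l f' x' f x :=
  ⟨h.right, h.left, fun k => by simpa using (h.lim k).neg⟩

theorem GE.trans (h : GE l f x f' x') (h' : GE l f' x' f'' x'') : GE l f x f'' x'' :=
  ⟨h.left, h'.right, fun k => by simpa using (h.lim k).add (h'.lim k)⟩

theorem GB.comap {m : Filter κ} {e : κ → ι} (h : GB l f x) (he : Tendsto e m l) :
    GB m (fun j => f (e j)) (fun j => x (e j)) :=
  ⟨he.eventually h.sm, fun k => (h.bd k).imp fun _ hC => he.eventually hC⟩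

theorem GE.comap {m : Filter κ} {e : κ → ι} (h : GE l f x f' x') (he : Tendsto e m l) :
    GE m (fun j => f (e j)) (fun j => x (e j)) (fun j => f' (e j)) (fun j => x' (e j)) :=
  ⟨h.left.comap he, h.right.comap he, fun k => (h.lim k).comp he⟩

theorem GB.mono {m : Filter ι} (h : GB l f x) (hm : m ≤ l) : GB m f x :=
  h.comap (e := id) hm

theorem GE.mono {m : Filter ι} (h : GE l f x f' x') (hm : m ≤ l) : GE m f x f' x' :=
  h.comap (e := id) hm

theorem GB.congr (h : GB l f x) (e : ∀ᶠ j in l, x' j = x j ∧ f' j =ᶠ[𝓝 (x j)] f j) :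
    GB l f' x' := by
  refine ⟨?_, fun k => ?_⟩
  · filter_upwards [h.sm, e] with j h1 h2
    rw [h2.1]; exact h1.congr_of_eventuallyEq h2.2
  · obtain ⟨C, hC⟩ := h.bd k
    refine ⟨C, ?_⟩
    filter_upwards [hC, e] with j h1 h2
    rw [h2.1, (h2.2.iteratedFDeriv ℝ k).eq_of_nhds]; exact h1

theorem GB.ge_congr (h : GB l f x) (e : ∀ᶠ j in l, x' j = x j ∧ f' j =ᶠ[𝓝 (x j)] f j) :
    GE l f' x' f x := by
  refine ⟨h.congr e, h, fun k => tendsto_const_nhds.congr' ?_⟩
  filter_upwards [e] with j h2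
  rw [h2.1, (h2.2.iteratedFDeriv ℝ k).eq_of_nhds, sub_self]

theorem GE.congr_left (h : GE l f x f'' x'') (e : ∀ᶠ j in l, x' j = x j ∧ f' j =ᶠ[𝓝 (x j)] f j) :
    GE l f' x' f'' x'' := (h.left.ge_congr e).trans h

theorem GE.congr_right (h : GE l f'' x'' f x)
    (e : ∀ᶠ j in l, x' j = x j ∧ f' j =ᶠ[𝓝 (x j)] f j) : GE l f'' x'' f' x' :=
  (h.symm.congr_left e).symm

theorem GB.val (h : GB l f x) : ∃ C : ℝ, ∀ᶠ j in l, ‖f j (x j)‖ ≤ C := by
  simpa [norm_iteratedFDeriv_zero] using h.bd 0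

theorem GE.val (h : GE l f x f' x') : Tendsto (fun j => f j (x j) - f' j (x' j)) l (𝓝 0) := by
  have := (h.lim 0).norm
  rw [norm_zero] at this
  refine tendsto_zero_iff_norm_tendsto_zero.2 (this.congr fun j => ?_)
  rw [iteratedFDeriv_zero_eq_comp, iteratedFDeriv_zero_eq_comp, comp_apply, comp_apply,
    ← map_sub, LinearIsometryEquiv.norm_map]

theorem GB.bu (h : GB l f x) (k : ℕ) :
    l.IsBoundedUnder (· ≤ ·) fun j => ‖ftaylorSeries ℝ (f j) (x j) k‖ := by
  obtain ⟨C, hC⟩ := h.bd k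
  exact ⟨C, hC⟩

theorem GB.comp {g : ι → Y → Z} (hg : GB l g fun j => f j (x j)) (hf : GB l f x) :
    GB l (fun j z => g j (f j z)) x := by
  refine ⟨?_, fun k => ?_⟩
  · filter_upwards [hg.sm, hf.sm] with j h1 h2 using h1.comp _ h2
  · have := FormalMultilinearSeries.taylorComp_sub_taylorComp_isBigO (l := l)
      (p₁ := fun j => ftaylorSeries ℝ (g j) (f j (x j))) (p₂ := fun _ => 0)
      (q₁ := fun j => ftaylorSeries ℝ (f j) (x j)) (q₂ := fun j => ftaylorSeries ℝ (f j) (x j))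
      (f := fun _ => (1 : ℝ)) (n := k) (fun i _ => hg.bu i)
      (fun i _ => by simpa using (hg.bu i).isBigO_one ℝ) (fun i _ => hf.bu i) (fun i _ => hf.bu i)
      (fun i _ => by simp only [sub_self]; exact isBigO_zero _ _)
    obtain ⟨C, hC⟩ := this.bound
    refine ⟨C, ?_⟩
    filter_upwards [hC, hg.sm, hf.sm] with j h0 h1 h2
    have e := iteratedFDeriv_comp h1 h2 (kle k)
    have z : (0 : FormalMultilinearSeries ℝ Y Z).taylorComp (ftaylorSeries ℝ (f j) (x j)) k = 0 := by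
      simp only [FormalMultilinearSeries.taylorComp]
      refine Finset.sum_eq_zero fun c _ => ?_
      ext v; simp
    rw [z, sub_zero, ← e] at h0
    simpa [Function.comp_def] using h0

theorem GE.comp {g g' : ι → Y → Z} (hg : GE l g (fun j => f j (x j)) g' fun j => f' j (x' j))
    (hf : GE l f x f' x') : GE l (fun j z => g j (f j z)) x (fun j z => g' j (f' j z)) x' := by
  refine ⟨hg.left.comp hf.left, hg.right.comp hf.right, fun k => ?_⟩
  have := FormalMultilinearSeries.taylorComp_sub_taylorComp_isLittleO (l := l)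
    (p₁ := fun j => ftaylorSeries ℝ (g j) (f j (x j)))
    (p₂ := fun j => ftaylorSeries ℝ (g' j) (f' j (x' j)))
    (q₁ := fun j => ftaylorSeries ℝ (f j) (x j)) (q₂ := fun j => ftaylorSeries ℝ (f' j) (x' j))
    (f := fun _ => (1 : ℝ)) (n := k) (fun i _ => hg.left.bu i)
    (fun i _ => (isLittleO_one_iff ℝ).2 (hg.lim i)) (fun i _ => hf.left.bu i)
    (fun i _ => hf.right.bu i) (fun i _ => (isLittleO_one_iff ℝ).2 (hf.lim i))
  refine ((isLittleO_one_iff ℝ).1 this).congr' ?_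
  filter_upwards [hg.left.sm, hg.right.sm, hf.left.sm, hf.right.sm] with j h1 h2 h3 h4
  rw [← iteratedFDeriv_comp h1 h3 (kle k), ← iteratedFDeriv_comp h2 h4 (kle k)]
  rfl

theorem GB.prodMk {g : ι → X → Z} (hf : GB l f x) (hg : GB l g x) :
    GB l (fun j z => (f j z, g j z)) x := by
  refine ⟨?_, fun k => ?_⟩
  · filter_upwards [hg.sm, hf.sm] with j h1 h2 using h2.prodMk h1
  · obtain ⟨C, hC⟩ := hf.bd k
    obtain ⟨D, hD⟩ := hg.bd k
    refine ⟨max C D, ?_⟩
    filter_upwards [hC, hD, hf.sm, hg.sm] with j h1 h2 h3 h4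
    rw [iteratedFDeriv_prodMk h3 h4 (kle k), ContinuousMultilinearMap.opNorm_prod]
    exact max_le_max h1 h2

theorem GE.prodMk {g g' : ι → X → Z} (hf : GE l f x f' x') (hg : GE l g x g' x') :
    GE l (fun j z => (f j z, g j z)) x (fun j z => (f' j z, g' j z)) x' := by
  refine ⟨hf.left.prodMk hg.left, hf.right.prodMk hg.right, fun k => ?_⟩
  have h := (hf.lim k).norm.max (hg.lim k).norm
  rw [norm_zero, norm_zero, max_self] at h
  refine tendsto_zero_iff_norm_tendsto_zero.2 (h.congr' ?_)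
  filter_upwards [hf.left.sm, hg.left.sm, hf.right.sm, hg.right.sm] with j h1 h2 h3 h4
  rw [iteratedFDeriv_prodMk h1 h2 (kle k), iteratedFDeriv_prodMk h3 h4 (kle k),
    ← ContinuousMultilinearMap.opNorm_prod]
  congr 1

/-- a fixed smooth function at points of a compact set -/
theorem GE.fixed {Φ : X → Y} {K : Set X} (hK : IsCompact K) (hΦ : ∀ z ∈ K, ContDiffAt ℝ ∞ Φ z)
    (hx : ∀ᶠ j in l, x j ∈ K) (hx' : ∀ᶠ j in l, x' j ∈ K)
    (h : Tendsto (fun j => x j - x' j) l (𝓝 0)) : GE l (fun _ => Φ) x (fun _ => Φ) x' := by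
  have hc : ∀ k : ℕ, ContinuousOn (iteratedFDeriv ℝ k Φ) K := fun k z hz =>
    ((hΦ z hz).continuousAt_iteratedFDeriv (kle k)).continuousWithinAt
  have hb : ∀ y : ι → X, (∀ᶠ j in l, y j ∈ K) → GB l (fun _ => Φ) y := fun y hy => by
    refine ⟨hy.mono fun j hj => hΦ _ hj, fun k => ?_⟩
    obtain ⟨C, hC⟩ := hK.exists_bound_of_continuousOn (hc k)
    exact ⟨C, hy.mono fun j hj => hC _ hj⟩
  refine ⟨hb x hx, hb x' hx', fun k => ?_⟩
  have hu := Metric.uniformContinuousOn_iff.1 (hK.uniformContinuousOn_of_continuous (hc k))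
  refine Metric.tendsto_nhds.2 fun ε hε => ?_
  obtain ⟨δ, hδ, hh⟩ := hu ε hε
  filter_upwards [hx, hx', Metric.tendsto_nhds.1 h δ hδ] with j h1 h2 h3
  rw [dist_zero_right, ← dist_eq_norm] at h3 ⊢
  exact hh _ h1 _ h2 h3

/-- post-composition with a fixed function, smooth near a compact set -/
theorem GE.smoothOn {Φ : Y → Z} {K : Set Y} (hK : IsCompact K) (hΦ : ∀ z ∈ K, ContDiffAt ℝ ∞ Φ z)
    (h : GE l f x f' x') (hx : ∀ᶠ j in l, f j (x j) ∈ K) (hx' : ∀ᶠ j in l, f' j (x' j) ∈ K) :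
    GE l (fun j z => Φ (f j z)) x (fun j z => Φ (f' j z)) x' :=
  (GE.fixed hK hΦ hx hx' h.val).comp h

theorem GB.smoothOn {Φ : Y → Z} {K : Set Y} (hK : IsCompact K) (hΦ : ∀ z ∈ K, ContDiffAt ℝ ∞ Φ z)
    (h : GB l f x) (hx : ∀ᶠ j in l, f j (x j) ∈ K) : GB l (fun j z => Φ (f j z)) x :=
  (h.ge.smoothOn hK hΦ hx hx).left

theorem GE.smooth [FiniteDimensional ℝ Y] {Φ : Y → Z} (hΦ : ContDiff ℝ ∞ Φ)
    (h : GE l f x f' x') : GE l (fun j z => Φ (f j z)) x (fun j z => Φ (f' j z)) x' := by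
  have : ProperSpace Y := FiniteDimensional.proper_real Y
  obtain ⟨C, hC⟩ := h.left.val
  obtain ⟨D, hD⟩ := h.right.val
  refine h.smoothOn (isCompact_closedBall 0 (max C D)) (fun z _ => hΦ.contDiffAt) ?_ ?_
  · exact hC.mono fun j hj => by simpa using Or.inl hj
  · exact hD.mono fun j hj => by simpa using Or.inr hj

theorem GB.smooth [FiniteDimensional ℝ Y] {Φ : Y → Z} (hΦ : ContDiff ℝ ∞ Φ) (h : GB l f x) :
    GB l (fun j z => Φ (f j z)) x := (h.ge.smooth hΦ).left

/-- constants -/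
theorem GE.const {c c' : ι → Y} (hc : ∃ C : ℝ, ∀ᶠ j in l, ‖c j‖ ≤ C)
    (h : Tendsto (fun j => c j - c' j) l (𝓝 0)) :
    GE l (fun j _ => c j) x (fun j _ => c' j) x' := by
  have hb : ∀ (c : ι → Y) (y : ι → X), (∃ C : ℝ, ∀ᶠ j in l, ‖c j‖ ≤ C) →
      GB l (fun j _ => c j) y := fun c y ⟨C, hC⟩ => by
    refine ⟨Eventually.of_forall fun j => contDiffAt_const, fun k => ?_⟩
    rcases eq_or_ne k 0 with rfl | hk
    · exact ⟨C, by simpa [norm_iteratedFDeriv_zero] using hC⟩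
    · exact ⟨0, Eventually.of_forall fun j => by simp [iteratedFDeriv_const_of_ne hk]⟩
  refine ⟨hb c x hc, hb c' x' ?_, fun k => ?_⟩
  · obtain ⟨C, hC⟩ := hc
    refine ⟨C + 1, ?_⟩
    filter_upwards [hC, Metric.tendsto_nhds.1 h 1 one_pos] with j h1 h2
    rw [dist_zero_right] at h2
    have := norm_sub_le (c j) (c j - c' j)
    rw [sub_sub_cancel] at this
    linarith
  · rcases eq_or_ne k 0 with rfl | hk
    · refine tendsto_zero_iff_norm_tendsto_zero.2
        ((tendsto_zero_iff_norm_tendsto_zero.1 h).congr fun j => ?_)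
      rw [iteratedFDeriv_zero_eq_comp, iteratedFDeriv_zero_eq_comp, comp_apply, comp_apply,
        ← map_sub, LinearIsometryEquiv.norm_map]
    · simpa [iteratedFDeriv_const_of_ne hk] using tendsto_const_nhds

theorem GB.const {c : ι → Y} (hc : ∃ C : ℝ, ∀ᶠ j in l, ‖c j‖ ≤ C) : GB l (fun j _ => c j) x :=
  (GE.const (x' := x) hc (c' := c) (by simpa using tendsto_const_nhds)).left

theorem GE.const' (c : Y) : GE l (fun _ _ => c) x (fun _ _ => c) x' :=
  GE.const ⟨‖c‖, Eventually.of_forall fun _ => le_rfl⟩ (by simpa using tendsto_const_nhds)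

theorem GB.const' (c : Y) : GB l (fun _ _ => c) x := (GE.const' (x' := x) c).left

/-- the identity -/
theorem GE.id [FiniteDimensional ℝ X] (hx : ∃ C : ℝ, ∀ᶠ j in l, ‖x j‖ ≤ C)
    (h : Tendsto (fun j => x j - x' j) l (𝓝 0)) : GE l (fun _ z => z) x (fun _ z => z) x' := by
  have : ProperSpace X := FiniteDimensional.proper_real X
  obtain ⟨C, hC⟩ := hx
  refine GE.fixed (isCompact_closedBall 0 (C + 1)) (fun z _ => contDiffAt_id) ?_ ?_ h
  · exact hC.mono fun j hj => by rw [mem_closedBall_zero_iff]; linarith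
  · filter_upwards [hC, Metric.tendsto_nhds.1 h 1 one_pos] with j h1 h2
    rw [dist_zero_right] at h2
    have := norm_sub_le (x j) (x j - x' j)
    rw [sub_sub_cancel] at this
    rw [mem_closedBall_zero_iff]; linarith

theorem GB.id [FiniteDimensional ℝ X] (hx : ∃ C : ℝ, ∀ᶠ j in l, ‖x j‖ ≤ C) :
    GB l (fun _ z => z) x := (GE.id (x' := x) hx (by simpa using tendsto_const_nhds)).left

theorem GB.fderiv (h : GB l f x) : GB l (fun j => fderiv ℝ (f j)) x :=
  ⟨h.sm.mono fun _ hj => hj.fderiv_right (m := ∞) (by simp), fun k => by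
    simpa only [norm_iteratedFDeriv_fderiv] using h.bd (k + 1)⟩

theorem GE.fderiv (h : GE l f x f' x') :
    GE l (fun j => fderiv ℝ (f j)) x (fun j => fderiv ℝ (f' j)) x' := by
  refine ⟨h.left.fderiv, h.right.fderiv, fun k => ?_⟩
  refine tendsto_zero_iff_norm_tendsto_zero.2
    ((tendsto_zero_iff_norm_tendsto_zero.1 (h.lim (k + 1))).congr fun j => ?_)
  rw [iteratedFDeriv_succ_eq_comp_right, iteratedFDeriv_succ_eq_comp_right, comp_apply,
    comp_apply, ← dist_eq_norm, ← dist_eq_norm, LinearIsometryEquiv.dist_map]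

section fd

variable [FiniteDimensional ℝ Y] [FiniteDimensional ℝ Z] {g g' : ι → X → Y}

theorem GE.add (h : GE l f x f' x') (h' : GE l g x g' x') :
    GE l (fun j z => f j z + g j z) x (fun j z => f' j z + g' j z) x' :=
  (h.prodMk h').smooth (Φ := fun p : Y × Y => p.1 + p.2) (by fun_prop)

theorem GE.sub (h : GE l f x f' x') (h' : GE l g x g' x') :
    GE l (fun j z => f j z - g j z) x (fun j z => f' j z - g' j z) x' :=
  (h.prodMk h').smooth (Φ := fun p : Y × Y => p.1 - p.2) (by fun_prop)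

theorem GE.smul {u u' : ι → X → ℝ} (h : GE l u x u' x') (h' : GE l g x g' x') :
    GE l (fun j z => u j z • g j z) x (fun j z => u' j z • g' j z) x' :=
  (h.prodMk h').smooth (Φ := fun p : ℝ × Y => p.1 • p.2) (by fun_prop)

theorem GE.mul {u u' v v' : ι → X → ℝ} (h : GE l u x u' x') (h' : GE l v x v' x') :
    GE l (fun j z => u j z * v j z) x (fun j z => u' j z * v' j z) x' := h.smul h'

theorem GE.sum {α : Type} (s : Finset α) {w w' : α → ι → X → Y}
    (h : ∀ a ∈ s, GE l (w a) x (w' a) x') :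
    GE l (fun j z => ∑ a ∈ s, w a j z) x (fun j z => ∑ a ∈ s, w' a j z) x' := by
  classical
  induction s using Finset.induction_on with
  | empty => simpa using GE.const' (0 : Y)
  | insert a s ha ih =>
    simpa [Finset.sum_insert ha] using (h a (by simp)).add (ih fun b hb => h b (by simp [hb]))

theorem GE.prod {α : Type} (s : Finset α) {w w' : α → ι → X → ℝ}
    (h : ∀ a ∈ s, GE l (w a) x (w' a) x') :
    GE l (fun j z => ∏ a ∈ s, w a j z) x (fun j z => ∏ a ∈ s, w' a j z) x' := by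
  classical
  induction s using Finset.induction_on with
  | empty => simpa using GE.const' (1 : ℝ)
  | insert a s ha ih =>
    simpa [Finset.prod_insert ha] using (h a (by simp)).mul (ih fun b hb => h b (by simp [hb]))

theorem GE.clm (L : Y →L[ℝ] W) (h : GE l f x f' x') :
    GE l (fun j z => L (f j z)) x (fun j z => L (f' j z)) x' := h.smooth L.contDiff

theorem GE.app {A A' : ι → X → Y →L[ℝ] Z} (h : GE l A x A' x') (h' : GE l g x g' x') :
    GE l (fun j z => A j z (g j z)) x (fun j z => A' j z (g' j z)) x' :=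
  (h.prodMk h').smooth (Φ := fun p : (Y →L[ℝ] Z) × Y => p.1 p.2) (by fun_prop)

theorem GB.add (h : GB l f x) (h' : GB l g x) : GB l (fun j z => f j z + g j z) x :=
  (h.ge.add h'.ge).left

theorem GB.sub (h : GB l f x) (h' : GB l g x) : GB l (fun j z => f j z - g j z) x :=
  (h.ge.sub h'.ge).left

theorem GB.smul {u : ι → X → ℝ} (h : GB l u x) (h' : GB l g x) :
    GB l (fun j z => u j z • g j z) x := (h.ge.smul h'.ge).left

theorem GB.mul {u v : ι → X → ℝ} (h : GB l u x) (h' : GB l v x) :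
    GB l (fun j z => u j z * v j z) x := h.smul h'

theorem GB.sum {α : Type} (s : Finset α) {w : α → ι → X → Y} (h : ∀ a ∈ s, GB l (w a) x) :
    GB l (fun j z => ∑ a ∈ s, w a j z) x := (GE.sum s fun a ha => (h a ha).ge).left

theorem GB.prod {α : Type} (s : Finset α) {w : α → ι → X → ℝ} (h : ∀ a ∈ s, GB l (w a) x) :
    GB l (fun j z => ∏ a ∈ s, w a j z) x := (GE.prod s fun a ha => (h a ha).ge).left

theorem GB.clm (L : Y →L[ℝ] W) (h : GB l f x) : GB l (fun j z => L (f j z)) x :=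
  (h.ge.clm L).left

theorem GB.app {A : ι → X → Y →L[ℝ] Z} (h : GB l A x) (h' : GB l g x) :
    GB l (fun j z => A j z (g j z)) x := (h.ge.app h'.ge).left

end fd

end Crest.Agent.N207.Jt

end
end

-- ▼ part N207/I/Jet2

/-!
# Row 207, block I (helper24): uniform jet bounds on sets, moving base points, ultralimits,
inverses and the bootstrap for implicit functions
-/

set_option autoImplicit false
open Set Filter Topology Function Metric Asymptotics
open scoped ContDiff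

noncomputable section

namespace Crest.Agent.N207.Jt

variable {ι κ X Y Z : Type} [NormedAddCommGroup X] [NormedSpace ℝ X] [NormedAddCommGroup Y]
  [NormedSpace ℝ Y] [NormedAddCommGroup Z] [NormedSpace ℝ Z]

/-- the filter of pairs `(j, z)`, `j` along `l`, `z ∈ S j` arbitrary -/
def un {α : Type} (l : Filter ι) (S : ι → Set α) : Filter (ι × α) :=
  l.comap Prod.fst ⊓ 𝓟 {p | p.2 ∈ S p.1}

theorem ev_un {α : Type} {l : Filter ι} {S : ι → Set α} {P : ι × α → Prop} :
    (∀ᶠ p in un l S, P p) ↔ ∀ᶠ j in l, ∀ z ∈ S j, P (j, z) := by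
  rw [un, eventually_inf_principal, eventually_comap]
  refine ⟨fun h => h.mono fun j hj z hz => hj (j, z) rfl hz, fun h => h.mono fun j hj p hp hz => ?_⟩
  subst hp; exact hj p.2 hz

theorem un_fst {α : Type} (l : Filter ι) (S : ι → Set α) : Tendsto Prod.fst (un l S) l :=
  tendsto_comap.mono_left inf_le_left

theorem un_mem {α : Type} (l : Filter ι) (S : ι → Set α) : ∀ᶠ p in un l S, p.2 ∈ S p.1 :=
  ev_un.2 (Eventually.of_forall fun _ _ h => h)

theorem tendsto_un {α : Type} {l : Filter ι} {S : ι → Set α} {m : Filter κ} {e : κ → ι}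
    {y : κ → α} (he : Tendsto e m l) (hy : ∀ᶠ j in m, y j ∈ S (e j)) :
    Tendsto (fun j => (e j, y j)) m (un l S) :=
  tendsto_inf.2 ⟨tendsto_comap_iff.2 he, tendsto_principal.2 hy⟩

/-- jets bounded uniformly on the sets `S j` -/
def UB (l : Filter ι) (u : ι → X → Y) (S : ι → Set X) : Prop :=
  GB (un l S) (fun p => u p.1) Prod.snd

/-- jets of `u j` and `v j` uniformly close on the sets `S j` -/
def UE (l : Filter ι) (u v : ι → X → Y) (S : ι → Set X) : Prop :=
  GE (un l S) (fun p => u p.1) Prod.snd (fun p => v p.1) Prod.snd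

variable {l : Filter ι} {u v : ι → X → Y} {S : ι → Set X}

theorem ub_iff : UB l u S ↔ (∀ᶠ j in l, ∀ z ∈ S j, ContDiffAt ℝ ∞ (u j) z) ∧
    ∀ k : ℕ, ∃ C : ℝ, ∀ᶠ j in l, ∀ z ∈ S j, ‖iteratedFDeriv ℝ k (u j) z‖ ≤ C :=
  ⟨fun h => ⟨ev_un.1 h.sm, fun k => (h.bd k).imp fun _ hC => ev_un.1 hC⟩,
    fun h => ⟨ev_un.2 h.1, fun k => (h.2 k).imp fun _ hC => ev_un.2 hC⟩⟩

theorem UE.ev (h : UE l u v S) (k : ℕ) {ε : ℝ} (hε : 0 < ε) : ∀ᶠ j in l, ∀ z ∈ S j,
    ‖iteratedFDeriv ℝ k (u j) z - iteratedFDeriv ℝ k (v j) z‖ < ε := by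
  have := Metric.tendsto_nhds.1 (GE.lim h k) ε hε
  simpa only [dist_zero_right] using ev_un.1 this

theorem UE.of_ev (hu : UB l u S) (hv : UB l v S) (h : ∀ (k : ℕ) (ε : ℝ), 0 < ε → ∀ᶠ j in l,
    ∀ z ∈ S j, ‖iteratedFDeriv ℝ k (u j) z - iteratedFDeriv ℝ k (v j) z‖ < ε) : UE l u v S :=
  ⟨hu, hv, fun k => Metric.tendsto_nhds.2 fun ε hε => ev_un.2 (by
    simpa only [dist_zero_right] using h k ε hε)⟩

theorem UB.at (h : UB l u S) {m : Filter κ} {e : κ → ι} {y : κ → X} (he : Tendsto e m l)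
    (hy : ∀ᶠ j in m, y j ∈ S (e j)) : GB m (fun j => u (e j)) y :=
  GB.comap h (tendsto_un he hy)

theorem UE.at (h : UE l u v S) {m : Filter κ} {e : κ → ι} {y : κ → X} (he : Tendsto e m l)
    (hy : ∀ᶠ j in m, y j ∈ S (e j)) : GE m (fun j => u (e j)) y (fun j => v (e j)) y :=
  GE.comap h (tendsto_un he hy)

theorem UB.comap (h : UB l u S) {m : Filter κ} {e : κ → ι} {S' : κ → Set X} (he : Tendsto e m l)
    (hS : ∀ᶠ j in m, S' j ⊆ S (e j)) : UB m (fun j => u (e j)) S' :=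
  h.at (he.comp (un_fst _ _)) (ev_un.2 (hS.mono fun _ hj _ hz => hj hz))

theorem UE.comap (h : UE l u v S) {m : Filter κ} {e : κ → ι} {S' : κ → Set X}
    (he : Tendsto e m l) (hS : ∀ᶠ j in m, S' j ⊆ S (e j)) :
    UE m (fun j => u (e j)) (fun j => v (e j)) S' :=
  h.at (he.comp (un_fst _ _)) (ev_un.2 (hS.mono fun _ hj _ hz => hj hz))

theorem UB.mono (h : UB l u S) {S' : ι → Set X} (hS : ∀ᶠ j in l, S' j ⊆ S j) : UB l u S' :=
  h.comap (e := id) tendsto_id hS

theorem UE.mono (h : UE l u v S) {S' : ι → Set X} (hS : ∀ᶠ j in l, S' j ⊆ S j) : UE l u v S' :=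
  h.comap (e := id) tendsto_id hS

/-- moving the base point inside a region of uniform bounds -/
theorem UB.move (h : UB l u S) {x y : ι → X} (hs : ∀ᶠ j in l, segment ℝ (x j) (y j) ⊆ S j)
    (hxy : Tendsto (fun j => x j - y j) l (𝓝 0)) : GE l u x u y := by
  refine ⟨h.at tendsto_id (hs.mono fun j hj => hj (left_mem_segment _ _ _)),
    h.at tendsto_id (hs.mono fun j hj => hj (right_mem_segment _ _ _)), fun k => ?_⟩
  obtain ⟨C, hC⟩ := (ub_iff.1 h).2 (k + 1)
  have h0 : Tendsto (fun j => C * ‖x j - y j‖) l (𝓝 0) := by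
    simpa using hxy.norm.const_mul C
  refine squeeze_zero_norm' ?_ h0
  filter_upwards [hs, hC, (ub_iff.1 h).1] with j h1 h2 h3
  refine (convex_segment (x j) (y j)).norm_image_sub_le_of_norm_fderiv_le
    (fun z hz => ((h3 z (h1 hz)).iteratedFDeriv_right (m := 1) (by exact_mod_cast le_top)
      ).differentiableAt one_ne_zero) (fun z hz => ?_) (right_mem_segment _ _ _)
    (left_mem_segment _ _ _)
  rw [norm_fderiv_iteratedFDeriv]; exact h2 z (h1 hz)

/-- pointwise ultralimit -/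
def ul (𝒰 : Ultrafilter ι) (u : ι → X → Y) (z : X) : Y := limUnder (𝒰 : Filter ι) fun j => u j z

/-- `C^∞` Arzelà-Ascoli along an ultrafilter, on an arbitrary open set -/
theorem UB.lim [FiniteDimensional ℝ X] [FiniteDimensional ℝ Y] {𝒰 : Ultrafilter ι} {O : Set X}
    (h : UB (𝒰 : Filter ι) u fun _ => O) (hO : IsOpen O) :
    (∀ z ∈ O, ContDiffAt ℝ ∞ (ul 𝒰 u) z) ∧ ∀ K, IsCompact K → K ⊆ O →
      UE (𝒰 : Filter ι) u (fun _ => ul 𝒰 u) fun _ => K := by
  obtain ⟨h1, h2⟩ := ub_iff.1 h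
  have key : ∀ z ∈ O, ∃ r > 0, ball z r ⊆ O ∧ ContDiffOn ℝ ∞ (ul 𝒰 u) (ball z r) ∧
      N250.Gr.JLim (𝒰 : Filter ι) u (ul 𝒰 u) (ball z r) := fun z hz => by
    obtain ⟨r, hr, hb⟩ := Metric.isOpen_iff.1 hO z hz
    obtain ⟨w, hw, hJ⟩ := N250.Gr.sm_lim 𝒰 u isOpen_ball (convex_ball z r) isBounded_ball
      (h1.mono fun j hj y hy => (hj y (hb hy)).contDiffWithinAt)
      (fun k => (h2 k).imp fun C hC => hC.mono fun j hj y hy => hj y (hb hy))
    have e : EqOn (ul 𝒰 u) w (ball z r) := fun y hy => (hJ.val.tendsto_at hy).limUnder_eq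
    refine ⟨r, hr, hb, hw.congr e, fun k => (hJ k).congr_right fun y hy => ?_⟩
    exact ((e.eventuallyEq_of_mem (isOpen_ball.mem_nhds hy)).iteratedFDeriv ℝ k).eq_of_nhds.symm
  have hs : ∀ z ∈ O, ContDiffAt ℝ ∞ (ul 𝒰 u) z := fun z hz => by
    obtain ⟨r, hr, -, hw, -⟩ := key z hz
    exact hw.contDiffAt (ball_mem_nhds z hr)
  refine ⟨hs, fun K hK hKO => UE.of_ev (h.mono (Eventually.of_forall fun _ => hKO)) ?_
    fun k ε hε => ?_⟩
  · refine ub_iff.2 ⟨Eventually.of_forall fun _ z hz => hs z (hKO hz), fun k => ?_⟩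
    obtain ⟨C, hC⟩ := hK.exists_bound_of_continuousOn (f := iteratedFDeriv ℝ k (ul 𝒰 u))
      fun z hz => ((hs z (hKO hz)).continuousAt_iteratedFDeriv (kle k)).continuousWithinAt
    exact ⟨C, Eventually.of_forall fun _ => hC⟩
  · choose! r hr hb hw hJ using key
    obtain ⟨t, htK, hcov⟩ := hK.elim_nhds_subcover (fun z => ball z (r z))
      fun z hz => ball_mem_nhds z (hr z (hKO hz))
    have : ∀ᶠ j in (𝒰 : Filter ι), ∀ z ∈ t, ∀ y ∈ ball z (r z),
        dist (iteratedFDeriv ℝ k (ul 𝒰 u) y) (iteratedFDeriv ℝ k (u j) y) < ε :=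
      (Finset.eventually_all t).2 fun z hz =>
        Metric.tendstoUniformlyOn_iff.1 (hJ z (hKO (htK z hz)) k) ε hε
    filter_upwards [this] with j hj y hy
    obtain ⟨z, hz, hyz⟩ := mem_iUnion₂.1 (hcov hy)
    rw [← dist_eq_norm, dist_comm]; exact hj z hz y hyz

/-- Cauchy form along `𝒰 × 𝒰` -/
theorem UB.cauchy [FiniteDimensional ℝ X] [FiniteDimensional ℝ Y] {𝒰 : Ultrafilter ι} {O K : Set X}
    (h : UB (𝒰 : Filter ι) u fun _ => O) (hO : IsOpen O) (hK : IsCompact K) (hKO : K ⊆ O) :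
    UE ((𝒰 : Filter ι) ×ˢ (𝒰 : Filter ι)) (fun p => u p.1) (fun p => u p.2) fun _ => K := by
  have h1 := (h.lim hO).2 K hK hKO
  exact GE.trans (h1.comap (m := (𝒰 : Filter ι) ×ˢ (𝒰 : Filter ι)) (e := Prod.fst) tendsto_fst
      (Eventually.of_forall fun _ => subset_rfl))
    (GE.symm (h1.comap (m := (𝒰 : Filter ι) ×ˢ (𝒰 : Filter ι)) (e := Prod.snd) tendsto_snd
      (Eventually.of_forall fun _ => subset_rfl)))

/-- case distinction on the index -/
theorem GB.cases {f : ι → X → Y} {x : ι → X} (P : ι → Prop) (h1 : GB (l ⊓ 𝓟 {j | P j}) f x)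
    (h2 : GB (l ⊓ 𝓟 {j | ¬ P j}) f x) : GB l f x := by
  have key : ∀ Q : ι → Prop, (∀ᶠ j in l ⊓ 𝓟 {j | P j}, Q j) → (∀ᶠ j in l ⊓ 𝓟 {j | ¬ P j}, Q j) →
      ∀ᶠ j in l, Q j := fun Q a b => by
    rw [eventually_inf_principal] at a b
    filter_upwards [a, b] with j a b
    by_cases h : P j
    exacts [a h, b h]
  refine ⟨key _ h1.sm h2.sm, fun k => ?_⟩
  obtain ⟨C, hC⟩ := h1.bd k
  obtain ⟨D, hD⟩ := h2.bd k
  exact ⟨max C D, key _ (hC.mono fun _ h => h.trans (le_max_left _ _))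
    (hD.mono fun _ h => h.trans (le_max_right _ _))⟩

theorem GE.cases {f g : ι → X → Y} {x y : ι → X} (P : ι → Prop)
    (h1 : GE (l ⊓ 𝓟 {j | P j}) f x g y) (h2 : GE (l ⊓ 𝓟 {j | ¬ P j}) f x g y) : GE l f x g y := by
  refine ⟨GB.cases P h1.left h2.left, GB.cases P h1.right h2.right, fun k => ?_⟩
  have e : l = l ⊓ 𝓟 {j | P j} ⊔ l ⊓ 𝓟 {j | ¬ P j} := by
    rw [← inf_sup_left, sup_principal, show {j | P j} ∪ {j | ¬ P j} = univ from
      union_compl_self _, principal_univ, inf_top_eq]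
  rw [e]
  exact tendsto_sup.2 ⟨h1.lim k, h2.lim k⟩

/-- finitely many cases -/
theorem GE.fin_cases {α : Type} [Finite α] {f g : ι → X → Y} {x y : ι → X} (c : ι → α)
    (h : ∀ a, GE (l ⊓ 𝓟 {j | c j = a}) f x g y) : GE l f x g y := by
  have key : ∀ Q : ι → Prop, (∀ a, ∀ᶠ j in l ⊓ 𝓟 {j | c j = a}, Q j) → ∀ᶠ j in l, Q j :=
    fun Q hQ => by
      have := eventually_all.2 fun a => eventually_inf_principal.1 (hQ a)
      exact this.mono fun j hj => hj (c j) rfl
  have hb : ∀ {f : ι → X → Y} {x : ι → X}, (∀ a, GB (l ⊓ 𝓟 {j | c j = a}) f x) → GB l f x :=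
    fun {f x} hf => by
      refine ⟨key _ fun a => (hf a).sm, fun k => ?_⟩
      choose C hC using fun a => (hf a).bd k
      obtain ⟨D, hD⟩ := (finite_range C).bddAbove
      exact ⟨D, key _ fun a => (hC a).mono fun j hj => hj.trans (hD (mem_range_self a))⟩
  refine ⟨hb fun a => (h a).left, hb fun a => (h a).right, fun k => ?_⟩
  exact Metric.tendsto_nhds.2 fun ε hε => key _ fun a => Metric.tendsto_nhds.1 ((h a).lim k) ε hε

/-- bootstrap: a family whose derivative is a `GB` function of `(z, f z)` is `GB` -/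
theorem GB.boot [FiniteDimensional ℝ X] {f : ι → X → Y} {x : ι → X} {Ψ : ι → X × Y → X →L[ℝ] Y}
    (hx : ∃ C : ℝ, ∀ᶠ j in l, ‖x j‖ ≤ C) (h0 : ∃ C : ℝ, ∀ᶠ j in l, ‖f j (x j)‖ ≤ C)
    (hs : ∀ᶠ j in l, ContDiffAt ℝ ∞ (f j) (x j)) (hΨ : GB l Ψ fun j => (x j, f j (x j)))
    (hd : ∀ᶠ j in l, _root_.fderiv ℝ (f j) =ᶠ[𝓝 (x j)] fun z => Ψ j (z, f j z)) : GB l f x := by
  refine ⟨hs, fun k => ?_⟩
  induction k using Nat.strong_induction_on with
  | _ k ih =>
    rcases k with _ | k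
    · simpa [norm_iteratedFDeriv_zero] using h0
    · have hid := GB.id (l := l) hx
      have hq : ∀ i ≤ k, l.IsBoundedUnder (· ≤ ·)
          fun j => ‖ftaylorSeries ℝ (fun z => (z, f j z)) (x j) i‖ := fun i hi => by
        obtain ⟨C, hC⟩ := ih i (by omega)
        obtain ⟨D, hD⟩ := hid.bd i
        refine ⟨max D C, ?_⟩
        change ∀ᶠ j in l, ‖iteratedFDeriv ℝ i (fun z => (z, f j z)) (x j)‖ ≤ max D C
        filter_upwards [hC, hD, hs] with j h1 h2 h3
        rw [iteratedFDeriv_prodMk (f := fun z => z) contDiffAt_id h3 (kle i), ContinuousMultilinearMap.opNorm_prod]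
        exact max_le_max h2 h1
      have := FormalMultilinearSeries.taylorComp_sub_taylorComp_isBigO (l := l)
        (p₁ := fun j => ftaylorSeries ℝ (Ψ j) (x j, f j (x j))) (p₂ := fun _ => 0)
        (q₁ := fun j => ftaylorSeries ℝ (fun z => (z, f j z)) (x j))
        (q₂ := fun j => ftaylorSeries ℝ (fun z => (z, f j z)) (x j))
        (f := fun _ => (1 : ℝ)) (n := k) (fun i _ => hΨ.bu i)
        (fun i _ => by simpa using (hΨ.bu i).isBigO_one ℝ) hq hq
        (fun i _ => by simp only [sub_self]; exact isBigO_zero _ _)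
      obtain ⟨C, hC⟩ := this.bound
      refine ⟨C, ?_⟩
      filter_upwards [hC, hΨ.sm, hs, hd] with j h0 h1 h2 h3
      have e := iteratedFDeriv_comp (f := fun z => (z, f j z)) h1 (contDiffAt_id.prodMk h2) (kle k)
      have z : (0 : FormalMultilinearSeries ℝ (X × Y) (X →L[ℝ] Y)).taylorComp
          (ftaylorSeries ℝ (fun z => (z, f j z)) (x j)) k = 0 := by
        simp only [FormalMultilinearSeries.taylorComp]
        refine Finset.sum_eq_zero fun c _ => ?_
        ext v; simp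
      rw [z, sub_zero, ← e] at h0
      rw [← norm_iteratedFDeriv_fderiv, (h3.iteratedFDeriv ℝ k).eq_of_nhds]
      simpa [Function.comp_def] using h0

/-- inverses of uniformly invertible operators -/
theorem GE.inverse [FiniteDimensional ℝ Y] {A A' : ι → X → Y →L[ℝ] Y} {x x' : ι → X} {c : ℝ}
    (hc : 0 < c) (h : GE l A x A' x') (h1 : ∀ᶠ j in l, ∀ y, c * ‖y‖ ≤ ‖A j (x j) y‖)
    (h2 : ∀ᶠ j in l, ∀ y, c * ‖y‖ ≤ ‖A' j (x' j) y‖) :
    GE l (fun j z => ContinuousLinearMap.inverse (A j z)) x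
      (fun j z => ContinuousLinearMap.inverse (A' j z)) x' := by
  have : ProperSpace (Y →L[ℝ] Y) := FiniteDimensional.proper_real _
  have : CompleteSpace Y := FiniteDimensional.complete ℝ Y
  obtain ⟨C, hC⟩ := h.left.val
  obtain ⟨D, hD⟩ := h.right.val
  have hcl : IsClosed {B : Y →L[ℝ] Y | ∀ y, c * ‖y‖ ≤ ‖B y‖} := by
    simp only [Set.ofPred_forall]
    exact isClosed_iInter fun y => isClosed_le continuous_const (by fun_prop)
  refine h.smoothOn ((isCompact_closedBall 0 (max C D)).inter_right hcl) (fun B hB => ?_) ?_ ?_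
  · have hinj : Function.Injective B := by
      refine (injective_iff_map_eq_zero B).2 fun y hy => ?_
      have := hB.2 y
      rw [hy, norm_zero] at this
      exact norm_le_zero_iff.1 (nonpos_of_mul_nonpos_right this hc |>.trans' le_rfl)
    let e : Y ≃L[ℝ] Y := (LinearEquiv.ofInjectiveEndo (B : Y →ₗ[ℝ] Y) hinj).toContinuousLinearEquiv
    have he : (e : Y →L[ℝ] Y) = B := by ext; rfl
    rw [← he]
    exact contDiffAt_map_inverse e
  · filter_upwards [hC, h1] with j a b using ⟨by simpa using Or.inl a, b⟩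
  · filter_upwards [hD, h2] with j a b using ⟨by simpa using Or.inr a, b⟩

theorem GB.inverse [FiniteDimensional ℝ Y] {A : ι → X → Y →L[ℝ] Y} {x : ι → X} {c : ℝ}
    (hc : 0 < c) (h : GB l A x) (h1 : ∀ᶠ j in l, ∀ y, c * ‖y‖ ≤ ‖A j (x j) y‖) :
    GB l (fun j z => ContinuousLinearMap.inverse (A j z)) x := (h.ge.inverse hc h1 h1).left

end Crest.Agent.N207.Jt

end
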