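import Crest.Agent.N207.I.Glue1
import Crest.Agent.N207.I.Iso

-- ▼ part N207/I/Glue
section

/-!
# Row 207, block I (helper24): gluing almost-identities chart by chart

A finite family of charts `c a i : E → M` (balls `B a`: injective; collars `¬ B a`: the
identifications do not depend on `i`).  Along `𝒰 × 𝒰 ∋ (i0, i)` there is `F : M → M` that equals
`c a i ∘ (c a i0)⁻¹` on the collars and is an almost-identity in every ball chart.
-/

set_option autoImplicit false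
open Set Filter Topology Function Metric
open scoped ContDiff

noncomputable section

namespace Crest.Agent.N207.Jt

variable {ι α E : Type} {M : Type*} [NormedAddCommGroup E] [NormedSpace ℝ E]
  [TopologicalSpace M]

/-- hypotheses of the gluing theorem -/
structure GlH (𝒰 : Ultrafilter ι) (c : α → ι → E → M) (ρ : α → E → ℝ) (B : α → Prop) : Prop where
  dp : ∀ a, Dp (ρ a)
  cont : ∀ a, ∀ᶠ i in (𝒰 : Filter ι), ContinuousOn (c a i) (lv (ρ a) 4)
  inj : ∀ a, B a → ∀ᶠ i in (𝒰 : Filter ι), InjOn (c a i) (lv (ρ a) 4)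
  desc : ∀ a, ∀ᶠ i in (𝒰 : Filter ι), ∀ z ∈ lv (ρ a) 4, ∀ z' ∈ lv (ρ a) 4,
    c a i z = c a i z' → ρ a z = ρ a z'
  sat : ∀ a b, ¬ B a → ¬ B b → ∀ᶠ p in (𝒰 : Filter ι) ×ˢ (𝒰 : Filter ι),
    ∀ z ∈ lv (ρ a) 4, ∀ z' ∈ lv (ρ b) 4, c a p.1 z = c b p.1 z' → c a p.2 z = c b p.2 z'
  loc : ∀ a b, B a ∨ B b → Loc (𝒰 : Filter ι) (c a) (c b) (lv (ρ a) 4) (lv (ρ b) 4)
  loc0 : ∀ a b, B a ∨ B b → ∀ᶠ i in (𝒰 : Filter ι),
    Loc (pure i) (c a) (c b) (lv (ρ a) 4) (lv (ρ b) 4)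

variable {𝒰 : Ultrafilter ι} {c : α → ι → E → M} {ρ : α → E → ℝ} {B : α → Prop}

/-- `F` read in the chart `a` -/
def rd (c : α → ι → E → M) (ρ : α → E → ℝ) (F : ι × ι → M → M) (a : α) (p : ι × ι) (x : E) : E :=
  invFunOn (c a p.2) (lv (ρ a) 4) (F p (c a p.1 x))

/-- `F` is an almost-identity on `W` -/
def Gd (𝒰 : Ultrafilter ι) (c : α → ι → E → M) (ρ : α → E → ℝ) (B : α → Prop)
    (F : ι × ι → M → M) (W : ι → Set M) : Prop :=
  ∀ a, B a → (∀ᶠ p in (𝒰 : Filter ι) ×ˢ (𝒰 : Filter ι), ∀ x, ρ a x < 7 / 2 → c a p.1 x ∈ W p.1 →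
      ∀ᶠ w in 𝓝 x, F p (c a p.1 w) ∈ c a p.2 '' lv (ρ a) 4) ∧
    UE ((𝒰 : Filter ι) ×ˢ (𝒰 : Filter ι)) (rd c ρ F a) (fun _ z => z)
      (fun p => {x | ρ a x < 7 / 2 ∧ c a p.1 x ∈ W p.1}) ∧
    ∀ᶠ i in (𝒰 : Filter ι), UB (pure i ×ˢ (𝒰 : Filter ι)) (rd c ρ F a)
      fun p => {x | ρ a x < 7 / 2 ∧ c a p.1 x ∈ W p.1}

theorem ev_pure {l l' : Filter ι} {P : ι × ι → Prop} (h : ∀ᶠ p in l ×ˢ l', P p) :
    ∀ᶠ i in l, ∀ᶠ p in pure i ×ˢ l', P p :=
  h.curry.mono fun i hi => by rw [pure_prod]; exact hi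

theorem GB.fin_cases {X Y β : Type} [NormedAddCommGroup X] [NormedSpace ℝ X] [NormedAddCommGroup Y]
    [NormedSpace ℝ Y] [Finite β] {l : Filter ι} {f : ι → X → Y} {x : ι → X} (k : ι → β)
    (h : ∀ b, GB (l ⊓ 𝓟 {j | k j = b}) f x) : GB l f x := (GE.fin_cases k fun b => (h b).ge).left

/-- the region covered by the collars and the balls in `s`, to depth `r` -/
def Wr (c : α → ι → E → M) (ρ : α → E → ℝ) (A : Finset α) (r : ℝ) (i : ι) : Set M :=
  {q | ∃ a ∈ A, q ∈ c a i '' lv (ρ a) r}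

variable [T2Space M] [FiniteDimensional ℝ E]

/-- criterion: near the point, `F` is `c b i ∘ g ∘ (c b i0)⁻¹` with an almost-identity `g` -/
theorem GlH.crit (h : GlH 𝒰 c ρ B) {F : ι × ι → M → M} {a b : α} (ha : B a) {κ : Type}
    {m : Filter κ} {e : κ → ι × ι} (he : Tendsto e m ((𝒰 : Filter ι) ×ˢ (𝒰 : Filter ι)))
    {x y : κ → E} {g : κ → E → E}
    (hm : ∀ᶠ j in m, ρ a (x j) ≤ 7 / 2 ∧ ρ b (y j) ≤ 7 / 2 ∧ c a (e j).1 (x j) = c b (e j).1 (y j))
    (hg : GE m g y (fun _ z => z) y)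
    (hF : ∀ᶠ j in m, ∀ᶠ w in 𝓝 (y j), F (e j) (c b (e j).1 w) = c b (e j).2 (g j w)) :
    (∀ᶠ j in m, ∀ᶠ w in 𝓝 (x j), F (e j) (c a (e j).1 w) ∈ c a (e j).2 '' lv (ρ a) 4) ∧
      GE m (fun j => rd c ρ F a (e j)) x (fun _ z => z) x := by
  have he1 : Tendsto (fun j => (e j).1) m 𝒰 := tendsto_fst.comp he
  obtain ⟨τ, hτ, hτ'⟩ := (h.loc b a (Or.inr ha)).at he1 (x := y) (y := x) (hm.mono fun j hj =>
    ⟨lt_of_le_of_lt hj.2.1 (show (7 / 2 : ℝ) < 4 by norm_num),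
      lt_of_le_of_lt hj.1 (show (7 / 2 : ℝ) < 4 by norm_num), hj.2.2.symm⟩)
  obtain ⟨t1, t2⟩ := tr_close (h.dp a) (h.dp b) (h.cont a) (h.cont b) (h.inj a ha)
    (h.loc a b (Or.inl ha)) he hm hg.val
  have hy : ∀ᶠ j in m, τ j (x j) = y j := hτ'.mono fun _ hj => hj.1
  have hF' : ∀ᶠ j in m, ∀ᶠ w in 𝓝 (x j), F (e j) (c a (e j).1 w) = c b (e j).2 (g j (τ j w)) := by
    filter_upwards [hτ', hτ.sm, hF] with j h1 h2 h3
    rw [← h1.1] at h3
    filter_upwards [h1.2, h2.continuousAt.eventually h3] with w a b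
    rw [← a, b]
  refine ⟨?_, ?_⟩
  · filter_upwards [hF', t1, hy, hτ.sm, hg.left.sm] with j h1 h2 h3 h4 h5
    have h6 : Tendsto (fun w => g j (τ j w)) (𝓝 (x j)) (𝓝 (g j (y j))) :=
      h5.continuousAt.tendsto.comp (h3 ▸ h4.continuousAt.tendsto)
    filter_upwards [h1, h6.eventually h2] with w a b
    rw [a]; exact b
  · have g1 := t2.comp hg
    have g2 := (g1.congr_left (x' := fun j => τ j (x j)) (hy.mono fun j hj => ⟨hj, .rfl⟩)
      ).congr_right (x' := fun j => τ j (x j)) (hy.mono fun j hj => ⟨hj, .rfl⟩)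
    have g3 := g2.comp hτ.ge
    refine (g3.congr_left (hF'.mono fun j hj => ⟨rfl, hj.mono fun w hw => ?_⟩)).congr_right ?_
    · simp only [rd, hw]
    · filter_upwards [hτ', hm, he1.eventually (h.inj a ha)] with j h1 h2 h3
      refine ⟨rfl, ?_⟩
      filter_upwards [h1.2, ((h.dp a).op 4).mem_nhds
        (lt_of_le_of_lt h2.1 (show (7 / 2 : ℝ) < 4 by norm_num))] with w a b
      rw [a, h3.leftInvOn_invFunOn b]

omit [T2Space M] [FiniteDimensional ℝ E] in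
/-- the same criterion for bounds at a fixed first index -/
theorem GlH.crit0 (h : GlH 𝒰 c ρ B) {F : ι × ι → M → M} {a b : α} (ha : B a) {κ : Type} {i : ι}
    (hl : Loc (pure i) (c b) (c a) (lv (ρ b) 4) (lv (ρ a) 4))
    {m : Filter κ} {e : κ → ι × ι} (he : Tendsto e m (pure i ×ˢ (𝒰 : Filter ι)))
    {x y : κ → E} {g : κ → E → E}
    (hm : ∀ᶠ j in m, ρ a (x j) < 4 ∧ ρ b (y j) < 4 ∧ c a (e j).1 (x j) = c b (e j).1 (y j))
    (hg : GB m g y) (hy : ∀ᶠ j in m, ρ b (g j (y j)) < 4)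
    (hF : ∀ᶠ j in m, ∀ᶠ w in 𝓝 (y j), F (e j) (c b (e j).1 w) = c b (e j).2 (g j w))
    (hx : ∀ᶠ j in m, F (e j) (c a (e j).1 (x j)) ∈ c a (e j).2 '' lv (ρ a) 4) :
    GB m (fun j => rd c ρ F a (e j)) x := by
  have he2 : Tendsto (fun j => (e j).2) m 𝒰 := tendsto_snd.comp he
  obtain ⟨τ, hτ, hτ'⟩ := hl.at (tendsto_fst.comp he) (x := y) (y := x)
    (hm.mono fun j hj => ⟨hj.2.1, hj.1, hj.2.2.symm⟩)
  have hu : ∀ᶠ j in m, rd c ρ F a (e j) (x j) ∈ lv (ρ a) 4 ∧ g j (y j) ∈ lv (ρ b) 4 ∧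
      c a (e j).2 (rd c ρ F a (e j) (x j)) = c b (e j).2 (g j (y j)) := by
    filter_upwards [hx, hy, hF, hm] with j h1 h2 h3 h4
    exact ⟨(invFunOn_pos h1).1, h2, (invFunOn_pos h1).2.trans (h4.2.2 ▸ h3.self_of_nhds)⟩
  obtain ⟨σ, hσ, hσ'⟩ := (h.loc a b (Or.inl ha)).at he2 hu
  have g1 := (hσ.comp hg).congr (x' := fun j => τ j (x j)) (hτ'.mono fun j hj => ⟨hj.1, .rfl⟩)
  refine (g1.comp hτ).congr ?_
  filter_upwards [hτ', hτ.sm, hF, hσ', hσ.sm, hg.sm, hu, he2.eventually (h.inj a ha)]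
    with j h1 h2 h3 h4 h5 h6 h7 h8
  refine ⟨rfl, ?_⟩
  have t1 : Tendsto (τ j) (𝓝 (x j)) (𝓝 (y j)) := h1.1 ▸ h2.continuousAt.tendsto
  have t2 := h6.continuousAt.tendsto.comp t1
  filter_upwards [h1.2, t1.eventually h3, t2.eventually h4.2, t2.eventually
    (ev_lv (h.dp a) h5 (r := 4) (by rw [h4.1]; exact h7.1))] with w a1 a2 a3 a4
  have a5 : c b (e j).1 (τ j w) = c a (e j).1 w := a1
  simp only [rd]
  rw [← a5, a2]
  exact (congrArg _ a3.symm).trans (h8.leftInvOn_invFunOn a4)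

omit [TopologicalSpace M] [T2Space M] [FiniteDimensional ℝ E] in
/-- `Gd` from a finite case distinction -/
theorem gd_of {F : ι × ι → M → M} {W : ι → Set M} {β : Type} [Finite β]
    (k : α → (ι × ι) × E → β)
    (hk : ∀ a, B a → ∀ b, ∀ m : Filter ((ι × ι) × E), m = un ((𝒰 : Filter ι) ×ˢ (𝒰 : Filter ι))
        (fun p => {x | ρ a x < 7 / 2 ∧ c a p.1 x ∈ W p.1}) ⊓ 𝓟 {q | k a q = b} →
      (∀ᶠ q in m, ∀ᶠ w in 𝓝 q.2, F q.1 (c a q.1.1 w) ∈ c a q.1.2 '' lv (ρ a) 4) ∧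
        GE m (fun q => rd c ρ F a q.1) Prod.snd (fun _ z => z) Prod.snd)
    (hk0 : ∀ a, B a → ∀ b, ∀ᶠ i in (𝒰 : Filter ι), ∀ m : Filter ((ι × ι) × E),
      m = un (pure i ×ˢ (𝒰 : Filter ι))
        (fun p => {x | ρ a x < 7 / 2 ∧ c a p.1 x ∈ W p.1}) ⊓ 𝓟 {q | k a q = b} →
      (∀ᶠ q in m, F q.1 (c a q.1.1 q.2) ∈ c a q.1.2 '' lv (ρ a) 4) →
        GB m (fun q => rd c ρ F a q.1) Prod.snd) : Gd 𝒰 c ρ B F W := by
  intro a ha
  have h0 := eventually_all.2 fun b => eventually_inf_principal.1 (hk a ha b _ rfl).1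
  have h1 : ∀ᶠ p in (𝒰 : Filter ι) ×ˢ (𝒰 : Filter ι), ∀ x, ρ a x < 7 / 2 → c a p.1 x ∈ W p.1 →
      ∀ᶠ w in 𝓝 x, F p (c a p.1 w) ∈ c a p.2 '' lv (ρ a) 4 :=
    (ev_un.1 (h0.mono fun q hq => hq (k a q) rfl)).mono fun p hp x h1 h2 => hp x ⟨h1, h2⟩
  refine ⟨h1, GE.fin_cases (k a) fun b => (hk a ha b _ rfl).2, ?_⟩
  filter_upwards [eventually_all.2 (hk0 a ha), ev_pure h1] with i h2 h3
  refine GB.fin_cases (k a) fun b => h2 b _ rfl (Eventually.filter_mono inf_le_left ?_)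
  exact ev_un.2 (h3.mono fun p hp x hx => (hp x hx.1 hx.2).self_of_nhds)

open Classical in
theorem GlH.base [Fintype α] (h : GlH 𝒰 c ρ B) (a0 : α) {r : ℝ} (hr : r ≤ 7 / 2) :
    ∃ F : ι × ι → M → M, Gd 𝒰 c ρ B F (Wr c ρ (Finset.univ.filter fun a => ¬ B a) r) ∧
      ∀ a, ¬ B a → ∀ᶠ p in (𝒰 : Filter ι) ×ˢ (𝒰 : Filter ι), ∀ z, ρ a z < 4 →
        F p (c a p.1 z) = c a p.2 z := by
  have : ∀ (i : ι) (q : M) (r : ℝ), ∃ u : α × E, (∃ a, ¬ B a ∧ q ∈ c a i '' lv (ρ a) r) →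
      ¬ B u.1 ∧ ρ u.1 u.2 < r ∧ c u.1 i u.2 = q := fun i q r => by
    by_cases hq : ∃ a, ¬ B a ∧ q ∈ c a i '' lv (ρ a) r
    · obtain ⟨a, h1, z, h2, h3⟩ := hq
      exact ⟨(a, z), fun _ => ⟨h1, h2, h3⟩⟩
    · exact ⟨(a0, 0), fun h => absurd h hq⟩
  choose u hu using this
  have hF : ∀ a, ¬ B a → ∀ᶠ p in (𝒰 : Filter ι) ×ˢ (𝒰 : Filter ι), ∀ z, ρ a z < 4 →
      c (u p.1 (c a p.1 z) 4).1 p.2 (u p.1 (c a p.1 z) 4).2 = c a p.2 z := fun a ha => by
    have := eventually_all.2 fun b => eventually_imp_distrib_left.2 fun hb : ¬ B b => h.sat b a hb ha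
    filter_upwards [this] with p hp z hz
    obtain ⟨h1, h2, h3⟩ := hu p.1 (c a p.1 z) 4 ⟨a, ha, z, hz, rfl⟩
    exact hp _ h1 _ h2 _ hz h3
  refine ⟨fun p q => c (u p.1 q 4).1 p.2 (u p.1 q 4).2, ?_, hF⟩
  have hm : ∀ (a b : α) (l : Filter (ι × ι)), ∀ᶠ q in un l (fun p => {x | ρ a x < 7 / 2 ∧
      c a p.1 x ∈ Wr c ρ (Finset.univ.filter fun a => ¬ B a) r p.1}) ⊓
      𝓟 {q | (u q.1.1 (c a q.1.1 q.2) r).1 = b},
      ¬ B b ∧ ρ a q.2 < 7 / 2 ∧ ρ b (u q.1.1 (c a q.1.1 q.2) r).2 < r ∧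
      c a q.1.1 q.2 = c b q.1.1 (u q.1.1 (c a q.1.1 q.2) r).2 := fun a b l => by
    refine eventually_inf_principal.2 ((un_mem _ _).mono fun q h1 h2 => ?_)
    obtain ⟨a', h3, h4⟩ := h1.2
    obtain ⟨h5, h6, h7⟩ := hu q.1.1 (c a q.1.1 q.2) r ⟨a', by simpa using h3, h4⟩
    rw [show (u q.1.1 (c a q.1.1 q.2) r).1 = b from h2] at h5 h6 h7
    exact ⟨h5, h1.1, h6, h7.symm⟩
  have bot : ∀ {f : (ι × ι) × E → E → E} {x}, GB ⊥ f x :=
    ⟨eventually_bot, fun _ => ⟨0, eventually_bot⟩⟩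
  refine gd_of (fun a q => (u q.1.1 (c a q.1.1 q.2) r).1) (fun a ha b => ?_) fun a ha b => ?_
  · intro m hmd
    have he : Tendsto Prod.fst m _ := hmd ▸ (un_fst _ _).mono_left inf_le_left
    have hm := hmd ▸ hm a b _
    by_cases hb : B b
    · have : m = ⊥ := eventually_false_iff_eq_bot.1 (hm.mono fun q hq => hq.1 hb)
      rw [this]
      exact ⟨eventually_bot, bot, bot, fun _ => tendsto_bot⟩
    refine h.crit (F := fun p q => c (u p.1 q 4).1 p.2 (u p.1 q 4).2) (b := b) (g := fun _ z => z)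
      (y := fun q => (u q.1.1 (c a q.1.1 q.2) r).2) ha he
      (hm.mono fun q hq => ⟨hq.2.1.le, hq.2.2.1.le.trans hr, hq.2.2.2⟩)
      (GB.id ((h.dp b).bd (hm.mono fun q hq => by linarith [hq.2.2.1]))).ge ?_
    filter_upwards [he.eventually (hF b hb), hm] with q h1 h2
    filter_upwards [((h.dp b).op 4).mem_nhds (show ρ b _ < 4 by linarith [h2.2.2.1])] with w hw
    exact h1 w hw
  · by_cases hb : B b
    · refine Eventually.of_forall fun i m hmd _ => ?_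
      have : m = ⊥ := eventually_false_iff_eq_bot.1 ((hmd ▸ hm a b _).mono fun q hq => hq.1 hb)
      rw [this]
      exact bot
    filter_upwards [h.loc0 b a (Or.inr ha), ev_pure (hF b hb)] with i hl hF m hmd hx
    have he : Tendsto Prod.fst m _ := hmd ▸ (un_fst _ _).mono_left inf_le_left
    have hm := hmd ▸ hm a b _
    refine h.crit0 (F := fun p q => c (u p.1 q 4).1 p.2 (u p.1 q 4).2) (g := fun _ z => z)
      (y := fun q => (u q.1.1 (c a q.1.1 q.2) r).2) ha hl he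
      (hm.mono fun q hq => ⟨by linarith [hq.2.1], by linarith [hq.2.2.1], hq.2.2.2⟩)
      (GB.id ((h.dp b).bd (hm.mono fun q hq => by linarith [hq.2.2.1])))
      (hm.mono fun q hq => by linarith [hq.2.2.1]) ?_ hx
    filter_upwards [he.eventually hF, hm] with q h1 h2
    filter_upwards [((h.dp b).op 4).mem_nhds (show ρ b _ < 4 by linarith [h2.2.2.1])] with w hw
    exact h1 w hw

theorem GlH.ub_bump (h : GlH 𝒰 c ρ B) {a : α} (ha : B a) (b : α) {s t : ℝ} (hst : s < t)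
    (ht : t < 4) : UB (𝒰 : Filter ι) (fun i w => ext (ρ b) (c b i) s t (fun _ => (1 : ℝ)) (c a i w))
      fun _ => lv (ρ a) 4 :=
  ub_ext (h.dp b) (h.dp a) (h.cont b) (h.cont a) (h.loc b a (Or.inr ha)) hst ht contDiff_const
    ((h.desc b).mono fun _ hi z hz z' hz' e => ⟨hi z hz z' hz' e, rfl⟩)

theorem GlH.ub_bump0 (h : GlH 𝒰 c ρ B) {a : α} (ha : B a) (b : α) {s t : ℝ} (hst : s < t)
    (ht : t < 4) : ∀ᶠ i in (𝒰 : Filter ι), UB (pure i)
      (fun i w => ext (ρ b) (c b i) s t (fun _ => (1 : ℝ)) (c a i w)) fun _ => lv (ρ a) 4 := by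
  filter_upwards [h.cont b, h.cont a, h.loc0 b a (Or.inr ha), h.desc b] with i h1 h2 h3 h4
  exact ub_ext (l := pure i) (c := c b) (c' := c a) (h.dp b) (h.dp a) h1 h2 h3 hst ht
    contDiff_const fun z hz z' hz' e => ⟨h4 z hz z' hz' e, rfl⟩

end Crest.Agent.N207.Jt

end
end

-- ▼ part N207/I/Glue2
section

/-!
# Row 207, block I (helper24): the gluing theorem
-/

set_option autoImplicit false
open Set Filter Topology Function Metric
open scoped ContDiff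

noncomputable section

namespace Crest.Agent.N207.Jt

variable {ι α E : Type} {M : Type*} [NormedAddCommGroup E] [NormedSpace ℝ E]
  [TopologicalSpace M] {𝒰 : Ultrafilter ι} {c : α → ι → E → M} {ρ : α → E → ℝ} {B : α → Prop}
  [T2Space M] [FiniteDimensional ℝ E]

open Classical in
theorem GlH.step (h : GlH 𝒰 c ρ B) {A : Finset α} {a : α} (ha : B a) {r r' : ℝ} (hr : r < r')
    (hr' : r' ≤ 3) {F : ι × ι → M → M} (hF : Gd 𝒰 c ρ B F (Wr c ρ A r')) :
    ∃ F' : ι × ι → M → M, Gd 𝒰 c ρ B F' (Wr c ρ (insert a A) r) ∧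
      ∀ᶠ p in (𝒰 : Filter ι) ×ˢ (𝒰 : Filter ι), ∀ q ∈ Wr c ρ A r p.1, F' p q = F p q := by
  set t := (r + r') / 2 with htd
  have hrt : r < t := by linarith
  have ht4 : t < 4 := by linarith
  set lam : ι → M → ℝ := fun i q =>
    1 - ∏ b ∈ A, (1 - ext (ρ b) (c b i) r t (fun _ => (1 : ℝ)) q) with hlam
  set g : ι × ι → E → E := fun p x => x + lam p.1 (c a p.1 x) • (rd c ρ F a p x - x) with hg
  set F' : ι × ι → M → M := fun p q => if q ∈ c a p.1 '' lv (ρ a) (7 / 2) then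
    c a p.2 (g p (invFunOn (c a p.1) (lv (ρ a) 4) q)) else F p q with hF'
  have hU1 : Tendsto (Prod.fst : ι × ι → ι) ((𝒰 : Filter ι) ×ˢ (𝒰 : Filter ι)) 𝒰 := tendsto_fst
  have hch : ∀ᶠ p in (𝒰 : Filter ι) ×ˢ (𝒰 : Filter ι), ∀ y, ρ a y < 7 / 2 →
      F' p (c a p.1 y) = c a p.2 (g p y) := by
    filter_upwards [hU1.eventually (h.inj a ha)] with p hp y hy
    simp only [hF']
    rw [if_pos ⟨y, hy, rfl⟩, hp.leftInvOn_invFunOn (show ρ a y < 4 by linarith)]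
  have hsame : ∀ᶠ p in (𝒰 : Filter ι) ×ˢ (𝒰 : Filter ι), ∀ q ∈ Wr c ρ A r p.1, F' p q = F p q := by
    filter_upwards [hch, (hF a ha).1, hU1.eventually ((Finset.eventually_all A).2
      fun b _ => h.desc b)] with p h1 h2 h3 q hq
    by_cases hqa : q ∈ c a p.1 '' lv (ρ a) (7 / 2)
    · obtain ⟨y, hy, rfl⟩ := hqa
      obtain ⟨b, hb, z, hz, e⟩ := hq
      have hl : lam p.1 (c a p.1 y) = 1 := by
        simp only [hlam]
        rw [Finset.prod_eq_zero hb, sub_zero]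
        rw [← e, ext_chart r t (fun z hz z' hz' e => ⟨h3 b hb z hz z' hz' e, rfl⟩)
          (show ρ b z < 4 from lt_trans hz (by linarith)), cut_one hrt (le_of_lt hz)]
        simp
      have := (h2 y hy ⟨b, hb, z, lt_trans hz hr, e⟩).self_of_nhds
      rw [h1 y hy]
      simp only [hg, hl, one_smul, add_sub_cancel, rd]
      exact (invFunOn_pos this).2
    · simp only [hF', if_neg hqa]
  refine ⟨F', ?_, hsame⟩
  have hn : ∀ d, B d → ∀ᶠ p in (𝒰 : Filter ι) ×ˢ (𝒰 : Filter ι), ∀ x, ρ d x < 7 / 2 →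
      c d p.1 x ∈ Wr c ρ A r p.1 → ∀ᶠ w in 𝓝 x, F' p (c d p.1 w) = F p (c d p.1 w) := fun d hd => by
    filter_upwards [hsame, hU1.eventually ((Finset.eventually_all A).2 fun b _ =>
      (h.loc b d (Or.inr hd)).choose_spec.1)] with p h2 h3 x h1 ⟨b, hb, z, hz, e⟩
    obtain ⟨t1, t2, t3⟩ := h3 b hb z (lt_trans hz (show r < 4 by linarith)) x
      (lt_trans h1 (show (7 / 2 : ℝ) < 4 by norm_num)) e
    filter_upwards [t3, ev_lv (h.dp b) t2 (r := r) (by rw [t1]; exact hz)] with w a1 a2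
    exact h2 _ ⟨b, hb, _, a2, a1⟩
  have hz : ∀ᶠ p in (𝒰 : Filter ι) ×ˢ (𝒰 : Filter ι), ∀ y ∈ lv (ρ a) r,
      c a p.1 y ∉ Wr c ρ A r' p.1 → g p =ᶠ[𝓝 y] fun z => z := by
    filter_upwards [hU1.eventually ((Finset.eventually_all A).2 fun b _ => h.cont b),
      hU1.eventually (h.cont a)] with p h2 h3 y (h1 : ρ a y < r) h4
    have : ∀ᶠ w in 𝓝 y, ∀ b ∈ A, c a p.1 w ∉ c b p.1 '' lc (ρ b) t :=
      (Finset.eventually_all A).2 fun b hb => ev_notMem (h.dp b) (h.dp a) (h2 b hb) h3 ht4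
        (by linarith) fun ⟨z, hz, e⟩ =>
          h4 ⟨b, hb, z, lt_of_le_of_lt hz (show t < r' by linarith), e⟩
    filter_upwards [this] with w hw
    have : lam p.1 (c a p.1 w) = 0 := by
      simp only [hlam]
      rw [Finset.prod_eq_one fun b hb => by rw [ext_zero hrt _ (hw b hb), sub_zero], sub_self]
    simp only [hg, this, zero_smul, add_zero]
  have hid : ∀ l : Filter (ι × ι), UB l (fun _ z => z) fun _ => lv (ρ a) r := fun l =>
    GB.id ((h.dp a).bd ((un_mem _ _).mono fun q (hq : ρ a q.2 < r) => by linarith))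
  have hin : ∀ l : Filter (ι × ι), ∀ᶠ q in un l (fun _ => lv (ρ a) r) ⊓
      𝓟 {q | c a q.1.1 q.2 ∈ Wr c ρ A r' q.1.1},
      q.2 ∈ {x | ρ a x < 7 / 2 ∧ c a q.1.1 x ∈ Wr c ρ A r' q.1.1} := fun l =>
    eventually_inf_principal.2 ((un_mem _ _).mono fun q (h1 : ρ a q.2 < r) h2 => ⟨by linarith, h2⟩)
  have hgU : UE ((𝒰 : Filter ι) ×ˢ (𝒰 : Filter ι)) g (fun _ z => z) fun _ => lv (ρ a) r := by
    refine GE.cases (fun q => c a q.1.1 q.2 ∈ Wr c ρ A r' q.1.1) ?_ ?_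
    · have he := (un_fst _ _).mono_left (inf_le_left (a := un ((𝒰 : Filter ι) ×ˢ (𝒰 : Filter ι))
        fun _ => lv (ρ a) r) (b := 𝓟 {q | c a q.1.1 q.2 ∈ Wr c ρ A r' q.1.1}))
      have g1 := (hF a ha).2.1.at he (hin _)
      have g2 := (GB.const' 1).sub (GB.prod A fun b _ => (GB.const' 1).sub
        ((h.ub_bump ha b hrt ht4).at (hU1.comp he)
          ((hin _).mono fun q hq => show ρ a _ < 4 by linarith [hq.1])))
      have g3 := g1.right.ge.add (g2.ge.smul (g1.sub g1.right.ge))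
      exact g3.congr_right (Eventually.of_forall fun q => ⟨rfl, .of_forall fun w => by simp⟩)
    · exact (GB.mono (hid _) inf_le_left).ge_congr (eventually_inf_principal.2
        (ev_un.2 (hz.mono fun p hp y h1 h2 => ⟨rfl, hp y h1 h2⟩)))
  have hgB : ∀ᶠ i in (𝒰 : Filter ι), UB (pure i ×ˢ (𝒰 : Filter ι)) g fun _ => lv (ρ a) r := by
    filter_upwards [(hF a ha).2.2, ev_pure hz, (Finset.eventually_all A).2 fun b _ =>
      h.ub_bump0 ha b hrt ht4] with i h1 h2 h3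
    refine GB.cases (fun q => c a q.1.1 q.2 ∈ Wr c ρ A r' q.1.1) ?_ ?_
    · have hle := inf_le_left (a := un (pure i ×ˢ (𝒰 : Filter ι))
        fun _ => lv (ρ a) r) (b := 𝓟 {q | c a q.1.1 q.2 ∈ Wr c ρ A r' q.1.1})
      have he := (un_fst _ _).mono_left hle
      have g1 := h1.at he (hin _)
      have g2 := (GB.const' 1).sub (GB.prod A fun b hb => (GB.const' 1).sub
        ((h3 b hb).at (tendsto_fst.comp he)
          ((hin _).mono fun q hq => show ρ a _ < 4 by linarith [hq.1])))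
      exact (GB.mono (hid _) hle).add (g2.smul (g1.sub (GB.mono (hid _) hle)))
    · exact (GB.mono (hid _) inf_le_left).congr (eventually_inf_principal.2
        (ev_un.2 (h2.mono fun p hp y h1 h2 => ⟨rfl, hp y h1 h2⟩)))
  have hg4 : ∀ᶠ p in (𝒰 : Filter ι) ×ˢ (𝒰 : Filter ι), ∀ y ∈ lv (ρ a) r, ρ a (g p y) < 4 :=
    ev_un.1 ((h.dp a).near (r := r) (by linarith) (by linarith)
      ((un_mem _ _).mono fun q hq => le_of_lt hq) (GE.val hgU))
  have hm1 : ∀ (d : α) (l : Filter (ι × ι)), ∀ᶠ q in un l (fun p => {x | ρ d x < 7 / 2 ∧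
      c d p.1 x ∈ Wr c ρ (insert a A) r p.1}) ⊓
      𝓟 {q | decide (c d q.1.1 q.2 ∈ Wr c ρ A r q.1.1) = true},
      (ρ d q.2 < 7 / 2 ∧ c d q.1.1 q.2 ∈ Wr c ρ A r q.1.1) ∧
      q.2 ∈ {x | ρ d x < 7 / 2 ∧ c d q.1.1 x ∈ Wr c ρ A r' q.1.1} := fun d l => by
    refine eventually_inf_principal.2 ((un_mem _ _).mono fun q h1 h2 => ?_)
    obtain ⟨b, hb, z, hz, e⟩ : c d q.1.1 q.2 ∈ Wr c ρ A r q.1.1 := by simpa using h2
    exact ⟨⟨h1.1, b, hb, z, hz, e⟩, h1.1, b, hb, z, lt_trans hz hr, e⟩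
  set y : α → (ι × ι) × E → E := fun d q => invFunOn (c a q.1.1) (lv (ρ a) r) (c d q.1.1 q.2)
    with hy
  have hm2 : ∀ (d : α) (l : Filter (ι × ι)), ∀ᶠ q in un l (fun p => {x | ρ d x < 7 / 2 ∧
      c d p.1 x ∈ Wr c ρ (insert a A) r p.1}) ⊓
      𝓟 {q | decide (c d q.1.1 q.2 ∈ Wr c ρ A r q.1.1) = false},
      ρ d q.2 < 7 / 2 ∧ ρ a (y d q) < r ∧ c a q.1.1 (y d q) = c d q.1.1 q.2 := fun d l => by
    refine eventually_inf_principal.2 ((un_mem _ _).mono fun q h1 h2 => ⟨h1.1, ?_⟩)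
    obtain ⟨b, hb, hq⟩ := h1.2
    rcases Finset.mem_insert.1 hb with rfl | hb
    · exact invFunOn_pos hq
    · exact absurd (show c d q.1.1 q.2 ∈ Wr c ρ A r q.1.1 from ⟨b, hb, hq⟩) (by simpa using h2)
  have hch' : ∀ᶠ p in (𝒰 : Filter ι) ×ˢ (𝒰 : Filter ι), ∀ y, ρ a y < r →
      ∀ᶠ w in 𝓝 y, F' p (c a p.1 w) = c a p.2 (g p w) := by
    filter_upwards [hch] with p h1 y h2
    filter_upwards [((h.dp a).op (7 / 2)).mem_nhds (show ρ a y < 7 / 2 by linarith)]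
      with w hw using h1 w hw
  refine gd_of (fun d q => decide (c d q.1.1 q.2 ∈ Wr c ρ A r q.1.1)) (fun d hd b => ?_)
    fun d hd b => ?_
  · intro m hmd
    have he : Tendsto Prod.fst m _ := hmd ▸ (un_fst _ _).mono_left inf_le_left
    cases b with
    | true =>
      have hm := hmd ▸ hm1 d _
      have hn : ∀ᶠ q in m, ∀ᶠ w in 𝓝 q.2, F' q.1 (c d q.1.1 w) = F q.1 (c d q.1.1 w) := by
        filter_upwards [hm, he.eventually (hn d hd)] with q h1 h2 using h2 _ h1.1.1 h1.1.2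
      refine ⟨?_, ((hF d hd).2.1.at he (hm.mono fun q hq => hq.2)).congr_left (hn.mono fun q hq =>
        ⟨rfl, hq.mono fun w hw => by simp only [rd, hw]⟩)⟩
      filter_upwards [hn, he.eventually (hF d hd).1, hm] with q h1 h2 h3
      filter_upwards [h1, h2 q.2 h3.2.1 h3.2.2] with w a1 a2
      rw [a1]; exact a2
    | false =>
      have hm := hmd ▸ hm2 d _
      refine h.crit (b := a) (g := fun q => g q.1) (y := y d) hd he
        (hm.mono fun q hq => ⟨hq.1.le, by linarith [hq.2.1], hq.2.2.symm⟩)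
        (hgU.at he (hm.mono fun q hq => hq.2.1)) ?_
      filter_upwards [he.eventually hch', hm] with q h1 h2 using h1 _ h2.2.1
  · cases b with
    | true =>
      filter_upwards [ev_pure (hn d hd), (hF d hd).2.2] with i h1 h2 m hmd _
      have he : Tendsto Prod.fst m _ := hmd ▸ (un_fst _ _).mono_left inf_le_left
      have hm := hmd ▸ hm1 d _
      refine (h2.at he (hm.mono fun q hq => hq.2)).congr ?_
      filter_upwards [hm, he.eventually h1] with q h3 h4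
      exact ⟨rfl, (h4 _ h3.1.1 h3.1.2).mono fun w hw => by simp only [rd, hw]⟩
    | false =>
      filter_upwards [h.loc0 a d (Or.inl ha), hgB, ev_pure hg4, ev_pure hch']
        with i h1 h2 h3 h4 m hmd hx
      have he : Tendsto Prod.fst m _ := hmd ▸ (un_fst _ _).mono_left inf_le_left
      have hm := hmd ▸ hm2 d _
      refine h.crit0 (g := fun q => g q.1) (y := y d) hd h1 he
        (hm.mono fun q hq => ⟨by linarith [hq.1], by linarith [hq.2.1], hq.2.2.symm⟩)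
        (h2.at he (hm.mono fun q hq => hq.2.1)) ?_ ?_ hx
      · filter_upwards [he.eventually h3, hm] with q h1 h2 using h1 _ h2.2.1
      · filter_upwards [he.eventually h4, hm] with q h1 h2 using h1 _ h2.2.1

/-- **Gluing theorem.** -/
theorem GlH.glue [Fintype α] (h : GlH 𝒰 c ρ B) :
    ∃ (F : ι × ι → M → M) (f : α → ι × ι → E → E),
      (∀ a, ∀ᶠ p in (𝒰 : Filter ι) ×ˢ (𝒰 : Filter ι), ∀ x, ρ a x < 2 →
        ρ a (f a p x) < 4 ∧ F p (c a p.1 x) = c a p.2 (f a p x)) ∧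
      (∀ a, UE ((𝒰 : Filter ι) ×ˢ (𝒰 : Filter ι)) (f a) (fun _ z => z) fun _ => lv (ρ a) 2) ∧
      (∀ a, ∀ᶠ i in (𝒰 : Filter ι), UB (pure i ×ˢ (𝒰 : Filter ι)) (f a) fun _ => lv (ρ a) 2) ∧
      ∀ a, ¬ B a → ∀ p x, f a p x = x := by
  classical
  rcases isEmpty_or_nonempty α with hα | ⟨⟨a0⟩⟩
  · exact ⟨fun _ q => q, fun _ _ x => x, fun a => hα.elim a, fun a => hα.elim a,
      fun a => hα.elim a, fun a => hα.elim a⟩
  have key : ∀ s : Finset α, (∀ a ∈ s, B a) → ∀ r < (3 : ℝ), ∃ F : ι × ι → M → M,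
      Gd 𝒰 c ρ B F (Wr c ρ (s ∪ Finset.univ.filter fun a => ¬ B a) r) ∧
      ∀ a, ¬ B a → ∀ᶠ p in (𝒰 : Filter ι) ×ˢ (𝒰 : Filter ι), ∀ z, ρ a z < r →
        F p (c a p.1 z) = c a p.2 z := by
    intro s
    induction s using Finset.induction_on with
    | empty =>
      intro _ r hr
      obtain ⟨F, h1, h2⟩ := h.base a0 (r := r) (by linarith)
      exact ⟨F, by simpa using h1, fun a ha => (h2 a ha).mono fun p hp z hz => hp z (by linarith)⟩
    | insert a s _ ih =>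
      intro hs r hr
      obtain ⟨F, h1, h2⟩ := ih (fun b hb => hs b (by simp [hb])) ((r + 3) / 2) (by linarith)
      obtain ⟨F', h3, h4⟩ := h.step (hs a (by simp)) (r := r) (by linarith) (by linarith) h1
      refine ⟨F', by rwa [Finset.insert_union], fun b hb => ?_⟩
      filter_upwards [h2 b hb, h4] with p a1 a2 z hz
      rw [a2 _ ⟨b, by simp [hb], z, hz, rfl⟩, a1 z (by linarith)]
  obtain ⟨F, h1, h2⟩ := key (Finset.univ.filter B) (fun a ha => by simpa using ha) 2 (by norm_num)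
  have hW : ∀ a i x, ρ a x < 2 →
      c a i x ∈ Wr c ρ (Finset.univ.filter B ∪ Finset.univ.filter fun a => ¬ B a) 2 i :=
    fun a i x hx => ⟨a, by by_cases h : B a <;> simp [h], x, hx, rfl⟩
  refine ⟨F, fun a => if B a then rd c ρ F a else fun _ x => x, fun a => ?_, fun a => ?_,
    fun a => ?_, fun a ha p x => by simp [ha]⟩
  · by_cases ha : B a
    · filter_upwards [(h1 a ha).1] with p hp x hx
      have := invFunOn_pos (hp x (by linarith) (hW a _ x hx)).self_of_nhds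
      simp only [if_pos ha]
      exact ⟨this.1, this.2.symm⟩
    · filter_upwards [h2 a ha] with p hp x hx
      simp only [if_neg ha]
      exact ⟨by linarith, hp x hx⟩
  · by_cases ha : B a
    · simp only [if_pos ha]
      exact (h1 a ha).2.1.mono (Eventually.of_forall fun p x hx =>
        ⟨lt_trans hx (by norm_num), hW a _ x hx⟩)
    · simp only [if_neg ha]
      exact (GB.id ((h.dp a).bd ((un_mem _ _).mono fun q hq =>
        le_of_lt (lt_trans hq (by norm_num))))).ge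
  · by_cases ha : B a
    · simp only [if_pos ha]
      exact (h1 a ha).2.2.mono fun i hi => hi.mono (Eventually.of_forall fun p x hx =>
        ⟨lt_trans hx (by norm_num), hW a _ x hx⟩)
    · simp only [if_neg ha]
      exact Eventually.of_forall fun i => GB.id ((h.dp a).bd ((un_mem _ _).mono fun q hq =>
        le_of_lt (lt_trans hq (by norm_num))))

end Crest.Agent.N207.Jt

end
end

-- ▼ part N207/I/Fix

/-!
# Row 207, block I (helper24): the gluing theorem at a fixed first index, geometric form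
-/

set_option autoImplicit false
open Set Filter Topology Function Metric
open scoped ContDiff Manifold
open Crest.GeometryTopology.CoordMetric
open Crest.Agent.R202.Tens

noncomputable section

namespace Crest.Agent.N207.Jt

variable {ι α : Type} {𝒰 : Ultrafilter ι} {B : α → Prop}

theorem GlH.fix {E : Type} {M : Type*} [NormedAddCommGroup E] [NormedSpace ℝ E]
    [TopologicalSpace M] {c : α → ι → E → M} {ρ : α → E → ℝ} [T2Space M] [FiniteDimensional ℝ E]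
    [Fintype α] (h : GlH 𝒰 c ρ B) {δ : ℝ} (hδ : 0 < δ) :
    ∀ᶠ i0 in (𝒰 : Filter ι), ∃ (F : ι → M → M) (f : α → ι → E → E),
      (∀ a, ∀ᶠ i in (𝒰 : Filter ι), ∀ x, ρ a x < 2 → ρ a (f a i x) < 4 ∧
        F i (c a i0 x) = c a i (f a i x) ∧ ‖f a i x - x‖ ≤ δ ∧
        ‖fderiv ℝ (f a i) x - ContinuousLinearMap.id ℝ E‖ ≤ δ) ∧
      (∀ a, UB (𝒰 : Filter ι) (f a) fun _ => lv (ρ a) 2) ∧ ∀ a, ¬ B a → ∀ i x, f a i x = x := by
  obtain ⟨F, f, h1, h2, h3, h4⟩ := h.glue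
  have h5 : ∀ a, ∀ᶠ p in (𝒰 : Filter ι) ×ˢ (𝒰 : Filter ι), ∀ x, ρ a x < 2 →
      ρ a (f a p x) < 4 ∧ F p (c a p.1 x) = c a p.2 (f a p x) ∧ ‖f a p x - x‖ ≤ δ ∧
        ‖fderiv ℝ (f a p) x - ContinuousLinearMap.id ℝ E‖ ≤ δ := fun a => by
    filter_upwards [h1 a, ev_un.1 (Metric.tendsto_nhds.1 (GE.val (h2 a)) δ hδ),
      ev_un.1 (Metric.tendsto_nhds.1 (GE.fderiv (h2 a)).val δ hδ)] with p a1 a2 a3 x hx
    exact ⟨(a1 x hx).1, (a1 x hx).2, by simpa using (a2 x hx).le, by simpa using (a3 x hx).le⟩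
  filter_upwards [eventually_all.2 fun a => (h5 a).curry, eventually_all.2 h3] with i a1 a2
  refine ⟨fun j => F (i, j), fun a j => f a (i, j), a1, fun a => ?_, fun a ha j => h4 a ha _⟩
  exact (a2 a).comap (e := fun j => (i, j)) (tendsto_const_pure.prodMk tendsto_id)
    (Eventually.of_forall fun _ => subset_rfl)

variable {n : ℕ} {l : Filter ι}

/-- a fixed metric on a compact set -/
theorem mu_fixed {g : MetricField n} {O K : Set (En n)} (h : IsRiemannianOn g O) (hK : IsCompact K)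
    (hKO : K ⊆ O) (l : Filter ι) : MU l (fun _ => g) fun _ => K := by
  have hs := fun a b z (hz : z ∈ K) => (h.contDiffOn a b).contDiffAt (h.isOpen.mem_nhds (hKO hz))
  obtain ⟨c, hc, hp⟩ := pos_of_compact hK (A := g)
    (fun a b z hz => (hs a b z hz).continuousAt.continuousWithinAt) fun z hz => h.posDef z (hKO hz)
  exact mu_iff.2 ⟨fun a b => (GE.fixed hK (hs a b) (un_mem _ _) (un_mem _ _)
    (by simpa using tendsto_const_nhds)).left, c, hc, Eventually.of_forall fun _ => hp⟩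

theorem mu_pure {g : ι → MetricField n} {O K : Set (En n)} {i : ι} (h : IsRiemannianOn (g i) O)
    (hK : IsCompact K) (hKO : K ⊆ O) : MU (pure i) g fun _ => K :=
  MB.congr (mu_fixed h hK hKO (pure i)) (((un_fst _ _).eventually
    (show ∀ᶠ j in pure i, j = i from rfl)).mono fun q hq => ⟨rfl, by rw [hq]⟩)

/-- pull-back of controlled metrics by controlled immersions -/
theorem MB.pull {g g' : ι → MetricField n} {f : ι → En n → En n} {x : ι → En n}
    (hg : MB l g fun j => f j (x j)) (hf : GB l f x) {c : ℝ} (hc : 0 < c)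
    (hl : ∀ᶠ j in l, ∀ X, c * ‖X‖ ≤ ‖fderiv ℝ (f j) (x j) X‖)
    (he : ∀ᶠ j in l, ∀ᶠ y in 𝓝 (x j), ∀ p q, g' j y p q = ∑ a, ∑ b, g j (f j y) a b *
      (fderiv ℝ (f j) y (EuclideanSpace.single p 1)) a *
      (fderiv ℝ (f j) y (EuclideanSpace.single q 1)) b) : MB l g' x := by
  refine ⟨fun p q => GB.congr (GE.sum Finset.univ fun a _ => GE.sum Finset.univ fun b _ =>
    ((((hg.gb a b).comp hf).ge.mul ((hf.fderiv.ge.app (GE.const' _)).coord a)).mul
      ((hf.fderiv.ge.app (GE.const' _)).coord b))).left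
    (he.mono fun j hj => ⟨rfl, hj.mono fun y hy => hy p q⟩), ?_⟩
  obtain ⟨d, hd, hp⟩ := hg.pos
  refine ⟨d * c ^ 2, by positivity, ?_⟩
  filter_upwards [hp, hl, he] with j h1 h2 h3
  have h4 := h3.self_of_nhds
  refine ⟨fun p q => ?_, fun v => ?_⟩
  · rw [h4, h4, Finset.sum_comm]
    refine Finset.sum_congr rfl fun a _ => Finset.sum_congr rfl fun b _ => ?_
    rw [h1.1 b a]; ring
  · have e : bil (g' j (x j)) v v =
        bil (g j (f j (x j))) (fderiv ℝ (f j) (x j) v) (fderiv ℝ (f j) (x j) v) := by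
      have h5 : ∀ p q, g' j (x j) p q = bil (g j (f j (x j)))
          (fderiv ℝ (f j) (x j) (EuclideanSpace.single p 1))
          (fderiv ℝ (f j) (x j) (EuclideanSpace.single q 1)) := fun p q => by rw [h4, bil_apply]
      rw [bil_apply]
      simp only [h5]
      conv_rhs => rw [Gs.sum_single v]
      simp only [map_sum, sum_apply, map_smul, smul_apply, smul_eq_mul, Finset.mul_sum]
      rw [Finset.sum_comm]
      exact Finset.sum_congr rfl fun a _ => Finset.sum_congr rfl fun b _ => by ring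
    rw [e]
    refine le_trans ?_ (h1.2 _)
    rw [mul_assoc, ← mul_pow]
    gcongr
    exact h2 v

theorem lower_of_near {E : Type} [NormedAddCommGroup E] [NormedSpace ℝ E] {A : E →L[ℝ] E}
    (h : ‖A - ContinuousLinearMap.id ℝ E‖ ≤ 1 / 2) (X : E) : 1 / 2 * ‖X‖ ≤ ‖A X‖ := by
  have h1 : ‖A X - X‖ ≤ 1 / 2 * ‖X‖ := (A - ContinuousLinearMap.id ℝ E).le_of_opNorm_le h X
  have := norm_sub_norm_le X (A X)
  rw [norm_sub_rev] at this
  linarith

theorem inj_of_near {E : Type} [NormedAddCommGroup E] [NormedSpace ℝ E] {A : E →L[ℝ] E}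
    (h : ‖A - ContinuousLinearMap.id ℝ E‖ ≤ 1 / 2) : Injective A :=
  (injective_iff_map_eq_zero A).2 fun X hX => by
    have := lower_of_near h X
    rw [hX, norm_zero] at this
    exact norm_le_zero_iff.1 (by linarith)

/-- an almost identity is injective on convex sets -/
theorem injOn_of_near {E : Type} [NormedAddCommGroup E] [NormedSpace ℝ E] {f : E → E} {S : Set E}
    (hS : Convex ℝ S) (hd : ∀ x ∈ S, DifferentiableAt ℝ f x)
    (h : ∀ x ∈ S, ‖fderiv ℝ f x - ContinuousLinearMap.id ℝ E‖ ≤ 1 / 2) : InjOn f S := by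
  intro x hx y hy e
  have := hS.norm_image_sub_le_of_norm_fderiv_le' hd h hx hy
  rw [e, sub_self, zero_sub, norm_neg, ContinuousLinearMap.id_apply] at this
  exact (sub_eq_zero.1 (norm_le_zero_iff.1 (by linarith [norm_nonneg (y - x)]))).symm

variable {M : Type*} [TopologicalSpace M] [ChartedSpace (En n) M] [IsManifold 𝓘(ℝ, En n) ∞ M]

/-- geometric hypotheses of the gluing theorem -/
structure GeoH (𝒰 : Ultrafilter ι) (m : ι → Met n M) (c : α → ι → En n → M) (ρ : α → En n → ℝ)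
    (B : α → Prop) (O : α → Set (En n)) : Prop where
  dp : ∀ a, Dp (ρ a)
  sub : ∀ a, lc (ρ a) 4 ⊆ O a
  par : ∀ a, ∀ᶠ i in (𝒰 : Filter ι), Par (c a i) (O a)
  mu : ∀ a, MU (𝒰 : Filter ι) (fun i => (m i).pm (c a i)) fun _ => lv (ρ a) 4
  inj : ∀ a, B a → ∀ᶠ i in (𝒰 : Filter ι), InjOn (c a i) (lv (ρ a) 4)
  desc : ∀ a, ∀ᶠ i in (𝒰 : Filter ι), ∀ z ∈ lv (ρ a) 4, ∀ z' ∈ lv (ρ a) 4,
    c a i z = c a i z' → ρ a z = ρ a z'
  sat : ∀ a b, ¬ B a → ¬ B b → ∀ᶠ p in (𝒰 : Filter ι) ×ˢ (𝒰 : Filter ι),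
    ∀ z ∈ lv (ρ a) 4, ∀ z' ∈ lv (ρ b) 4, c a p.1 z = c b p.1 z' → c a p.2 z = c b p.2 z'

variable [T3Space M] [ConnectedSpace M] {m : ι → Met n M} {c : α → ι → En n → M}
  {ρ : α → En n → ℝ} {O : α → Set (En n)}

theorem GeoH.glh (h : GeoH 𝒰 m c ρ B O) : GlH 𝒰 c ρ B := by
  have hs : ∀ a, lv (ρ a) 4 ⊆ lc (ρ a) 4 := fun a z (hz : ρ a z < 4) => hz.le
  have hp : ∀ a, ∀ᶠ i in (𝒰 : Filter ι), Par (c a i) (lv (ρ a) 4) := fun a =>
    (h.par a).mono fun i hi => Gs.par_mono hi ((h.dp a).op 4) ((hs a).trans (h.sub a))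
  have hb : ∀ a, Bornology.IsBounded (lv (ρ a) 4) := fun a => (h.dp a).cpt.isBounded.subset (hs a)
  refine ⟨h.dp, fun a => (hp a).mono fun i hi => Gs.par_cont hi, h.inj, h.desc, h.sat,
    fun a b _ => loc_of_par m (hb a) (hb b) (hp a) (hp b) (h.mu a) (h.mu b), fun a b _ => ?_⟩
  filter_upwards [h.par a, h.par b, hp a, hp b] with i h1 h2 h3 h4
  exact loc_of_par m (l := pure i) (c := c a) (c' := c b) (hb a) (hb b) h3 h4
    ((mu_pure (Gs.par_riem (m i) h1) (h.dp a).cpt (h.sub a)).mono (.of_forall fun _ => hs a))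
    ((mu_pure (Gs.par_riem (m i) h2) (h.dp b).cpt (h.sub b)).mono (.of_forall fun _ => hs b))

/-- **gluing, geometric form** -/
theorem GeoH.fix [Fintype α] (h : GeoH 𝒰 m c ρ B O) {δ : ℝ} (hδ : 0 < δ) :
    ∀ᶠ i0 in (𝒰 : Filter ι), ∃ (F : ι → M → M) (f : α → ι → En n → En n),
      (∀ a, ∀ᶠ i in (𝒰 : Filter ι), Par (fun x => c a i (f a i x)) (lv (ρ a) 2) ∧
        (B a → Convex ℝ (lv (ρ a) 2) → InjOn (fun x => c a i (f a i x)) (lv (ρ a) 2)) ∧
        ∀ x, ρ a x < 2 → ContDiffAt ℝ ∞ (f a i) x ∧ F i (c a i0 x) = c a i (f a i x) ∧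
          ‖f a i x - x‖ ≤ δ ∧ ‖fderiv ℝ (f a i) x - ContinuousLinearMap.id ℝ (En n)‖ ≤ δ) ∧
      (∀ a, MU (𝒰 : Filter ι) (fun i => (m i).pm fun x => c a i (f a i x)) fun _ => lv (ρ a) 2) ∧
      ∀ a, ¬ B a → ∀ i x, f a i x = x := by
  filter_upwards [h.glh.fix (lt_min hδ one_half_pos)] with i0 ⟨F, f, h1, h2, h3⟩
  have h4 := fun a => (ub_iff.1 (h2 a)).1
  refine ⟨F, f, fun a => ?_, fun a => ?_, h3⟩
  · filter_upwards [h1 a, h4 a, h.par a,
      eventually_imp_distrib_left.2 (h.inj a)] with i a1 a2 a3 a4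
    have a5 := fun x hx => (a1 x hx).2.2.2.trans (min_le_right _ _)
    refine ⟨Gs.par_comp a3 ((h.dp a).op 2) (fun x hx => (a2 x hx).contDiffWithinAt)
      (fun x hx => h.sub a (le_of_lt (a1 x hx).1)) fun x hx => inj_of_near (a5 x hx),
      fun ha hc x hx y hy e => ?_, fun x hx => ⟨a2 x hx, (a1 x hx).2.1,
        (a1 x hx).2.2.1.trans (min_le_left _ _), (a1 x hx).2.2.2.trans (min_le_left _ _)⟩⟩
    exact injOn_of_near hc (fun x hx => (a2 x hx).differentiableAt (by simp)) a5 hx hy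
      (a4 ha (a1 x hx).1 (a1 y hy).1 e)
  · have h5 : MB (un (𝒰 : Filter ι) fun _ => lv (ρ a) 2) (fun q => (m q.1).pm (c a q.1))
        fun q => f a q.1 q.2 := (h.mu a).at (e := Prod.fst) (un_fst _ _)
      (ev_un.2 ((h1 a).mono fun i hi x hx => (hi x hx).1))
    refine MB.pull (f := fun q : ι × En n => f a q.1) (x := Prod.snd) h5 (h2 a) one_half_pos
      (ev_un.2 ((h1 a).mono fun i hi x hx =>
        lower_of_near ((hi x hx).2.2.2.trans (min_le_right _ _)))) (ev_un.2 ?_)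
    filter_upwards [h1 a, h4 a, h.par a] with i a1 a2 a3 x hx
    filter_upwards [((h.dp a).op 2).mem_nhds hx] with y hy
    exact Gs.pm_comp (m i) (Gs.par_md a3 (h.sub a (le_of_lt (a1 y hy).1)))
      ((a2 y hy).differentiableAt (by simp))

end Crest.Agent.N207.Jt

end
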