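import Crest.Agent.N207.I.Pre
import Crest.Agent.N207.I.Lim1
import Crest.Agent.N207.I.Car3

-- ▼ part N207/I/Pre2
section

/-!
# Row 207, block I (helper24): the glued metrics on `glob L`
-/

set_option autoImplicit false
open Set Filter Topology Function Metric
open scoped ContDiff Manifold
open Crest.GeometryTopology.CoordMetric
open Crest.Agent.R202.Tens

noncomputable section

namespace Crest.Agent.N207.I

open Jt

namespace TD

variable {M : Type*} {T : TD M}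

theorem base_open (v : T.V) (s : T.S) : IsOpen ((T.base v).U s) := by
  have : ∀ a b : ℝ, IsOpen {x : E4 | a < ‖x‖ ∧ ‖x‖ < b} := fun a b =>
    (isOpen_lt continuous_const continuous_norm).inter (isOpen_lt continuous_norm continuous_const)
  cases s <;> simp only [base, bU, Sum.elim_inl, Sum.elim_inr] <;> split_ifs <;>
    first | exact isOpen_ball | exact isOpen_empty | exact this _ _

theorem base_norm {v : T.V} {s : T.S} {x y : E4} (e : ‖x‖ = ‖y‖) (hx : x ∈ (T.base v).U s) :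
    y ∈ (T.base v).U s := by
  cases s with
  | inl a => rwa [mem_base_inl, ← e, ← mem_base_inl]
  | inr w =>
    by_cases hw : w = v
    · subst hw; rwa [mem_base_out, ← e, ← mem_base_out]
    · rwa [mem_base_inn hw, ← e, ← mem_base_inn hw]

theorem base_ne (hr : 0 < T.r) {v w : T.V} {x : E4} (hx : x ∈ (T.base v).U (Sum.inr w)) :
    x ≠ 0 := by
  rintro rfl
  by_cases hw : w = v
  · subst hw; norm_num [mem_base_out] at hx
  · have := ((mem_base_inn hw).1 hx).2.1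
    rw [norm_zero] at this; linarith

variable [TopologicalSpace M] [ChartedSpace E4 M] [IsManifold 𝓘(ℝ, E4) ∞ M] [T3Space M]
  [ConnectedSpace M]

/-- the metric on `glob L` given by charts `ψ`, `Ψ` that are glued like the charts of `T` -/
theorem Ok.isMet_glob (h : T.Ok) {L : T.V → ℝ} (hL : T.Long L) (m : Met 4 M) {ψ : T.B → E4 → M}
    {Ψ : T.V → E4 → M} {F : T.V → M → M} (hF : ∀ v s, ∀ x ∈ (T.base v).U s,
      F v ((T.base v).c s x) = ((T.inst ψ Ψ L).base v).c s x)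
    (hψ : ∀ a, Par (ψ a) (ball 0 2)) (hΨ : ∀ w, Par (Ψ w) (T.nk L w)) {Gn : T.V → MetricField 4}
    (riem : ∀ w, IsRiemannianOn (Gn w) ((T.glob L).U (Sum.inr w)))
    (inv : ∀ w, ∀ γ ∈ T.Γ w, ∀ x ∈ (T.glob L).U (Sum.inr w),
      matT (Gn w) x = pullT γ (matT (Gn w)) x)
    (eq : ∀ w, ∀ x ∈ (T.glob L).U (Sum.inr w), x ∈ T.nk L w → Gn w x = m.pm (Ψ w) x) :
    (T.glob L).IsMet (Sum.elim (fun a => m.pm (ψ a)) Gn) := by
  have hA := h.str_glob hL
  have key : ∀ v s x, sc (lm L) s v • x ∈ (T.base v).U s →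
      F v ((T.base v).c s (sc (lm L) s v • x)) = Sum.elim ψ Ψ s x ∧
      MDifferentiableAt 𝓘(ℝ, E4) 𝓘(ℝ, E4) (Sum.elim ψ Ψ s) x ∧
      Sum.elim (fun a => m.pm (ψ a)) Gn s x = m.pm (Sum.elim ψ Ψ s) x := fun v s x hx => by
    rw [hF v s _ hx]
    cases s with
    | inl a =>
      simp only [sc, Sum.elim_inl, one_smul] at hx ⊢
      exact ⟨rfl, Gs.par_md (hψ a) (by simpa using (mem_base_inl.1 hx).2), trivial⟩
    | inr w =>
      have e : (if w = v then 1 else Real.exp (L w)) • sc (lm L) (Sum.inr w) v • x = x := by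
        simp only [sc, lm, Sum.elim_inr, smul_smul]
        split_ifs <;> simp [← Real.exp_add]
      have h1 : x ∈ T.nk L w := e ▸ bO_inr hL (base_sub h.r_pos v _ hx)
      exact ⟨by rw [inst_c, e]; rfl, Gs.par_md (hΨ w) h1, eq w x (hA.conv' trivial hx).1 h1⟩
  refine ⟨fun s => ?_, fun a b x Φ hΦ => ?_⟩
  · cases s with
    | inl a => exact Gs.par_riem m (hψ a)
    | inr w => exact riem w
  have hs := hΦ.sm.self_of_nhds
  rcases hA.rel hΦ.mem hΦ.mem' hΦ.eq.self_of_nhds.symm with ⟨v, -, h1, h2, -⟩ | ⟨rfl, γ, hγ, e⟩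
  · have e1 : matT (Sum.elim (fun a => m.pm (ψ a)) Gn a) x = matT (m.pm (Sum.elim ψ Ψ a)) x := by
      funext I; simp only [matT, (key v a x h1).2.2]
    have e2 : matT (Sum.elim (fun a => m.pm (ψ a)) Gn b) (Φ x) =
        matT (m.pm (Sum.elim ψ Ψ b)) (Φ x) := by
      funext I; simp only [matT, (key v b _ h2).2.2]
    refine e1.trans (Eq.trans ?_ (AI.pullT_congr EventuallyEq.rfl e2).symm)
    refine matT_pm m (key v b _ h2).2.1 (hs.differentiableAt (by simp)) ?_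
    filter_upwards [hA.conv_ev h trivial h1, hs.continuousAt.eventually (hA.conv_ev h trivial h2),
      hΦ.eq] with z a1 a2 a3
    rw [a1.2, a2.2] at a3
    rw [← (key v a z a1.1).1, ← (key v b _ a2.1).1, (Prod.mk.inj (Sum.inl.inj a3)).2]
  · rw [AI.pullT_congr ((h.glob_ok hL).tr_eq_iso hΦ hγ e) rfl]
    cases a with
    | inl a =>
      obtain rfl : γ = 1 := hγ
      exact matT_pm m (Gs.par_md (hψ a) hΦ.mem) (by fun_prop) EventuallyEq.rfl
    | inr w => exact inv w γ hγ x hΦ.mem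

omit [T3Space M] [ConnectedSpace M] in
/-- the neck metrics are invariant -/
theorem pm_inv (m : Met 4 M) {Ψ : E4 → M} {U : Set E4} (h : Par Ψ U) {γ : Iso4}
    (hγ : ∀ x ∈ U, γ x ∈ U ∧ Ψ (γ x) = Ψ x) {x : E4} (hx : x ∈ U) :
    matT (m.pm Ψ) x = pullT γ (matT (m.pm Ψ)) x :=
  matT_pm m (Gs.par_md h (hγ x hx).1) (by fun_prop)
    (mem_of_superset (h.isOpen.mem_nhds hx) fun z hz => (hγ z hz).2.symm)

variable {ι : Type} {l : Filter ι} {g : ι → Met 4 M} {φ : ι → T.B → E4 → M}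
  {Ψ : ι → T.V → E4 → M} {L : ι → T.V → ℝ}

omit [ConnectedSpace M] in
theorem Pre.base_ok (h : T.Pre l g φ Ψ L) (fin : ∀ v, Finite (T.Γ v))
    (free : ∀ v, ∀ γ ∈ T.Γ v, ∀ x : E4, x ≠ 0 → γ x = x → γ = 1) (v : T.V) :
    ∀ᶠ i in l, ((T.inst (φ i) (Ψ i) (L i)).base v).Ok := by
  filter_upwards [eventually_all.2 (h.par v), eventually_all.2 (h.fibN v),
    eventually_all.2 (h.injB v)] with i h1 h2 h3
  have hs := base_sub h.r_pos v
  have h4 := fun s => Gs.par_mono (h1 s) (base_open v s) (hs s)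
  refine ⟨base_open v, fun s => ?_, fun s γ _ x hx => base_norm (γ.norm_map x).symm hx,
    fun s γ hγ x hx e => ?_, fun s x hx y hy => ?_, fun a b x hx y hy e => ?_,
    fun a b x hx y hy e => ?_⟩
  · cases s with
    | inl a => exact inferInstanceAs (Finite (⊥ : Subgroup Iso4))
    | inr w => exact fin w
  · cases s with
    | inl a => exact hγ
    | inr w => exact free w γ hγ x (base_ne (T := T) h.r_pos hx) e
  · cases s with
    | inl a =>
      refine ⟨fun e => ⟨1, one_mem _, h3 a (hs _ hx) (hs _ hy) e⟩, ?_⟩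
      rintro ⟨γ, hγ, rfl⟩
      obtain rfl : γ = 1 := hγ
      rfl
    | inr w => exact h2 w x (hs _ hx) y (hs _ hy)
  · obtain ⟨Φ, V, hV, hxV, -, hΦ, hsm, hm⟩ := Gs.exists_trans0 (h4 a) (h4 b) hx hy e.symm
    exact ⟨Φ, ⟨hx, hΦ ▸ hy, (hV.eventually_mem hxV).mono fun z hz => hsm.contDiffAt (hV.mem_nhds hz),
      (hV.eventually_mem hxV).mono fun z hz => (hm z hz).2⟩, hΦ⟩
  · have c1 := (Gs.par_at (h4 a) hx).continuousAt.comp (f := Prod.fst) (x := (x, y))
      continuousAt_fst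
    have c2 := (Gs.par_at (h4 b) hy).continuousAt.comp (f := Prod.snd) (x := (x, y))
      continuousAt_snd
    exact (c1.ne_iff_eventually_ne c2).1 e

omit [ConnectedSpace M] in
/-- `T.Ok` at almost every index -/
theorem Pre.ok (h : T.Pre l g φ Ψ L) (dep_root : T.dep T.root = 0) (r_lt : T.r < 1)
    (fin : ∀ v, Finite (T.Γ v)) (ne_bot : ∀ v, T.Γ v ≠ ⊥)
    (free : ∀ v, ∀ γ ∈ T.Γ v, ∀ x : E4, x ≠ 0 → γ x = x → γ = 1)
    (sepo : ∀ a, ∀ᶠ i in l, ∀ x ∈ ball (0 : E4) 2, ∀ y : E4, 1 < ‖y‖ → ‖y‖ < 4 →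
      φ i a x = Ψ i (T.vx a) y → ‖y‖ < 3)
    (sepi : ∀ a w, T.kid (T.vx a) w → ∀ᶠ i in l, ∀ x ∈ ball (0 : E4) 2, ∀ y : E4, T.r / 4 < ‖y‖ →
      ‖y‖ < T.r → φ i a x = Ψ i w (Real.exp (L i w) • y) → T.r / 3 < ‖y‖)
    (cover : ∀ v s, ∀ᶠ i in l, ∀ x ∈ (T.base v).U s,
      (∃ b, T.vx b = v ∧ ∃ y ∈ ball (0 : E4) 1,
        φ i b y = ((T.inst (φ i) (Ψ i) (L i)).base v).c s x) ∨
      (∃ y : E4, 2 ≤ ‖y‖ ∧ ‖y‖ < 4 ∧ Ψ i v y = ((T.inst (φ i) (Ψ i) (L i)).base v).c s x) ∨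
      ∃ w, T.kid v w ∧ ∃ y : E4, T.r / 4 < ‖y‖ ∧ ‖y‖ ≤ T.r / 2 ∧
        Ψ i w (Real.exp (L i w) • y) = ((T.inst (φ i) (Ψ i) (L i)).base v).c s x) :
    ∀ᶠ i in l, (T.inst (φ i) (Ψ i) (L i)).Ok := by
  filter_upwards [eventually_all.2 (h.base_ok fin free), eventually_all.2 sepo,
    eventually_all.2 fun a => eventually_all.2 fun w => eventually_imp_distrib_left.2 (sepi a w),
    eventually_all.2 fun v => eventually_all.2 fun w => eventually_all.2 fun w' =>
      eventually_imp_distrib_left.2 (h.disj v w w'),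
    eventually_all.2 fun v => eventually_all.2 (cover v)] with i h1 h2 h3 h4 h5
  exact ⟨dep_root, h.dep_par, h.r_pos, r_lt, fin, ne_bot, free, h1, h2, h3,
    fun v w w' hw x hx y hy => h4 v w w' hw x (base_sub h.r_pos v _ hx) y (base_sub h.r_pos v _ hy),
    h5⟩

/-- **the gluing on trees** -/
theorem Pre.fix {𝒰 : Ultrafilter ι} (h : T.Pre 𝒰 g φ Ψ L) {δ : ℝ} (hδ : 0 < δ) :
    ∀ᶠ i0 in (𝒰 : Filter ι), ∃ (F : ι → T.V → M → M) (f : ι → T.B → E4 → E4),
      (∀ᶠ i in (𝒰 : Filter ι), ∀ a, Par (fun x => φ i a (f i a x)) (ball 0 2) ∧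
        InjOn (fun x => φ i a (f i a x)) (ball 0 2) ∧ ∀ x ∈ ball (0 : E4) 2,
          ContDiffAt ℝ ∞ (f i a) x ∧ ‖f i a x - x‖ ≤ δ ∧
          ‖fderiv ℝ (f i a) x - ContinuousLinearMap.id ℝ E4‖ ≤ δ) ∧
      (∀ a, MU (𝒰 : Filter ι) (fun i y => (T.eps (L i) (T.vx a) ^ 2)⁻¹ •
        (g i).pm (fun x => φ i a (f i a x)) y) fun _ => ball 0 2) ∧
      ∀ᶠ i in (𝒰 : Filter ι), ∀ v s, ∀ x ∈ (T.base v).U s,
        F i v (((T.inst (φ i0) (Ψ i0) (L i0)).base v).c s x) =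
          ((T.inst (fun a x => φ i a (f i a x)) (Ψ i) (L i)).base v).c s x := by
  filter_upwards [eventually_all.2 fun v => (h.geo v).fix hδ] with i0 h0
  choose F f h1 h2 h3 using h0
  have hb : ∀ a, lv (T.bρ (T.vx a) (Sum.inl a)) 2 = ball 0 2 := fun a => by
    ext x; simp [lv, bρ, rB_two]
  refine ⟨fun i v => F v i, fun i a => f (T.vx a) (Sum.inl a) i, eventually_all.2 fun a => ?_,
    fun a => ?_, eventually_all.2 fun v => eventually_all.2 fun s => ?_⟩
  · filter_upwards [h1 (T.vx a) (Sum.inl a)] with i hi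
    rw [hb] at hi
    refine ⟨hi.1, hi.2.1 rfl (convex_ball _ _), fun x hx => ?_⟩
    obtain ⟨a1, -, a2⟩ := hi.2.2 x (show x ∈ lv _ 2 from hb a ▸ hx)
    exact ⟨a1, a2⟩
  · have := h2 (T.vx a) (Sum.inl a)
    simp only [hb, un', Met.scale_pm] at this
    exact this
  · filter_upwards [h1 v s] with i hi x hx
    rw [(hi.2.2 x ((bρ_dp h.r_pos v s).2.2.1 hx)).2.1]
    cases s with
    | inl a => obtain rfl := (mem_base_inl.1 hx).1; rfl
    | inr w => rw [h3 v (Sum.inr w) (by simp)]; rfl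

end TD

end Crest.Agent.N207.I

end
end

-- ▼ part N207/I/Lim2
section

/-!
# Row 207, block I (helper56): the tree of limits exists as soon as the metrics are bounded
-/

set_option autoImplicit false

open scoped ContDiff Topology
open Set Filter Metric
open Crest.GeometryTopology.CoordMetric Crest.Agent.R202.Tens

noncomputable section

namespace Crest.Agent.N207.I

open Jt

namespace TD

variable {M : Type*} (T : TD M) {ι : Type}

/-- the scaling from the chart `s` of `core v` to the chart `s` of `glob L` -/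
def sg (L : T.V → ℝ) (v : T.V) : T.S → ℝ :=
  Sum.elim (fun _ => 1) fun w => if w = v then 1 else Real.exp (L w)

/-- a metric on `glob L` seen in the chart `s` of `core v`, in the units of `v` -/
def hm (L : T.V → ℝ) (G : T.S → MetricField 4) (v : T.V) (s : T.S) : MetricField 4 :=
  fun x => T.nrm L G s (T.sg L v s • x)

/-- the embedding of bounded parts of `core v` into `glob L` -/
def emb (L : T.V → ℝ) (v : T.V) : T.Car → T.Car :=
  Sum.map id fun p => (p.1, (fun y => T.sg L v (Sum.inr p.1) • y) '' p.2)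

/-- bounds on a family of metrics on the glued spaces -/
structure Bd (γ : ℝ) (l : Filter ι) (L : ι → T.V → ℝ) (G : ι → T.S → MetricField 4) : Prop where
  top : ∀ w, w ≠ T.root → Tendsto (fun i => L i w) l atTop
  met : ∀ᶠ i in l, T.Long (L i) ∧ (T.glob (L i)).IsMet (G i)
  pos : ∃ c > 0, ∀ᶠ i in l, ∀ a, ∀ x ∈ ball (0 : E4) 2, Pos c (T.nrm (L i) (G i) (Sum.inl a) x)
  ball : ∀ a p q, UB l (fun i x => T.nrm (L i) (G i) (Sum.inl a) x p q) fun _ => ball 0 2
  neck : ∀ w (k : ℕ), ∃ C : ℝ, ∀ᶠ i in l, ∀ p q, ∀ x ∈ (T.glob (L i)).U (Sum.inr w),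
    ‖iteratedFDeriv ℝ k (dv (T.nrm (L i) (G i) (Sum.inr w)) p q) x‖ ≤
      C * (‖x‖ ^ k)⁻¹ * T.wt γ (L i) w x
  small : ∀ᶠ i in l, ∀ w p q, ∀ x ∈ (T.glob (L i)).U (Sum.inr w),
    |dv (T.nrm (L i) (G i) (Sum.inr w)) p q x| ≤ 1 / 100

variable {T} {L : T.V → ℝ} {G : T.S → MetricField 4}

theorem sg_pos (L : T.V → ℝ) (v : T.V) (s : T.S) : 0 < T.sg L v s := by
  cases s with
  | inl a => exact one_pos
  | inr w => simp only [sg, Sum.elim_inr]; split_ifs; exacts [one_pos, Real.exp_pos _]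

theorem sg_out (L : T.V → ℝ) (v : T.V) : T.sg L v (Sum.inr v) = 1 := by simp [sg]

theorem sg_inn (L : T.V → ℝ) {v w : T.V} (h : w ≠ v) : T.sg L v (Sum.inr w) = Real.exp (L w) := by
  simp [sg, h]

theorem hm_inl (v : T.V) (a : T.B) : T.hm L G v (Sum.inl a) = T.nrm L G (Sum.inl a) := by
  funext x; simp [hm, sg]

theorem hm_out (v : T.V) : T.hm L G v (Sum.inr v) = T.nrm L G (Sum.inr v) := by
  funext x; simp [hm, sg]

theorem hm_inn {v w : T.V} (h : w ≠ v) :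
    T.hm L G v (Sum.inr w) = fun x => T.nrm L G (Sum.inr w) (Real.exp (L w) • x) := by
  funext x; simp [hm, sg, h]

theorem orb_smul (w : T.V) (c : ℝ) (x : E4) : (fun y => c • y) '' T.orb w x = T.orb w (c • x) := by
  ext y
  constructor
  · rintro ⟨_, ⟨γ, hγ, rfl⟩, rfl⟩; exact ⟨γ, hγ, map_smul _ _ _⟩
  · rintro ⟨γ, hγ, rfl⟩; exact ⟨γ x, ⟨γ, hγ, rfl⟩, (map_smul _ _ _).symm⟩

theorem Ok.eps_sg (h : T.Ok) (L : T.V → ℝ) {v : T.V} {s : T.S} {x : E4}
    (hx : x ∈ (T.core v).U s) : T.eps L (T.un s) * T.sg L v s = T.eps L v := by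
  cases s with
  | inl a => simp [un, sg, (mem_core_inl.1 hx).1]
  | inr w =>
    by_cases hw : w = v
    · subst hw; simp [un, sg]
    · obtain ⟨hk, -⟩ := (mem_core_inn hw).1 hx
      show T.eps L w * _ = _
      rw [sg_inn L hw, h.eps_kid L hk.1, hk.2, mul_assoc, ← Real.exp_add]
      simp

variable {γ : ℝ} {l : Filter ι} {L : ι → T.V → ℝ} {G : ι → T.S → MetricField 4}

theorem exp_big (ht : ∀ w, w ≠ T.root → Tendsto (fun i => L i w) l atTop) (w : T.V) {c : ℝ}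
    (hc : 0 < c) (R : ℝ) : ∀ᶠ i in l, w ≠ T.root → R ≤ c * Real.exp (L i w) := by
  by_cases hw : w = T.root
  · exact Eventually.of_forall fun _ h => absurd hw h
  · exact (((Real.tendsto_exp_atTop.comp (ht w hw)).const_mul_atTop hc).eventually_ge_atTop R).mono
      fun _ h _ => h

/-- points of an annulus lie in the neck -/
theorem Ok.ev_out (h : T.Ok) (ht : ∀ w, w ≠ T.root → Tendsto (fun i => L i w) l atTop) (w : T.V)
    (R : ℝ) : ∀ᶠ i in l, ∀ z : E4, 1 < ‖z‖ → ‖z‖ < R → z ∈ (T.glob (L i)).U (Sum.inr w) ∧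
      (T.glob (L i)).c (Sum.inr w) z = T.emb (L i) w ((T.core w).c (Sum.inr w) z) := by
  have hr := h.r_pos
  filter_upwards [exp_big ht w (c := T.r / 4) (by positivity) R] with i hi z h1 h2
  have he := Real.exp_pos (L i w)
  refine ⟨⟨h1, fun hw => by nlinarith [hi hw]⟩, ?_⟩
  rw [glob_eq_out fun hw => by linarith [hi hw], core_c_out]
  split_ifs <;> simp [emb, sg]

theorem Ok.ev_inn (h : T.Ok) (ht : ∀ w, w ≠ T.root → Tendsto (fun i => L i w) l atTop) {v w : T.V}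
    (hk : T.kid v w) {ρ : ℝ} (hρ : 0 < ρ) : ∀ᶠ i in l, ∀ z : E4, ρ < ‖z‖ → ‖z‖ < T.r →
      Real.exp (L i w) • z ∈ (T.glob (L i)).U (Sum.inr w) ∧
      (T.glob (L i)).c (Sum.inr w) (Real.exp (L i w) • z) =
        T.emb (L i) v ((T.core v).c (Sum.inr w) z) := by
  filter_upwards [exp_big ht w hρ 4] with i hi z h1 h2
  have he := Real.exp_pos (L i w)
  have hn : ‖Real.exp (L i w) • z‖ = Real.exp (L i w) * ‖z‖ := by
    rw [norm_smul, Real.norm_of_nonneg he.le]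
  have h4 : 4 ≤ ‖Real.exp (L i w) • z‖ := by nlinarith [hi hk.1]
  have e : Real.exp (-L i w) • Real.exp (L i w) • z = z := by
    rw [smul_smul, ← Real.exp_add]; simp
  refine ⟨⟨by linarith, fun _ => by nlinarith⟩, ?_⟩
  rw [glob_c_inr, if_neg (not_lt.2 h4), e, core_c_inn (h.kid_ne hk)]
  by_cases h5 : T.r / 4 < ‖z‖
  · rw [if_pos ⟨hk.1, h5⟩, if_pos h5, hk.2]; rfl
  · rw [if_neg fun h6 => h5 h6.2, if_neg h5]
    simp only [emb, Sum.map_inr, sg_inn _ (h.kid_ne hk), orb_smul]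

theorem Ok.ev_emb (h : T.Ok) (ht : ∀ w, w ≠ T.root → Tendsto (fun i => L i w) l atTop) {v : T.V}
    {s : T.S} {x : E4} (hx : x ∈ (T.core v).U s) : ∀ᶠ i in l, ∀ᶠ z in 𝓝 x,
      T.sg (L i) v s • z ∈ (T.glob (L i)).U s ∧
      (T.glob (L i)).c s (T.sg (L i) v s • z) = T.emb (L i) v ((T.core v).c s z) := by
  have hO := ((h.core_ok v).isOpen s).eventually_mem hx
  cases s with
  | inl a =>
    refine Eventually.of_forall fun i => hO.mono fun z hz => ?_
    simp only [sg, Sum.elim_inl, one_smul]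
    exact ⟨mem_glob_inl.2 (mem_core_inl.1 hz).2, rfl⟩
  | inr w =>
    by_cases hw : w = v
    · subst hw
      filter_upwards [h.ev_out ht w (‖x‖ + 1)] with i hi
      filter_upwards [hO, (continuous_norm.tendsto x).eventually (gt_mem_nhds (lt_add_one ‖x‖))]
        with z h1 h2
      rw [sg_out, one_smul]
      exact hi z (mem_core_out.1 h1) h2
    · obtain ⟨hk, h0, -⟩ := (mem_core_inn hw).1 hx
      filter_upwards [h.ev_inn ht hk (half_pos h0)] with i hi
      filter_upwards [hO, (continuous_norm.tendsto x).eventually (lt_mem_nhds (half_lt_self h0))]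
        with z h1 h2
      rw [sg_inn _ hw]
      exact hi z h2 ((mem_core_inn hw).1 h1).2.2

/-- the transformation law in the charts of `core v` -/
theorem Ok.ev_compat (h : T.Ok) (hB : T.Bd γ l L G) {v : T.V} {a b : T.S} {x : E4} {F : E4 → E4}
    (hF : (T.core v).Tr a b x F) : ∀ᶠ i in l,
      matT (T.hm (L i) (G i) v a) x = pullT F (matT (T.hm (L i) (G i) v b)) x := by
  filter_upwards [h.ev_emb hB.top hF.mem, h.ev_emb hB.top hF.mem', hB.met] with i ha hb hm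
  have pa := sg_pos (L i) v a
  have pb := sg_pos (L i) v b
  have ea := h.eps_sg (L i) hF.mem
  have eb := h.eps_sg (L i) hF.mem'
  generalize hsa : T.sg (L i) v a = sa at *
  generalize hsb : T.sg (L i) v b = sb at *
  have hFx := hF.sm.self_of_nhds
  have e0 : sa⁻¹ • sa • x = x := inv_smul_smul₀ pa.ne' x
  have ht : Tendsto (fun z : E4 => sa⁻¹ • z) (𝓝 (sa • x)) (𝓝 x) := by
    have := (continuous_const_smul sa⁻¹).tendsto (sa • x)
    rwa [e0] at this
  have hT : (T.glob (L i)).Tr a b (sa • x) fun z => sb • F (sa⁻¹ • z) := by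
    refine ⟨ha.self_of_nhds.1, by rw [e0]; exact hb.self_of_nhds.1, ?_, ?_⟩
    · filter_upwards [ht.eventually hF.sm] with z hz
      exact (hz.comp z (contDiff_const_smul _).contDiffAt).const_smul sb
    · filter_upwards [ht.eventually hF.eq, ht.eventually ha,
        ht.eventually (hFx.continuousAt.eventually hb)] with z h1 h2 h3
      rw [h3.2, h1, ← h2.2, smul_inv_smul₀ pa.ne']
  have hc := hm.2.compat a b _ _ hT
  have hd : HasFDerivAt (fun z => sb • F (sa⁻¹ • z)) ((sb * sa⁻¹) • fderiv ℝ F x) (sa • x) := by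
    have h1 : HasFDerivAt F (fderiv ℝ F x) (sa⁻¹ • sa • x) := by
      rw [e0]; exact (hFx.differentiableAt (by simp)).hasFDerivAt
    have h2 := (h1.comp (sa • x) ((hasFDerivAt_id (sa • x)).const_smul sa⁻¹)).const_smul sb
    refine HasFDerivAt.congr_fderiv h2 ?_
    ext z
    simp [mul_smul]
  funext I
  have hI := congrFun hc I
  have qa := eps_pos (L i) (T.un a)
  have qb := eps_pos (L i) (T.un b)
  have key : (T.eps (L i) (T.un a) ^ 2)⁻¹ * (sb * sa⁻¹) ^ 2 = (T.eps (L i) (T.un b) ^ 2)⁻¹ := by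
    have : T.eps (L i) (T.un a) * sa = T.eps (L i) (T.un b) * sb := ea.trans eb.symm
    field_simp
    rw [← mul_pow, ← mul_pow, this, mul_comm]
  simp only [matT, pullT, evT, hd.fderiv, e0, Fin.prod_univ_two, ContinuousLinearMap.smul_apply,
    PiLp.smul_apply, smul_eq_mul] at hI
  simp only [matT, pullT, evT, TD.hm, nrm, hsa, hsb, Matrix.smul_apply, smul_eq_mul,
    Fin.prod_univ_two, hI, Finset.mul_sum, ← key]
  exact Finset.sum_congr rfl fun J _ => by ring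

theorem Ok.wt_le (h : T.Ok) (hγ : 0 ≤ γ) {L : T.V → ℝ} {w : T.V} {x : E4}
    (hx : x ∈ (T.glob L).U (Sum.inr w)) : 0 ≤ T.wt γ L w x ∧ T.wt γ L w x ≤ 2 := by
  have h1 : ‖x‖ ^ (-γ) ≤ 1 := Real.rpow_le_one_of_one_le_of_nonpos hx.1.le (by linarith)
  have h0 : 0 ≤ ‖x‖ ^ (-γ) := by positivity
  unfold wt
  split_ifs with hw
  · constructor <;> linarith
  · have h2 : Real.exp (-L w) * ‖x‖ ≤ 1 := by
      have := nrm_exp_lt.2 (hx.2 hw)
      rw [norm_smul, Real.norm_of_nonneg (Real.exp_pos _).le] at this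
      linarith [h.r_lt]
    have h3 := Real.rpow_le_one (by positivity) h2 hγ
    have h4 : 0 ≤ (Real.exp (-L w) * ‖x‖) ^ γ := by positivity
    constructor <;> linarith

theorem Bd.sm (hB : T.Bd γ l L G) : ∀ᶠ i in l, ∀ s p q, ∀ x ∈ (T.glob (L i)).U s,
    ContDiffAt ℝ ∞ (dv (T.nrm (L i) (G i) s) p q) x :=
  hB.met.mono fun _ hi s p q _ hx => (contDiffAt_const.mul (((hi.2.riem s).contDiffOn p q).contDiffAt
    ((hi.2.riem s).isOpen.mem_nhds hx))).sub contDiffAt_const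

theorem Bd.pos_neck (hB : T.Bd γ l L G) : ∀ᶠ i in l, ∀ w, ∀ x ∈ (T.glob (L i)).U (Sum.inr w),
    Pos (1 / 2) (T.nrm (L i) (G i) (Sum.inr w) x) := by
  filter_upwards [hB.met, hB.small] with i h1 h2 w x hx
  refine pos_of_small (fun p q => ?_) fun p q => h2 w p q x hx
  have := ((h1.2.riem _).posDef x hx).isHermitian.apply p q
  simp only [star_trivial] at this
  simp only [nrm, Matrix.smul_apply, this]

/-- jets of the rescaled neck metric -/
theorem Bd.jet_inn (hB : T.Bd γ l L G) (w : T.V) (k : ℕ) : ∃ C : ℝ, 0 ≤ C ∧ ∀ᶠ i in l, ∀ p q,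
    ∀ x : E4, Real.exp (L i w) • x ∈ (T.glob (L i)).U (Sum.inr w) →
      ‖iteratedFDeriv ℝ k (dv (fun y => T.nrm (L i) (G i) (Sum.inr w) (Real.exp (L i w) • y)) p q)
        x‖ ≤ C * (‖x‖ ^ k)⁻¹ * |T.wt γ (L i) w (Real.exp (L i w) • x)| := by
  obtain ⟨C, hC⟩ := hB.neck w k
  refine ⟨|C|, abs_nonneg _, hC.mono fun i hi p q x hx => ?_⟩
  have he := Real.exp_pos (L i w)
  refine (norm_iter_smul (dv (T.nrm (L i) (G i) (Sum.inr w)) p q) he k x).trans ?_
  refine (mul_le_mul_of_nonneg_left ((hi p q _ hx).trans (le_abs_self _)) (by positivity)).trans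
    (le_of_eq ?_)
  rw [abs_mul, abs_mul, abs_of_nonneg (a := (_ : ℝ)⁻¹) (by positivity), norm_smul,
    Real.norm_of_nonneg he.le, mul_pow, mul_inv]
  field_simp

variable {U : Ultrafilter ι}

theorem Ok.locB (h : T.Ok) (hγ : 0 ≤ γ) (hB : T.Bd γ U L G) (v : T.V) (s : T.S) :
    LocB U (fun i => T.hm (L i) (G i) v s) ((T.core v).U s) := by
  intro K hK hKO
  cases s with
  | inl a =>
    simp only [hm_inl]
    obtain ⟨c, hc, hp⟩ := hB.pos
    exact ⟨ball 0 2, isOpen_ball, fun x hx => mem_ball_zero_iff.2 (mem_core_inl.1 (hKO hx)).2,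
      hB.ball a, c, hc, hp.mono fun i hi => hi a⟩
  | inr w =>
    by_cases hw : w = v
    · subst hw
      simp only [hm_out]
      obtain ⟨R, hR⟩ := hK.isBounded.exists_norm_le
      have h1 := h.ev_out hB.top w (R + 1)
      refine ⟨{z | 1 < ‖z‖ ∧ ‖z‖ < R + 1}, (isOpen_lt continuous_const continuous_norm).inter
        (isOpen_lt continuous_norm continuous_const),
        fun x hx => ⟨mem_core_out.1 (hKO hx), by linarith [hR x hx]⟩, fun p q =>
        ub_of_dv (ub_iff.2 ⟨?_, fun k => ?_⟩), 1 / 2, by norm_num, ?_⟩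
      · filter_upwards [h1, hB.sm] with i h1 h2 z hz using h2 _ p q z (h1 z hz.1 hz.2).1
      · obtain ⟨C, hC⟩ := hB.neck w k
        refine ⟨|C| * 1 * 2, ?_⟩
        filter_upwards [h1, hC] with i h1 h2 z hz
        have h3 := (h1 z hz.1 hz.2).1
        have h4 := h.wt_le hγ h3
        refine (h2 p q z h3).trans (mul_le_mul (mul_le_mul (le_abs_self _)
          (inv_le_one_of_one_le₀ (one_le_pow₀ hz.1.le)) (by positivity) (abs_nonneg _)) h4.2 h4.1
          (by positivity))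
      · filter_upwards [h1, hB.pos_neck] with i h1 h2 z hz using h2 w z (h1 z hz.1 hz.2).1
    · rcases K.eq_empty_or_nonempty with rfl | hne
      · exact ⟨∅, isOpen_empty, subset_rfl, fun p q => ub_iff.2 ⟨by simp, fun k => ⟨0, by simp⟩⟩,
          1, one_pos, by simp⟩
      simp only [hm_inn hw]
      obtain ⟨x0, hx0, hmin⟩ := hK.exists_isMinOn hne continuous_norm.continuousOn
      obtain ⟨hk, h0, -⟩ := (mem_core_inn hw).1 (hKO hx0)
      have h1 := h.ev_inn hB.top hk (half_pos h0)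
      refine ⟨{z | ‖x0‖ / 2 < ‖z‖ ∧ ‖z‖ < T.r}, (isOpen_lt continuous_const continuous_norm).inter
        (isOpen_lt continuous_norm continuous_const),
        fun x hx => ⟨(half_lt_self h0).trans_le (hmin hx), ((mem_core_inn hw).1 (hKO hx)).2.2⟩,
        fun p q => ub_of_dv (ub_iff.2 ⟨?_, fun k => ?_⟩), 1 / 2, by norm_num, ?_⟩
      · filter_upwards [h1, hB.sm] with i h1 h2 z hz
        exact (h2 _ p q _ (h1 z hz.1 hz.2).1).comp z (contDiff_const_smul _).contDiffAt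
      · obtain ⟨C, hC0, hC⟩ := hB.jet_inn w k
        refine ⟨C * ((‖x0‖ / 2) ^ k)⁻¹ * 2, ?_⟩
        filter_upwards [h1, hC] with i h1 h2 z hz
        have h3 := (h1 z hz.1 hz.2).1
        have h4 := h.wt_le hγ h3
        refine (h2 p q z h3).trans ?_
        rw [abs_of_nonneg h4.1]
        have := hz.1.le
        gcongr
        exacts [h4.1, h4.2]
      · filter_upwards [h1, hB.pos_neck] with i h1 h2 z hz using h2 w _ (h1 z hz.1 hz.2).1

/-- the limit metrics -/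
def glim (T : TD M) (U : Ultrafilter ι) (L : ι → T.V → ℝ) (G : ι → T.S → MetricField 4) (v : T.V)
    (s : T.S) : MetricField 4 := mlim U fun i => T.hm (L i) (G i) v s

theorem Ok.seq_glim (h : T.Ok) (hγ : 0 ≤ γ) (hB : T.Bd γ U L G) :
    T.Seq (T.glim U L G) γ U L G := by
  refine ⟨hB.top, hB.met, fun a p q K hK hKO => ?_, fun w p q K hK hKO => ?_,
    fun w hw p q K hK hKO => ?_, hB.neck, hB.small⟩
  · simpa only [glim, hm_inl] using (h.locB hγ hB (T.vx a) (Sum.inl a)).ue hK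
      (fun x hx => mem_core_inl.2 ⟨rfl, mem_ball_zero_iff.1 (hKO hx)⟩) p q
  · simpa only [glim, hm_out] using (h.locB hγ hB w (Sum.inr w)).ue hK
      (fun x hx => mem_core_out.2 (hKO hx)) p q
  · simpa only [glim, hm_inn (h.par_ne hw)] using (h.locB hγ hB (T.par w) (Sum.inr w)).ue hK
      (fun x hx => (mem_core_inn (h.par_ne hw)).2 ⟨⟨hw, rfl⟩, hKO hx⟩) p q

theorem Ok.lim_glim (h : T.Ok) (hγ : 0 < γ) (hB : T.Bd γ U L G)
    (hr : ∀ v s, ∀ x ∈ (T.core v).U s, ∀ p q, ricci (T.glim U L G v s) x p q = 0) :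
    T.Lim (T.glim U L G) γ := by
  have hl := h.locB hγ.le hB
  refine ⟨fun v => ⟨fun s => (hl v s).riem ((h.core_ok v).isOpen s), fun a b x F hF =>
    (hl v a).compat (hl v b) hF.mem hF.mem' (h.ev_compat hB hF)⟩, hr, fun v k => ?_,
    fun w hw k => ?_, fun v p q x hx => ?_, fun w hw p q x h0 hx => ?_⟩
  · obtain ⟨C, hC⟩ := hB.neck v k
    refine ⟨C, fun p q x hx => (hl v _).jet (mem_core_out.2 hx) p q k
      (b := fun i => C * (‖x‖ ^ k)⁻¹ * T.wt γ (L i) v x) ?_ ?_⟩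
    · have e : C * ‖x‖ ^ (-γ - k) = C * (‖x‖ ^ k)⁻¹ * (‖x‖ ^ (-γ) + 0) := by
        rw [Real.rpow_sub (by linarith), Real.rpow_natCast]; ring
      rw [e]
      refine (tendsto_const_nhds.add ?_).const_mul _
      by_cases hv : v = T.root
      · simp [hv]
      · simp only [if_neg hv]
        have := ((Real.tendsto_exp_neg_atTop_nhds_zero.comp (hB.top v hv)).mul_const ‖x‖).rpow_const
          (Or.inr hγ.le)
        rwa [zero_mul, Real.zero_rpow hγ.ne'] at this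
    · filter_upwards [hC, h.ev_out hB.top v (‖x‖ + 1)] with i h1 h2
      rw [hm_out]
      exact h1 p q x (h2 x hx (lt_add_one _)).1
  · obtain ⟨C, -, hC⟩ := hB.jet_inn w k
    refine ⟨C, fun p q x h0 hx => (hl (T.par w) _).jet
      ((mem_core_inn (h.par_ne hw)).2 ⟨⟨hw, rfl⟩, h0, hx⟩) p q k
      (b := fun i => C * (‖x‖ ^ k)⁻¹ * |T.wt γ (L i) w (Real.exp (L i w) • x)|) ?_ ?_⟩
    · have e : C * ‖x‖ ^ (γ - k) = C * (‖x‖ ^ k)⁻¹ * |0 + ‖x‖ ^ γ| := by
        rw [Real.rpow_sub h0, Real.rpow_natCast, zero_add, abs_of_nonneg (by positivity)]; ring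
      rw [e]
      refine (Tendsto.abs ?_).const_mul _
      have e2 : ∀ i, T.wt γ (L i) w (Real.exp (L i w) • x) =
          (Real.exp (L i w) * ‖x‖) ^ (-γ) + ‖x‖ ^ γ := fun i => by
        rw [wt, if_neg hw, norm_smul, Real.norm_of_nonneg (Real.exp_pos _).le, ← mul_assoc,
          ← Real.exp_add, neg_add_cancel, Real.exp_zero, one_mul]
      simp only [e2]
      exact ((tendsto_rpow_neg_atTop hγ).comp
        ((Real.tendsto_exp_atTop.comp (hB.top w hw)).atTop_mul_const h0)).add_const _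
    · filter_upwards [hC, h.ev_inn hB.top ⟨hw, rfl⟩ (half_pos h0)] with i h1 h2
      rw [hm_inn (h.par_ne hw)]
      exact h1 p q x (h2 x (half_lt_self h0) hx).1
  · refine (hl v _).small (mem_core_out.2 hx) p q ?_
    filter_upwards [hB.small, h.ev_out hB.top v (‖x‖ + 1)] with i h1 h2
    rw [hm_out]
    exact h1 v p q x (h2 x hx (lt_add_one _)).1
  · refine (hl (T.par w) _).small ((mem_core_inn (h.par_ne hw)).2 ⟨⟨hw, rfl⟩, h0, hx⟩) p q ?_
    filter_upwards [hB.small, h.ev_inn hB.top ⟨hw, rfl⟩ (half_pos h0)] with i h1 h2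
    rw [hm_inn (h.par_ne hw)]
    exact h1 w p q _ (h2 x (half_lt_self h0) hx).1


end TD

end Crest.Agent.N207.I

end
end

-- ▼ part N207/I/Pre3

/-!
# Row 207, block I (helper24): unscaled form of `Pre`; the glued metrics satisfy `Bd`
-/

set_option autoImplicit false
open Set Filter Topology Function Metric
open scoped ContDiff Manifold
open Crest.GeometryTopology.CoordMetric
open Crest.Agent.R202.Tens

noncomputable section

namespace Crest.Agent.N207.I

open Jt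

namespace TD

variable {M : Type*} (T : TD M)

/-- the neck lengths of a family of units -/
def ls (s : T.V → ℝ) (w : T.V) : ℝ := Real.log (s (T.par w) / s w)

variable {T}

theorem eps_ls (h0 : T.dep T.root = 0) (hd : ∀ w, w ≠ T.root → T.dep w = T.dep (T.par w) + 1)
    {s : T.V → ℝ} (hs : ∀ v, 0 < s v) (v : T.V) : T.eps (T.ls s) v = s v / s T.root := by
  induction h : T.dep v generalizing v with
  | zero =>
    by_cases hv : v = T.root
    · rw [hv, div_self (hs _).ne']; simp [eps, h0]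
    · have := hd v hv; omega
  | succ n ih =>
    have hv : v ≠ T.root := fun e => by rw [e, h0] at h; omega
    have := hs v
    have := hs (T.par v)
    rw [eps_kid' hd _ hv, ih _ (by have := hd v hv; omega), Real.exp_neg, ls,
      Real.exp_log (by positivity)]
    field_simp

variable [TopologicalSpace M] [ChartedSpace E4 M] [IsManifold 𝓘(ℝ, E4) ∞ M] {ι : Type}

variable (T) in
/-- `Pre` for unscaled metrics `m i` and units `s i v` -/
structure PreS (l : Filter ι) (m : ι → Met 4 M) (s : ι → T.V → ℝ) (φ : ι → T.B → E4 → M)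
    (Ψ : ι → T.V → E4 → M) : Prop where
  s_pos : ∀ i v, 0 < s i v
  r_pos : 0 < T.r
  dep_root : T.dep T.root = 0
  dep_par : ∀ w, w ≠ T.root → T.dep w = T.dep (T.par w) + 1
  long : ∀ᶠ i in l, T.Long (T.ls (s i))
  parB : ∀ a, ∀ᶠ i in l, Par (φ i a) (ball 0 3) ∧ InjOn (φ i a) (ball 0 3)
  muB : ∀ a, MU l (fun i y => (s i (T.vx a) ^ 2)⁻¹ • (m i).pm (φ i a) y) fun _ => ball 0 3
  parN : ∀ w, ∀ᶠ i in l, Par (Ψ i w) (T.nk (T.ls (s i)) w)
  fib : ∀ w, ∀ᶠ i in l, ∀ x ∈ T.nk (T.ls (s i)) w, ∀ y ∈ T.nk (T.ls (s i)) w,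
    Ψ i w x = Ψ i w y ↔ ∃ γ ∈ T.Γ w, γ x = y
  jet : ∀ w (k : ℕ), ∃ C : ℝ, ∀ᶠ i in l, ∀ p q, ∀ x ∈ T.nk (T.ls (s i)) w, ‖iteratedFDeriv ℝ k
    (dv (fun y => (s i w ^ 2)⁻¹ • (m i).pm (Ψ i w) y) p q) x‖ ≤ C * (‖x‖ ^ k)⁻¹
  small : ∀ w, ∀ᶠ i in l, ∀ p q, ∀ x ∈ T.nk (T.ls (s i)) w,
    |dv (fun y => (s i w ^ 2)⁻¹ • (m i).pm (Ψ i w) y) p q x| ≤ 1 / 100
  disj : ∀ v w w', w ≠ w' → ∀ᶠ i in l, ∀ x ∈ T.bO v (Sum.inr w), ∀ y ∈ T.bO v (Sum.inr w'),
    ((T.inst (φ i) (Ψ i) (T.ls (s i))).base v).c (Sum.inr w) x ≠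
      ((T.inst (φ i) (Ψ i) (T.ls (s i))).base v).c (Sum.inr w') y

variable {l : Filter ι} {m : ι → Met 4 M} {s : ι → T.V → ℝ} {φ : ι → T.B → E4 → M}
  {Ψ : ι → T.V → E4 → M}

/-- the metric in the units of the root -/
def PreS.g (h : T.PreS l m s φ Ψ) (i : ι) : Met 4 M :=
  (m i).scale (s i T.root ^ 2)⁻¹ (inv_pos.2 (pow_pos (h.s_pos i _) 2))

theorem PreS.g_pm (h : T.PreS l m s φ Ψ) (i : ι) (Φ : E4 → M) :
    (h.g i).pm Φ = fun y => (s i T.root ^ 2)⁻¹ • (m i).pm Φ y := Met.scale_pm _ _ _ _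

theorem PreS.sc (h : T.PreS l m s φ Ψ) (i : ι) (v : T.V) (A : Matrix (Fin 4) (Fin 4) ℝ) :
    (T.eps (T.ls (s i)) v ^ 2)⁻¹ • (s i T.root ^ 2)⁻¹ • A = (s i v ^ 2)⁻¹ • A := by
  have := h.s_pos i v
  have := h.s_pos i T.root
  rw [smul_smul, eps_ls h.dep_root h.dep_par (h.s_pos i)]
  congr 1; field_simp

theorem PreS.pre (h : T.PreS l m s φ Ψ) : T.Pre l h.g φ Ψ fun i => T.ls (s i) := by
  refine ⟨h.r_pos, h.dep_par, h.long, h.parB, ?_, h.parN, h.fib, ?_, ?_, h.disj⟩ <;>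
    simp only [h.g_pm, h.sc]
  exacts [h.muB, h.jet, h.small]

variable (T) in
/-- the glued metric: ball charts `ψ`, neck charts `Ψ`, exterior metric `X` -/
def gm (m : Met 4 M) (s : ℝ) (ψ : T.B → E4 → M) (Ψ : T.V → E4 → M) (X : MetricField 4) :
    T.S → MetricField 4 :=
  Sum.elim (fun a y => (s ^ 2)⁻¹ • m.pm (ψ a) y) fun w =>
    if w = T.root then X else fun y => (s ^ 2)⁻¹ • m.pm (Ψ w) y

theorem gm_root (m : Met 4 M) (s : ℝ) (ψ : T.B → E4 → M) (Ψ : T.V → E4 → M) (X : MetricField 4) :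
    T.gm m s ψ Ψ X (Sum.inr T.root) = X := by simp [gm]

theorem gm_neck (m : Met 4 M) (s : ℝ) (ψ : T.B → E4 → M) (Ψ : T.V → E4 → M) (X : MetricField 4)
    {w : T.V} (hw : w ≠ T.root) :
    T.gm m s ψ Ψ X (Sum.inr w) = fun y => (s ^ 2)⁻¹ • m.pm (Ψ w) y := by simp [gm, hw]

variable (T) in
/-- the exterior metrics and the weighted estimates in the necks -/
structure PreX (l : Filter ι) (m : ι → Met 4 M) (s : ι → T.V → ℝ) (Ψ : ι → T.V → E4 → M)
    (X : ι → MetricField 4) (γ : ℝ) : Prop where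
  top : ∀ w, w ≠ T.root → Tendsto (fun i => T.ls (s i) w) l atTop
  neck : ∀ w, w ≠ T.root → ∀ k : ℕ, ∃ C : ℝ, ∀ᶠ i in l, ∀ p q, ∀ x : E4, 1 < ‖x‖ →
    ‖x‖ < T.r * Real.exp (T.ls (s i) w) → ‖iteratedFDeriv ℝ k
      (dv (fun y => (s i w ^ 2)⁻¹ • (m i).pm (Ψ i w) y) p q) x‖ ≤
        C * (‖x‖ ^ k)⁻¹ * T.wt γ (T.ls (s i)) w x
  riem : ∀ᶠ i in l, IsRiemannianOn (X i) {x | 1 < ‖x‖}
  inv : ∀ᶠ i in l, ∀ δ ∈ T.Γ T.root, ∀ x : E4, 1 < ‖x‖ → matT (X i) x = pullT δ (matT (X i)) x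
  eq : ∀ᶠ i in l, ∀ x : E4, 1 < ‖x‖ → ‖x‖ < 9 / 2 →
    X i x = (s i T.root ^ 2)⁻¹ • (m i).pm (Ψ i T.root) x
  jet : ∀ k : ℕ, ∃ C : ℝ, ∀ᶠ i in l, ∀ p q, ∀ x : E4, 1 < ‖x‖ →
    ‖iteratedFDeriv ℝ k (dv (X i) p q) x‖ ≤ C * (‖x‖ ^ k)⁻¹ * ‖x‖ ^ (-γ)
  small : ∀ᶠ i in l, ∀ p q, ∀ x : E4, 1 < ‖x‖ → |dv (X i) p q x| ≤ 1 / 100

omit [TopologicalSpace M] [ChartedSpace E4 M] [IsManifold 𝓘(ℝ, E4) ∞ M] in
theorem glob_nk (hr : 0 < T.r) {L : T.V → ℝ} {w : T.V} (hw : w ≠ T.root) {x : E4}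
    (hx : x ∈ (T.glob L).U (Sum.inr w)) : x ∈ T.nk L w := by
  refine ⟨by linarith [hx.1], ?_⟩
  rw [if_neg hw]
  have := mul_pos hr (Real.exp_pos (L w))
  linarith [hx.2 hw]

omit [TopologicalSpace M] [ChartedSpace E4 M] [IsManifold 𝓘(ℝ, E4) ∞ M] in
theorem glob_root (L : T.V → ℝ) : (T.glob L).U (Sum.inr T.root) = {x | 1 < ‖x‖} := by
  ext x; simp [mem_glob_inr]

variable [T3Space M] [ConnectedSpace M] {X : ι → MetricField 4} {γ : ℝ}

/-- **the glued metrics** -/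
theorem PreS.bd {𝒰 : Ultrafilter ι} (h : T.PreS 𝒰 m s φ Ψ) (hX : T.PreX 𝒰 m s Ψ X γ) :
    ∀ᶠ i0 in (𝒰 : Filter ι), (T.inst (φ i0) (Ψ i0) (T.ls (s i0))).Ok → ∃ ψ : ι → T.B → E4 → M,
      (∀ᶠ i in (𝒰 : Filter ι), ∀ a, Par (ψ i a) (ball 0 2) ∧ InjOn (ψ i a) (ball 0 2) ∧
        ψ i a '' ball 0 2 ⊆ φ i a '' ball 0 3) ∧
      (T.inst (φ i0) (Ψ i0) (T.ls (s i0))).Bd γ 𝒰 (fun i => T.ls (s i))
        fun i => T.gm (m i) (s i T.root) (ψ i) (Ψ i) (X i) := by
  filter_upwards [h.pre.fix one_pos] with i0 ⟨F, f, h1, h2, h3⟩ hO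
  simp only [h.g_pm, h.sc] at h2
  have e1 : ∀ i a, (T.inst (φ i0) (Ψ i0) (T.ls (s i0))).nrm (T.ls (s i))
      (T.gm (m i) (s i T.root) (fun a x => φ i a (f i a x)) (Ψ i) (X i)) (Sum.inl a) =
      fun y => (s i (T.vx a) ^ 2)⁻¹ • (m i).pm (fun x => φ i a (f i a x)) y := fun i a =>
    funext fun y => h.sc i _ _
  have e2 : ∀ i ψ w, w ≠ T.root → (T.inst (φ i0) (Ψ i0) (T.ls (s i0))).nrm (T.ls (s i))
      (T.gm (m i) (s i T.root) ψ (Ψ i) (X i)) (Sum.inr w) =
      fun y => (s i w ^ 2)⁻¹ • (m i).pm (Ψ i w) y := fun i ψ w hw =>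
    funext fun y => by rw [nrm, gm_neck (T := T) _ _ _ _ _ hw]; exact h.sc i _ _
  have e3 : ∀ i ψ, (T.inst (φ i0) (Ψ i0) (T.ls (s i0))).nrm (T.ls (s i))
      (T.gm (m i) (s i T.root) ψ (Ψ i) (X i)) (Sum.inr T.root) = X i := fun i ψ =>
    funext fun y => by
      rw [nrm, gm_root]
      simp [show (T.inst (φ i0) (Ψ i0) (T.ls (s i0))).eps (T.ls (s i))
        ((T.inst (φ i0) (Ψ i0) (T.ls (s i0))).un (Sum.inr T.root)) = 1 from hO.eps_root _]
  refine ⟨fun i a x => φ i a (f i a x), h1.mono fun i hi a => ⟨(hi a).1, (hi a).2.1, ?_⟩,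
    hX.top, ?_, ?_, fun a p q => ?_, fun w k => ?_, ?_⟩
  · rintro _ ⟨x, hx, rfl⟩
    refine ⟨_, ?_, rfl⟩
    have := norm_sub_norm_le (f i a x) x
    rw [mem_ball_zero_iff] at hx ⊢
    linarith [((hi a).2.2 x (mem_ball_zero_iff.2 hx)).2.1]
  · filter_upwards [h.long, h1, h3, eventually_all.2 h.parN, eventually_all.2 h.fib, hX.riem,
      hX.inv, hX.eq] with i a1 a2 a3 a4 a5 a6 a7 a8
    refine ⟨a1, ?_⟩
    have := hO.isMet_glob a1 (h.g i) a3 (fun a => (a2 a).1) a4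
      (Gn := fun w => T.gm (m i) (s i T.root) (fun a x => φ i a (f i a x)) (Ψ i) (X i) (Sum.inr w))
      (fun w => ?_) (fun w δ hδ x hx => ?_) fun w x hx hx' => ?_
    · convert this using 1
      funext t
      cases t with
      | inl a => exact (h.g_pm i _).symm
      | inr w => rfl
    · by_cases hw : w = T.root
      · subst hw; rw [gm_root, glob_root]; exact a6
      · rw [gm_neck (T := T) _ _ _ _ _ hw, ← h.g_pm]
        exact Gs.par_riem _ (Gs.par_mono (a4 w) (glob_open w) fun x hx => glob_nk (T := T) h.r_pos hw hx)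
    · by_cases hw : w = T.root
      · subst hw; rw [gm_root]; exact a7 δ hδ x hx.1
      · rw [gm_neck (T := T) _ _ _ _ _ hw, ← h.g_pm]
        refine pm_inv _ (a4 w) (fun z hz => ?_) (glob_nk (T := T) h.r_pos hw hx)
        have hz' : δ z ∈ T.nk (T.ls (s i)) w := by simpa only [nk, mem_ofPred_eq, δ.norm_map] using hz
        exact ⟨hz', ((a5 w z hz _ hz').2 ⟨δ, hδ, rfl⟩).symm⟩
    · rw [h.g_pm]
      by_cases hw : w = T.root
      · subst hw; rw [gm_root]; exact a8 x hx.1 (by simpa using hx'.2)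
      · rw [gm_neck (T := T) _ _ _ _ _ hw]
  · choose c hc hp using fun a => (mu_iff.1 (h2 a)).2
    obtain ⟨d, hd, hdc⟩ : ∃ d > 0, ∀ a, d ≤ c a := by
      rcases isEmpty_or_nonempty T.B with hB | hB
      · exact ⟨1, one_pos, fun a => hB.elim a⟩
      · obtain ⟨a, ha⟩ := Finite.exists_min c
        exact ⟨c a, hc a, ha⟩
    refine ⟨d, hd, (eventually_all.2 hp).mono fun i hi a x hx => ?_⟩
    rw [e1]; exact (hi a x hx).mono (hdc a)
  · simp only [e1]; exact (mu_iff.1 (h2 a)).1 p q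
  · by_cases hw : w = T.root
    · subst hw
      simp only [e3]
      refine (hX.jet k).imp fun C hC => hC.mono fun i hi p q x hx => ?_
      simpa [wt] using hi p q x hx.1
    · simp only [e2 _ _ w hw]
      exact (hX.neck w hw k).imp fun C hC => hC.mono fun i hi p q x hx => hi p q x hx.1 (hx.2 hw)
  · filter_upwards [eventually_all.2 h.small, hX.small] with i a1 a2 w p q x hx
    by_cases hw : w = T.root
    · subst hw; rw [e3]; exact a2 p q x hx.1
    · rw [e2 _ _ w hw]; exact a1 w p q x (glob_nk (T := T) h.r_pos hw hx)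

end TD

end Crest.Agent.N207.I

end
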