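import Crest.Agent.N207.I.NkRot
import Crest.Agent.N207.I.Iso
import Crest.Agent.N207.Sk.Dyn

/-!
# Row 207, block I (helper56): rescaled necks with a fixed deck group
-/

set_option autoImplicit false

open scoped ContDiff Topology Manifold
open Set Filter Metric
open Crest.GeometryTopology.CoordMetric Crest.Agent.R202.Tens

noncomputable section

namespace Crest.Agent.N207.I

open Jt AI Sk

/-- `Γ0 = O⁻¹ Γ O` -/
def Cj (Γ0 : Subgroup Iso4) (O : Iso4) (Γ : Subgroup Iso4) : Prop := ∀ γ, γ ∈ Γ0 ↔ O * γ * O⁻¹ ∈ Γ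

variable {Γ0 Γ : Subgroup Iso4} {O : Iso4} {s : ℝ}

/-- conjugate groups are isomorphic -/
def Cj.equiv (h : Cj Γ0 O Γ) : Γ0 ≃ Γ where
  toFun γ := ⟨O * γ * O⁻¹, (h γ).1 γ.2⟩
  invFun γ := ⟨O⁻¹ * γ * O, (conj_mem h γ).1 γ.2⟩
  left_inv γ := Subtype.ext (by group)
  right_inv γ := Subtype.ext (by group)

theorem Cj.card (h : Cj Γ0 O Γ) : Nat.card Γ0 = Nat.card Γ := Nat.card_congr h.equiv

theorem Cj.grp (h : Cj Γ0 O Γ) (hΓ : Grp Γ) : Grp Γ0 :=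
  ⟨have := hΓ.fin; Finite.of_equiv _ h.equiv.symm, conj_ne_bot h hΓ.ne, conj_free h hΓ.free⟩

/-- along an ultrafilter, groups of bounded order are conjugate to a fixed one -/
theorem exists_cj {ι : Type*} (U : Ultrafilter ι) (Γ : ι → Subgroup Iso4) (n0 : ℕ)
    (h : ∀ᶠ i in U, Grp (Γ i) ∧ Nat.card (Γ i) ≤ n0) :
    ∃ (Γ0 : Subgroup Iso4) (O : ι → Iso4), Grp Γ0 ∧ ∀ᶠ i in U, Cj Γ0 (O i) (Γ i) := by
  obtain ⟨Γ0, O, -, -, -, h1⟩ := rig U Γ n0 (h.mono fun i hi => ⟨hi.1.fin, hi.2⟩)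
  obtain ⟨i, hi, hi'⟩ := (h.and h1).exists
  exact ⟨Γ0, O, Cj.grp hi' hi.1, h1⟩

theorem sim_mem_shell (hs : 0 < s) (O : Iso4) {a b : ℝ} {x : E4} :
    s • O x ∈ shell a b ↔ x ∈ shell (a / s) (b / s) := by
  simp only [shell, mem_setOf_eq, norm_sim hs, div_lt_iff₀ hs, lt_div_iff₀ hs, mul_comm s]

theorem image_sim {M : Type*} (hs : 0 < s) (O : Iso4) (Ψ : E4 → M) {P Q : ℝ → Prop}
    (h : ∀ r, P r ↔ Q (s * r)) : (fun x => Ψ (s • O x)) '' {x | P ‖x‖} = Ψ '' {y | Q ‖y‖} := by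
  ext p
  constructor
  · rintro ⟨x, hx, rfl⟩
    exact ⟨_, by rw [mem_setOf_eq, norm_sim hs]; exact (h _).1 hx, rfl⟩
  · rintro ⟨y, hy, rfl⟩
    have e : s • O (O.symm (s⁻¹ • y)) = y := by rw [O.apply_symm_apply, smul_inv_smul₀ hs.ne']
    refine ⟨O.symm (s⁻¹ • y), (h _).2 ?_, by simp only [e]⟩
    rw [← norm_sim hs O, e]
    exact hy

/-- the neck `N` in the unit `s`, rotated by `O`, with deck group `Γ0` -/
def _root_.Crest.Agent.N207.Sk.Nk.rs {M : Type*} (N : Nk M) (s : ℝ) (O : Iso4)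
    (Γ0 : Subgroup Iso4) : Nk M := ⟨Γ0, fun x => N.Ψ (s • O x), N.In, N.a / s, N.b / s⟩

theorem rs_image {M : Type*} (N : Nk M) (hs : 0 < s) (O : Iso4) (Γ0 : Subgroup Iso4) (r r' : ℝ) :
    (N.rs s O Γ0).Ψ '' shell r r' = N.Ψ '' shell (s * r) (s * r') :=
  image_sim hs O N.Ψ (P := fun t => r < t ∧ t < r') (Q := fun t => s * r < t ∧ t < s * r')
    fun t => by simp only [mul_lt_mul_iff_right₀ hs]

theorem rs_Om {M : Type*} (N : Nk M) (hs : 0 < s) (O : Iso4) (Γ0 : Subgroup Iso4) (r : ℝ) :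
    (N.rs s O Γ0).Om r = N.Om (s * r) := by
  rw [Nk.Om, rs_image N hs, Nk.Om]
  show _ ∪ N.Ψ '' shell (s * (N.a / s)) _ = _
  rw [mul_div_cancel₀ _ hs.ne']
  rfl

variable {M : Type*} [TopologicalSpace M] [ChartedSpace E4 M] [IsManifold 𝓘(ℝ, E4) ∞ M]
  {N : Nk M}

theorem top_rs (hN : N.Top) (hs : 0 < s) (h : Cj Γ0 O N.Γ) : (N.rs s O Γ0).Top := by
  have e : shell (N.a / s) (N.b / s) = {x | s • O x ∈ shell N.a N.b} :=
    Set.ext fun x => (sim_mem_shell hs O).symm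
  refine ⟨h.grp hN.grp, div_pos hN.a_pos hs, div_lt_div_of_pos_right hN.a_lt hs, ?_,
    fun x hx y hy => ?_, fun x hx => hN.disj _ ((sim_mem_shell hs O).2 hx), fun r hr => ?_,
    fun r hr => ?_, hN.ne⟩
  · show Par _ (shell (N.a / s) (N.b / s))
    rw [e]; exact par_rot hs O hN.par
  · have h1 := hN.fib _ ((sim_mem_shell hs O).2 hx) _ ((sim_mem_shell hs O).2 hy)
    refine conj_chart h (fun z => N.Ψ (s • z)) x y (h1.trans ?_)
    simp only [map_smul, (smul_right_injective E4 hs.ne').eq_iff]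
  · rw [rs_Om N hs]
    exact hN.opn _ ⟨by rw [mul_comm]; exact (div_lt_iff₀ hs).1 hr.1,
      by rw [mul_comm]; exact (le_div_iff₀ hs).1 hr.2⟩
  · have e2 := image_sim hs O N.Ψ (P := fun t => N.a / s < t ∧ t ≤ r)
      (Q := fun t => N.a < t ∧ t ≤ s * r) fun t => by
        simp only [div_lt_iff₀ hs, mul_comm t, mul_le_mul_iff_right₀ hs]
    show IsClosed (N.In ∪ (fun x => N.Ψ (s • O x)) '' {x | N.a / s < ‖x‖ ∧ ‖x‖ ≤ r})
    rw [e2]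
    exact hN.cls _ ⟨by rw [mul_comm]; exact (div_lt_iff₀ hs).1 hr.1,
      by rw [mul_comm]; exact (lt_div_iff₀ hs).1 hr.2⟩

theorem pm_rs (g : Met 4 M) (hN : N.Top) (hs : 0 < s) (O : Iso4) (Γ0 : Subgroup Iso4) {x : E4}
    (hx : x ∈ shell (N.a / s) (N.b / s)) :
    (s ^ 2)⁻¹ • g.pm (N.rs s O Γ0).Ψ x = rot (g.pm N.Ψ) s O x := by
  rw [show (N.rs s O Γ0).Ψ = fun x => N.Ψ (s • O x) from rfl,
    pm_rot g hN.par ((sim_mem_shell hs O).2 hx), inv_smul_smul₀ (pow_pos hs 2).ne']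

theorem isOpen_shell (a b : ℝ) : IsOpen (shell a b) :=
  (isOpen_lt continuous_const continuous_norm).inter (isOpen_lt continuous_norm continuous_const)

theorem pm_rs_ev (g : Met 4 M) (hN : N.Top) (hs : 0 < s) (O : Iso4) (Γ0 : Subgroup Iso4) {x : E4}
    (hx : x ∈ shell (N.a / s) (N.b / s)) :
    (fun y => (s ^ 2)⁻¹ • g.pm (N.rs s O Γ0).Ψ y) =ᶠ[𝓝 x] rot (g.pm N.Ψ) s O :=
  mem_of_superset ((isOpen_shell _ _).mem_nhds hx) fun _ hy => pm_rs g hN hs O Γ0 hy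

/-! ### jets -/

variable {G : MetricField 4} {W : Set E4} {x : E4}

theorem jall_rot (hs : 0 < s) (h : IsRiemannianOn G W) (hx : s • O x ∈ W) (h0 : x ≠ 0)
    {Cs : ℕ → ℝ} {w w' : ℝ} (hJ : JAll Cs G (s • O x) ‖s • O x‖ w) (hw : |w| ≤ w') (k : ℕ)
    (p q : Fin 4) :
    ‖iteratedFDeriv ℝ k (TD.dv (rot G s O) p q) x‖ ≤ 16 * |Cs k| * (‖x‖ ^ k)⁻¹ * w' := by
  have h1 := jet_rot hs h hx (fun a b => hJ k a b) p q
  have h2 : 0 < ‖x‖ ^ k := pow_pos (norm_pos_iff.2 h0) k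
  have h3 : Cs k * w ≤ |Cs k| * w' :=
    (le_abs_self _).trans (by rw [abs_mul]; exact mul_le_mul_of_nonneg_left hw (abs_nonneg _))
  rw [mul_right_comm, ← div_eq_mul_inv, le_div_iff₀ h2]
  linarith

theorem small_rot (hs : 0 < s) (h : IsRiemannianOn G W) (hx : s • O x ∈ W) {m : ℕ} {c : ℝ}
    (hJ : JG m G (s • O x) ‖s • O x‖ c) (p q : Fin 4) : |TD.dv (rot G s O) p q x| ≤ 16 * c := by
  simpa using jet_rot hs h hx (fun a b => hJ 0 (Nat.zero_le _) a b) p q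


theorem wt_nonneg (a b : ℝ) (y : E4) : 0 ≤ Sk.wt a b y := by unfold Sk.wt; positivity

theorem wt_le_two {a b : ℝ} {y : E4} (ha : 0 < a) (hy : y ∈ shell a b) : Sk.wt a b y ≤ 2 := by
  have h0 : 0 < ‖y‖ := ha.trans hy.1
  have h1 : √(a / ‖y‖) ≤ 1 := Real.sqrt_le_one.2 ((div_le_one h0).2 hy.1.le)
  have h2 : √(‖y‖ / b) ≤ 1 := Real.sqrt_le_one.2 ((div_le_one (h0.trans hy.2)).2 hy.2.le)
  unfold Sk.wt
  linarith

/-- the weight of the neck in the units of the child -/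
theorem wt_sim (hs : 0 < s) (O : Iso4) {a b r L : ℝ} (hr : 0 < r) (hr1 : r ≤ 1) (ha : a ≤ s)
    (hb : r * Real.exp L * s ≤ b) (h0 : x ≠ 0) : Sk.wt a b (s • O x) ≤
      r⁻¹ * (‖x‖ ^ (-(1 / 2) : ℝ) + (Real.exp (-L) * ‖x‖) ^ (1 / 2 : ℝ)) := by
  have hx := norm_pos_iff.2 h0
  have he := Real.exp_pos L
  have hr2 : 1 ≤ r⁻¹ := (one_le_inv₀ hr).2 hr1
  have h1 : √(a / (s * ‖x‖)) ≤ ‖x‖ ^ (-(1 / 2) : ℝ) := by
    rw [Real.rpow_neg hx.le, ← Real.inv_rpow hx.le, ← Real.sqrt_eq_rpow]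
    refine Real.sqrt_le_sqrt ?_
    rw [div_le_iff₀ (by positivity), mul_left_comm, inv_mul_cancel₀ hx.ne', mul_one]
    exact ha
  have h2 : √(s * ‖x‖ / b) ≤ r⁻¹ * (Real.exp (-L) * ‖x‖) ^ (1 / 2 : ℝ) := by
    rw [← Real.sqrt_eq_rpow, ← Real.sqrt_sq (show 0 ≤ r⁻¹ by positivity),
      ← Real.sqrt_mul (sq_nonneg _)]
    refine Real.sqrt_le_sqrt ?_
    calc s * ‖x‖ / b ≤ s * ‖x‖ / (r * Real.exp L * s) := by gcongr
      _ = r⁻¹ * (Real.exp (-L) * ‖x‖) := by rw [Real.exp_neg]; field_simp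
      _ ≤ r⁻¹ ^ 2 * (Real.exp (-L) * ‖x‖) :=
        mul_le_mul_of_nonneg_right (by nlinarith) (by positivity)
  have h3 : 0 ≤ ‖x‖ ^ (-(1 / 2) : ℝ) := by positivity
  rw [Sk.wt, norm_sim hs]
  nlinarith

variable [T3Space M] [ConnectedSpace M] [MeasurableSpace M] [BorelSpace M] {g : Met 4 M}
  {m : ℕ} {η V : ℝ} {Cs : ℕ → ℝ}

/-- `Bd.neck` for a good neck (`γ = 1/2`) -/
theorem good_jet (hN : N.Top) (hG : Good g N m η Cs V) (hs : 0 < s) (O : Iso4) {r L : ℝ}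
    (hr : 0 < r) (hr1 : r ≤ 1) (ha : N.a ≤ s) (hb : r * Real.exp L * s ≤ N.b)
    (hx : x ∈ shell (N.a / s) (N.b / s)) (k : ℕ) (p q : Fin 4) :
    ‖iteratedFDeriv ℝ k (TD.dv (rot (g.pm N.Ψ) s O) p q) x‖ ≤ 16 * |Cs k| * r⁻¹ * (‖x‖ ^ k)⁻¹ *
      (‖x‖ ^ (-(1 / 2) : ℝ) + (Real.exp (-L) * ‖x‖) ^ (1 / 2 : ℝ)) := by
  have h0 : x ≠ 0 := norm_pos_iff.1 ((div_pos hN.a_pos hs).trans hx.1)
  have hy := (sim_mem_shell hs O).2 hx
  refine (jall_rot hs (hN.par.riem g) hy h0 (hG.all _ hy) ((abs_of_nonneg (wt_nonneg _ _ _)).trans_le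
    (wt_sim hs O hr hr1 ha hb h0)) k p q).trans (le_of_eq (by ring))

/-- `Bd.small` for a good neck -/
theorem good_small (hN : N.Top) (hG : Good g N m η Cs V) (hη : 0 ≤ η) (hs : 0 < s) (O : Iso4)
    (hx : x ∈ shell (N.a / s) (N.b / s)) (p q : Fin 4) :
    |TD.dv (rot (g.pm N.Ψ) s O) p q x| ≤ 32 * η := by
  have hy := (sim_mem_shell hs O).2 hx
  have := mul_le_mul_of_nonneg_left (wt_le_two hN.a_pos hy) hη
  linarith [small_rot hs (hN.par.riem g) hy (hG.jet _ hy) p q]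




/-! ### the exterior field -/

variable {ρ e y : ℝ}

theorem ext_mem (hs : 0 < s) (O : Iso4) (hx : ρ / 32 / s < ‖x‖) : ρ / 32 < ‖s • O x‖ := by
  rw [norm_sim hs, mul_comm]; exact (div_lt_iff₀ hs).1 hx










end Crest.Agent.N207.I

end
namespace Crest.Agent.N207.I.MU
end Crest.Agent.N207.I.MU
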