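import Mathlib
import Crest.Agent.N207.I.Greedy
import Crest.Agent.N207.I.Rig

-- ▼ part N207/I/Scale
section

/-! # Block I: finitely many scales along an ultrafilter form a chain -/

namespace Crest.Agent.N207.I

open Filter Topology

/-- A total preorder on a finite nonempty type is the pull-back of an initial segment of `ℕ`. -/
theorem rank {κ : Type*} [Finite κ] [Nonempty κ] (r : κ → κ → Prop) (hr : ∀ k, r k k)
    (ht : ∀ k l m, r k l → r l m → r k m) (htot : ∀ k l, r k l ∨ r l k) :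
    ∃ (D : ℕ) (dep : κ → ℕ) (rep : ℕ → κ), (∀ k, dep k ≤ D) ∧ (∀ j ≤ D, dep (rep j) = j) ∧
      ∀ k l, r k l ↔ dep k ≤ dep l := by
  classical
  letI : Preorder κ := { le := r, le_refl := hr, le_trans := ht }
  haveI : Std.Total (α := κ) (· ≤ ·) := ⟨htot⟩
  let A := Antisymmetrization κ (· ≤ ·)
  haveI : Finite A := Quotient.finite _
  letI : Fintype A := Fintype.ofFinite A
  letI : LinearOrder A := inferInstance
  have hne : Nonempty A := ⟨toAntisymmetrization _ (Classical.arbitrary κ)⟩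
  have hpos : 0 < Fintype.card A := Fintype.card_pos
  let e : Fin (Fintype.card A) ≃o A := monoEquivOfFin A rfl
  refine ⟨Fintype.card A - 1, fun k => (e.symm (toAntisymmetrization _ k)).val,
    fun j => if h : j < Fintype.card A then ofAntisymmetrization _ (e ⟨j, h⟩)
      else Classical.arbitrary κ, fun k => ?_, fun j hj => ?_, fun k l => ?_⟩
  · exact Nat.le_sub_one_of_lt (e.symm (toAntisymmetrization _ k)).isLt
  · have h : j < Fintype.card A := by omega
    simp only [dif_pos h]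
    rw [toAntisymmetrization_ofAntisymmetrization, OrderIso.symm_apply_apply]
  · rw [← Fin.le_def, e.symm.le_iff_le]
    exact (toAntisymmetrization_le_toAntisymmetrization_iff (a := k) (b := l)).symm

variable {ι : Type*}

/-- `s ≲ t` along `U`. -/
def Le (U : Ultrafilter ι) (s t : ι → ℝ) : Prop := ∃ C : ℝ, 1 ≤ C ∧ ∀ᶠ i in U, s i ≤ C * t i

/-- `s ≪ t` along `U`. -/
def Ll (U : Ultrafilter ι) (s t : ι → ℝ) : Prop := ∀ ε : ℝ, 0 < ε → ∀ᶠ i in U, s i ≤ ε * t i

variable {U : Ultrafilter ι} {s t u : ι → ℝ}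

theorem Le.refl (U : Ultrafilter ι) (s : ι → ℝ) : Le U s s :=
  ⟨1, le_rfl, Eventually.of_forall fun i => by simp⟩

theorem Le.trans (h : Le U s t) (h' : Le U t u) : Le U s u := by
  obtain ⟨C, hC, h⟩ := h
  obtain ⟨C', hC', h'⟩ := h'
  refine ⟨C * C', one_le_mul_of_one_le_of_one_le hC hC', ?_⟩
  filter_upwards [h, h'] with i h1 h2
  calc s i ≤ C * t i := h1
    _ ≤ C * (C' * u i) := mul_le_mul_of_nonneg_left h2 (by linarith)
    _ = C * C' * u i := by ring

theorem Le.total (U : Ultrafilter ι) (s t : ι → ℝ) : Le U s t ∨ Le U t s := by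
  rcases U.em fun i => s i ≤ t i with h | h
  · exact Or.inl ⟨1, le_rfl, by filter_upwards [h] with i hi; simpa using hi⟩
  · exact Or.inr ⟨1, le_rfl, by filter_upwards [h] with i hi; simpa using (not_le.1 hi).le⟩

theorem ll_of_not_le (hs : ∀ᶠ i in U, 0 ≤ s i) (h : ¬ Le U t s) : Ll U s t := by
  intro ε hε
  have h1 : ¬ ∀ᶠ i in U, t i ≤ max 1 ε⁻¹ * s i := fun h' => h ⟨_, le_max_left _ _, h'⟩
  rw [← Ultrafilter.eventually_not] at h1
  filter_upwards [h1, hs] with i hi hs
  have h2 : ε⁻¹ * s i ≤ t i :=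
    (mul_le_mul_of_nonneg_right (le_max_right _ _) hs).trans (not_le.1 hi).le
  calc s i = ε * (ε⁻¹ * s i) := by field_simp
    _ ≤ ε * t i := mul_le_mul_of_nonneg_left h2 hε.le

theorem Ll.le (h : Ll U s t) : Le U s t := ⟨1, le_rfl, h 1 one_pos⟩

theorem Ll.not_le (h : Ll U s t) (ht : ∀ᶠ i in U, 0 < t i) : ¬ Le U t s := by
  rintro ⟨C, hC, h'⟩
  have hC0 : 0 < C := by linarith
  obtain ⟨i, h1, h2, h3⟩ := ((h (1 / (2 * C)) (by positivity)).and (h'.and ht)).exists
  have : t i ≤ C * (1 / (2 * C) * t i) := h2.trans (mul_le_mul_of_nonneg_left h1 hC0.le)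
  have e : C * (1 / (2 * C) * t i) = t i / 2 := by field_simp
  linarith

theorem Ll.trans_le (h : Ll U s t) (h' : Le U t u) : Ll U s u := by
  obtain ⟨C, hC, h'⟩ := h'
  intro ε hε
  have hC0 : 0 < C := by linarith
  filter_upwards [h (ε / C) (by positivity), h'] with i h1 h2
  calc s i ≤ ε / C * t i := h1
    _ ≤ ε / C * (C * u i) := mul_le_mul_of_nonneg_left h2 (by positivity)
    _ = ε * u i := by field_simp

theorem Le.trans_ll (h : Le U s t) (h' : Ll U t u) : Ll U s u := by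
  obtain ⟨C, hC, h⟩ := h
  intro ε hε
  have hC0 : 0 < C := by linarith
  filter_upwards [h' (ε / C) (by positivity), h] with i h1 h2
  calc s i ≤ C * t i := h2
    _ ≤ C * (ε / C * u i) := mul_le_mul_of_nonneg_left h1 hC0.le
    _ = ε * u i := by field_simp

theorem Ll.trans (h : Ll U s t) (h' : Ll U t u) : Ll U s u := h.le.trans_ll h'

theorem Le.add (h : Le U s u) (h' : Le U t u) : Le U (fun i => s i + t i) u := by
  obtain ⟨C, hC, h⟩ := h
  obtain ⟨C', hC', h'⟩ := h'
  refine ⟨C + C', by linarith, ?_⟩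
  filter_upwards [h, h'] with i h1 h2
  linarith

theorem Le.of_le (h : ∀ᶠ i in U, s i ≤ t i) : Le U s t :=
  ⟨1, le_rfl, by filter_upwards [h] with i hi; simpa using hi⟩


theorem Ll.tendsto_log (h : Ll U s t) (hs : ∀ᶠ i in U, 0 < s i) :
    Tendsto (fun i => Real.log (t i / s i)) U atTop := by
  refine Real.tendsto_log_atTop.comp (tendsto_atTop.2 fun b => ?_)
  filter_upwards [h (max 1 b)⁻¹ (by positivity), hs] with i h1 h2
  have h3 : 0 < max 1 b := by positivity
  rw [le_div_iff₀ h2]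
  calc b * s i ≤ max 1 b * s i := mul_le_mul_of_nonneg_right (le_max_right _ _) h2.le
    _ ≤ max 1 b * ((max 1 b)⁻¹ * t i) := mul_le_mul_of_nonneg_left h1 h3.le
    _ = t i := by field_simp

/-- finitely many `≲` have a common constant -/
theorem Le.unif {κ : Type*} [Finite κ] {s t : κ → ι → ℝ} (ht : ∀ k, ∀ᶠ i in U, 0 ≤ t k i)
    (h : ∀ k, Le U (s k) (t k)) : ∃ C : ℝ, 1 ≤ C ∧ ∀ᶠ i in U, ∀ k, s k i ≤ C * t k i := by
  choose C hC h using h
  obtain ⟨B, hB⟩ := (Set.finite_range C).bddAbove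
  refine ⟨max 1 B, le_max_left _ _, eventually_all.2 fun k => ?_⟩
  filter_upwards [h k, ht k] with i h1 h2
  exact h1.trans (mul_le_mul_of_nonneg_right ((hB ⟨k, rfl⟩).trans (le_max_right _ _)) h2)

/-- A chain of scales. -/
structure Chain (U : Ultrafilter ι) (lam : ℕ → ι → ℝ) : Prop where
  pos : ∀ j i, 0 < lam j i
  ll : ∀ j, Ll U (lam (j + 1)) (lam j)

theorem Chain.ll' {lam : ℕ → ι → ℝ} (h : Chain U lam) {j k : ℕ} (hjk : j < k) :
    Ll U (lam k) (lam j) := by
  induction k, hjk using Nat.le_induction with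
  | base => exact h.ll j
  | succ k _ ih => exact (h.ll k).trans ih

theorem Chain.le {lam : ℕ → ι → ℝ} (h : Chain U lam) {j k : ℕ} (hjk : j ≤ k) :
    Le U (lam k) (lam j) := by
  rcases hjk.eq_or_lt with rfl | hlt
  · exact Le.refl _ _
  · exact (h.ll' hlt).le


/-- **Scales.** Finitely many positive sequences `≲ top` are each comparable to exactly one member
of a chain starting at `top`. -/
theorem scales (U : Ultrafilter ι) {e : ι → ℝ} (he0 : ∀ i, 0 < e i) (he : Tendsto e U (𝓝 0))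
    {top : ι → ℝ} (htop : ∀ i, 0 < top i) {κ : Type*} [Finite κ] (s : κ → ι → ℝ)
    (hs : ∀ k i, 0 < s k i) (hb : ∀ k, Le U (s k) top) :
    ∃ (D : ℕ) (lam : ℕ → ι → ℝ) (dep : κ → ℕ), lam 0 = top ∧ Chain U lam ∧
      ∀ k, dep k ≤ D ∧ Le U (s k) (lam (dep k)) ∧ Le U (lam (dep k)) (s k) := by
  classical
  let t : Option κ → ι → ℝ := fun k => k.elim top s
  have ht : ∀ k i, 0 < t k i := by
    rintro (_ | k) i
    · exact htop i
    · exact hs k i
  have htb : ∀ k, Le U (t k) top := by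
    rintro (_ | k)
    · exact Le.refl _ _
    · exact hb k
  obtain ⟨D, dep, rep, hD, hrep, hr⟩ := rank (fun k l : Option κ => Le U (t l) (t k))
    (fun k => Le.refl _ _) (fun k l m h h' => h'.trans h) (fun k l => Le.total _ _ _)
  have h0 : dep none = 0 := by
    have := (hr none (rep 0)).1 (htb _)
    rw [hrep 0 (Nat.zero_le _)] at this
    omega
  let rep' : ℕ → Option κ := fun j => if j = 0 then none else rep j
  have hrep' : ∀ j ≤ D, dep (rep' j) = j := by
    intro j hj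
    by_cases h : j = 0
    · simp [rep', h, h0]
    · simp [rep', h, hrep j hj]
  refine ⟨D, fun j i => t (rep' (min j D)) i * e i ^ (j - D), fun k => dep (some k), ?_, ⟨?_, ?_⟩,
    fun k => ?_⟩
  · funext i
    simp [rep', t]
  · intro j i
    exact mul_pos (ht _ _) (pow_pos (he0 i) _)
  · intro j
    by_cases hj : j < D
    · have e1 : j + 1 - D = 0 := by omega
      have e2 : j - D = 0 := by omega
      rw [min_eq_left (by omega : j + 1 ≤ D), min_eq_left hj.le, e1, e2]
      simp only [pow_zero, mul_one]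
      refine ll_of_not_le (Eventually.of_forall fun i => (ht _ i).le) fun h => ?_
      have := (hr _ _).1 h
      rw [hrep' _ (by omega), hrep' _ hj.le] at this
      omega
    · have e1 : j + 1 - D = j - D + 1 := by omega
      rw [min_eq_right (by omega : D ≤ j + 1), min_eq_right (not_lt.1 hj), e1]
      intro ε hε
      filter_upwards [(tendsto_order.1 he).2 ε hε] with i hi
      have h1 : 0 < t (rep' D) i * e i ^ (j - D) := mul_pos (ht _ _) (pow_pos (he0 i) _)
      calc t (rep' D) i * e i ^ (j - D + 1) = e i * (t (rep' D) i * e i ^ (j - D)) := by ring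
        _ ≤ ε * (t (rep' D) i * e i ^ (j - D)) := mul_le_mul_of_nonneg_right hi.le h1.le
  · have hk := hD (some k)
    have e2 : dep (some k) - D = 0 := by omega
    simp only [min_eq_left hk, e2, pow_zero, mul_one]
    exact ⟨hk, (hr _ (some k)).2 (hrep' _ hk).le, (hr (some k) _).2 (hrep' _ hk).ge⟩


end Crest.Agent.N207.I
end

-- ▼ part N207/I/Tree
section

/-! # Block I: the bubble tree (metric skeleton) -/

namespace Crest.Agent.N207.I

open Filter Topology MeasureTheory Set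

/-- Rooted finite tree given by a parent map and a depth. -/
structure IsTree {V : Type*} (root : V) (par : V → V) (dep : V → ℕ) : Prop where
  dep_root : dep root = 0
  par_root : par root = root
  dep_par : ∀ v, v ≠ root → dep (par v) + 1 = dep v

theorem IsTree.eq_root {V : Type*} {root : V} {par : V → V} {dep : V → ℕ}
    (h : IsTree root par dep) {v : V} (hv : dep v = 0) : v = root := by
  by_contra hne
  have := h.dep_par v hne
  omega

/-- alive nodes -/
def Alive {α : Type*} (rep : ℕ → α → α) (Reg : ℕ → α → Prop) : ℕ → α → Prop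
  | 0, a => rep 0 a = a
  | j + 1, a => rep (j + 1) a = a ∧ ¬ Reg (j + 1) a ∧ Alive rep Reg j (rep j a)

theorem Alive.rep_eq {α : Type*} {rep : ℕ → α → α} {Reg : ℕ → α → Prop} {j : ℕ} {a : α}
    (h : Alive rep Reg j a) : rep j a = a := by
  cases j with
  | zero => exact h
  | succ j => exact h.1

theorem Alive.le {α : Type*} {rep : ℕ → α → α} {Reg : ℕ → α → Prop} {D : ℕ}
    (hD : ∀ a, Reg (D + 1) a) {j : ℕ} {a : α} (h : Alive rep Reg j a) : j ≤ D := by
  induction j generalizing a with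
  | zero => exact Nat.zero_le _
  | succ j ih =>
    have := ih h.2.2
    rcases this.eq_or_lt with rfl | hlt
    · exact absurd (hD a) h.2.1
    · exact hlt

/-- **Tree of classes** for a decreasing sequence of equivalence relations. -/
theorem tree_abs {α : Type} [Finite α] (a0 : α) (eqv : ℕ → α → α → Prop)
    (heq : ∀ j, Equivalence (eqv j)) (h0 : ∀ a b, eqv 0 a b)
    (Reg : ℕ → α → Prop) {D : ℕ} (hD : ∀ a, Reg (D + 1) a) :
    ∃ (V : Type) (_ : Fintype V) (root : V) (par : V → V) (dep : V → ℕ) (pt : V → α),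
      IsTree root par dep ∧ pt root = a0 ∧ (∀ v, dep v ≤ D) ∧
      (∀ v, eqv (dep (par v)) (pt v) (pt (par v))) ∧
      (∀ v w, dep v = dep w → eqv (dep v) (pt v) (pt w) → v = w) ∧
      (∀ v, v ≠ root → ¬ Reg (dep v) (pt v)) ∧
      ∀ v a, (∀ b, eqv (dep v + 1) a b → eqv (dep v) b (pt v)) →
        (∃ w, w ≠ root ∧ par w = v ∧ eqv (dep v + 1) a (pt w)) ∨
          ∃ b, Reg (dep v + 1) b ∧ eqv (dep v + 1) a b := by
  classical
  obtain ⟨rep, hr0, hr1, hr2⟩ : ∃ rep : ℕ → α → α, (∀ a, rep 0 a = a0) ∧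
      (∀ j a, eqv j a (rep j a)) ∧ ∀ j a b, eqv j a b → rep j a = rep j b := by
    refine ⟨fun j a => if j = 0 then a0 else (Quotient.mk ⟨eqv j, heq j⟩ a).out, by simp,
      fun j a => ?_, fun j a b hab => ?_⟩
    · dsimp only
      split_ifs with h
      · subst h; exact h0 _ _
      · exact (heq j).symm (Quotient.mk_out (s := ⟨eqv j, heq j⟩) a)
    · dsimp only
      split_ifs with h
      · rfl
      · rw [Quotient.sound (s := ⟨eqv j, heq j⟩) hab]
  let V := {p : ℕ × α // Alive rep Reg p.1 p.2}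
  haveI : Finite V := by
    refine Finite.of_injective
      (fun v : V => ((⟨v.1.1, Nat.lt_succ_of_le (v.2.le hD)⟩ : Fin (D + 1)), v.1.2)) ?_
    intro v w h
    simp only [Prod.mk.injEq, Fin.mk.injEq] at h
    exact Subtype.ext (Prod.ext h.1 h.2)
  let root : V := ⟨(0, a0), hr0 a0⟩
  let par : V → V := fun v => match v with
    | ⟨(0, _), _⟩ => root
    | ⟨(j + 1, a), h⟩ => ⟨(j, rep j a), h.2.2⟩
  have hroot : ∀ v : V, v.1.1 = 0 → v = root := by
    rintro ⟨⟨j, a⟩, h⟩ (rfl : j = 0)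
    exact Subtype.ext (Prod.ext rfl (h.rep_eq.symm.trans (hr0 a)))
  refine ⟨V, Fintype.ofFinite V, root, par, fun v => v.1.1, fun v => v.1.2, ⟨rfl, rfl, ?_⟩, rfl,
    fun v => v.2.le hD, ?_, ?_, ?_, ?_⟩
  · rintro ⟨⟨_ | j, a⟩, h⟩ hne
    · exact absurd (hroot _ rfl) hne
    · rfl
  · rintro ⟨⟨_ | j, a⟩, h⟩
    · exact h0 _ _
    · exact hr1 j a
  · rintro ⟨⟨j, a⟩, h⟩ ⟨⟨k, b⟩, h'⟩ (rfl : j = k) hab
    exact Subtype.ext (Prod.ext rfl (h.rep_eq.symm.trans ((hr2 _ _ _ hab).trans h'.rep_eq)))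
  · rintro ⟨⟨_ | j, a⟩, h⟩ hne
    · exact absurd (hroot _ rfl) hne
    · exact h.2.1
  · rintro ⟨⟨j, c⟩, h⟩ a ha
    by_cases hreg : Reg (j + 1) (rep (j + 1) a)
    · exact Or.inr ⟨_, hreg, hr1 _ _⟩
    · have e : rep j (rep (j + 1) a) = c := (hr2 _ _ _ (ha _ (hr1 _ _))).trans h.rep_eq
      refine Or.inl ⟨⟨(j + 1, rep (j + 1) a), (hr2 _ _ _ (hr1 _ _)).symm, hreg, e ▸ h⟩, ?_, ?_,
        hr1 _ _⟩
      · intro hh
        exact Nat.succ_ne_zero j (congrArg (fun v : V => v.1.1) hh)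
      · exact Subtype.ext (Prod.ext rfl e)

variable {ι : Type*} {U : Ultrafilter ι}

/-- a sequence comparable to a member of the chain avoids all gaps -/
theorem Chain.gap {lam : ℕ → ι → ℝ} (h : Chain U lam) {s : ι → ℝ} {k : ℕ}
    (h1 : Le U s (lam k)) (h2 : Le U (lam k) s) (j : ℕ) :
    Le U (lam j) s ∨ Le U s (lam (j + 1)) := by
  rcases le_or_gt k j with hk | hk
  · exact Or.inl ((h.le hk).trans h2)
  · exact Or.inr (h1.trans (h.le hk))

/-- **Scales with zeros allowed.** -/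
theorem scales0 (U : Ultrafilter ι) {e : ι → ℝ} (he0 : ∀ i, 0 < e i) (he : Tendsto e U (𝓝 0))
    {top : ι → ℝ} (htop : ∀ i, 0 < top i) {κ : Type*} [Finite κ] (s : κ → ι → ℝ)
    (hb : ∀ k, Le U (s k) top) :
    ∃ (D : ℕ) (lam : ℕ → ι → ℝ), lam 0 = top ∧ Chain U lam ∧
      (∀ k j, Le U (lam j) (s k) ∨ Le U (s k) (lam (j + 1))) ∧
      ∀ k, Le U (lam D) (s k) ∨ ∀ᶠ i in U, s k i ≤ 0 := by
  classical
  obtain ⟨D, lam, dep, h0, hc, hs⟩ := scales U he0 he htop
    (fun k i => if 0 < s k i then s k i else top i)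
    (fun k i => by split_ifs with h; exacts [h, htop i]) (fun k => by
      obtain ⟨C, hC, h⟩ := hb k
      refine ⟨C, hC, ?_⟩
      filter_upwards [h] with i hi
      split_ifs
      · exact hi
      · nlinarith [htop i])
  have key : ∀ k, (Le U (s k) (lam (dep k)) ∧ Le U (lam (dep k)) (s k)) ∨
      ∀ᶠ i in U, s k i ≤ 0 := fun k => by
    rcases U.em fun i => 0 < s k i with h | h
    · refine Or.inl ⟨Le.trans (Le.of_le ?_) (hs k).2.1, Le.trans (hs k).2.2 (Le.of_le ?_)⟩ <;>
        filter_upwards [h] with i hi <;> simp [hi]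
    · exact Or.inr (h.mono fun i hi => not_lt.1 hi)
  refine ⟨D, lam, h0, hc, fun k j => ?_, fun k => ?_⟩
  · rcases key k with h | h
    · exact hc.gap h.1 h.2 j
    · exact Or.inr (Le.of_le (h.mono fun i hi => hi.trans (hc.pos _ i).le))
  · exact (key k).imp_left fun h => (hc.le (hs k).1).trans h.2


/-- **Nets for finitely many sequences of sets**: a fixed finite index set of centres. -/
theorem nets {M : Type*} [MeasurableSpace M] {d : ι → M → M → ℝ} (hd : ∀ i, PD (d i))
    (ν : ι → Measure M) [∀ i, IsFiniteMeasure (ν i)]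
    (hm : ∀ i x r, MeasurableSet {y | d i x y < r}) {V : Type} [Fintype V]
    (K : V → ι → Set M) (z : V → ι → M) (l : V → ι → ℝ) (hl : ∀ v i, 0 < l v i)
    {R c κ C : ℝ} (hc : 0 < c) (hκ : 0 < κ) (n : ℕ)
    (hK : ∀ᶠ i in U, ∀ v, ∀ x ∈ K v i, d i (z v i) x ≤ R * l v i)
    (hv : ∀ᶠ i in U, ∀ v, ∀ x ∈ K v i, κ * (c * l v i) ^ n ≤ (ν i).real {y | d i x y < c * l v i})
    (hV : ∀ᶠ i in U, ∀ v,
      (ν i).real {y | d i (z v i) y < (R + c) * l v i} ≤ C * ((R + c) * l v i) ^ n) :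
    ∃ (A : Type) (_ : Fintype A) (vx : A → V) (y : A → ι → M), ∀ᶠ i in U,
      (∀ a, y a i ∈ K (vx a) i) ∧
        ∀ v, ∀ x ∈ K v i, ∃ a, vx a = v ∧ d i x (y a i) < 3 * (c * l v i) := by
  classical
  obtain ⟨N, hN⟩ := exists_nat_gt (C * (R + c) ^ n / (κ * c ^ n))
  have hN' : C * (R + c) ^ n < (N + 1) * (κ * c ^ n) := by
    rw [div_lt_iff₀ (by positivity)] at hN
    have : 0 < κ * c ^ n := by positivity
    linarith
  have h1 : ∀ᶠ i in U, ∀ v, ∃ Y : Finset M, Y.card ≤ N ∧ ↑Y ⊆ K v i ∧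
      ∀ x ∈ K v i, ∃ y ∈ Y, d i x y < 3 * (c * l v i) := by
    filter_upwards [hK, hv, hV] with i h1 h2 h3 v
    have hp := hl v i
    refine exists_net (V := C * ((R + c) * l v i) ^ n) (hd i) (ν i) (hm i) (by positivity) (h1 v)
      (h2 v) (by rw [← add_mul]; exact h3 v) ?_
    have := mul_lt_mul_of_pos_right hN' (pow_pos hp n)
    rw [mul_pow, mul_pow]
    linarith
  have h2 : ∀ i v, ∃ Y : Finset M, Y.card ≤ N ∧ ((∃ Y : Finset M, Y.card ≤ N ∧ ↑Y ⊆ K v i ∧
      ∀ x ∈ K v i, ∃ y ∈ Y, d i x y < 3 * (c * l v i)) → ↑Y ⊆ K v i ∧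
      ∀ x ∈ K v i, ∃ y ∈ Y, d i x y < 3 * (c * l v i)) := fun i v => by
    by_cases h : ∃ Y : Finset M, Y.card ≤ N ∧ ↑Y ⊆ K v i ∧
      ∀ x ∈ K v i, ∃ y ∈ Y, d i x y < 3 * (c * l v i)
    · obtain ⟨Y, h1, h2⟩ := h
      exact ⟨Y, h1, fun _ => h2⟩
    · exact ⟨∅, by simp, fun h' => absurd h' h⟩
  choose Y hYN hY using h2
  have h3 : ∀ v, ∃ k, ∀ᶠ i in U, (Y i v).card = k := fun v =>
    (ev_const_nat U (fun i => (Y i v).card) N (Eventually.of_forall fun i => hYN i v)).imp
      fun _ h => h.2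
  choose k hk using h3
  have h4 : ∀ v i, ∃ y : Fin (k v) → M, (Y i v).card = k v →
      (∀ j, y j ∈ Y i v) ∧ ∀ x ∈ Y i v, ∃ j, y j = x := fun v i => by
    by_cases h : (Y i v).card = k v
    · obtain ⟨y, hy⟩ := exists_enum _ h
      exact ⟨y, fun _ => hy⟩
    · exact ⟨fun _ => z v i, fun h' => absurd h' h⟩
  choose y hy using h4
  refine ⟨Σ v, Fin (k v), inferInstance, Sigma.fst, fun a i => y a.1 i a.2, ?_⟩
  filter_upwards [h1, eventually_all.2 hk] with i h1 h2
  refine ⟨fun a => (hY i a.1 (h1 _)).1 ((hy a.1 i (h2 _)).1 a.2), fun v x hx => ?_⟩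
  obtain ⟨w, hw, hlt⟩ := (hY i v (h1 v)).2 x hx
  obtain ⟨j, rfl⟩ := (hy v i (h2 v)).2 w hw
  exact ⟨⟨v, j⟩, rfl, hlt⟩

end Crest.Agent.N207.I
end

-- ▼ part N207/I/Tree2

/-! # Block I: the bubble tree from the neck dichotomy (metric skeleton, main theorem) -/

namespace Crest.Agent.N207.I

open Filter Topology MeasureTheory Set

variable {ι : Type*} {U : Ultrafilter ι}

/-- finitely many alternatives `s ≲ t ∨ s' ≲ t'` with a common constant -/
theorem Le.unif_or {κ : Type*} [Finite κ] {s t s' t' : κ → ι → ℝ}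
    (ht : ∀ k, ∀ᶠ i in U, 0 ≤ t k i) (ht' : ∀ k, ∀ᶠ i in U, 0 ≤ t' k i)
    (h : ∀ k, Le U (s k) (t k) ∨ Le U (s' k) (t' k)) :
    ∃ C : ℝ, 1 ≤ C ∧ ∀ᶠ i in U, ∀ k, s k i ≤ C * t k i ∨ s' k i ≤ C * t' k i := by
  classical
  obtain ⟨C, hC, h1⟩ := Le.unif (U := U) (s := fun k => if Le U (s k) (t k) then s k else s' k)
    (t := fun k => if Le U (s k) (t k) then t k else t' k)
    (fun k => by split_ifs; exacts [ht k, ht' k])
    (fun k => by split_ifs with hk; exacts [hk, (h k).resolve_left hk])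
  refine ⟨C, hC, h1.mono fun i hi k => ?_⟩
  have := hi k
  split_ifs at this
  exacts [Or.inl this, Or.inr this]

/-- finitely many implications `P k → s ≲ t` with a common constant -/
theorem Le.unif_imp {κ : Type*} [Finite κ] {s t : κ → ι → ℝ} {P : κ → Prop}
    (ht : ∀ k, ∀ᶠ i in U, 0 ≤ t k i) (h : ∀ k, P k → Le U (s k) (t k)) :
    ∃ C : ℝ, 1 ≤ C ∧ ∀ᶠ i in U, ∀ k, P k → s k i ≤ C * t k i := by
  obtain ⟨C, hC, h1⟩ := Le.unif (U := U) (κ := {k // P k}) (s := fun k => s k) (t := fun k => t k)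
    (fun k => ht k) (fun k => h k k.2)
  exact ⟨C, hC, h1.mono fun i hi k hk => hi ⟨k, hk⟩⟩

theorem exists_pos_lb {κ : Type*} [Finite κ] (c : κ → ℝ) (hc : ∀ k, 0 < c k) :
    ∃ c0 : ℝ, 0 < c0 ∧ ∀ k, c0 ≤ c k := by
  rcases isEmpty_or_nonempty κ with h | h
  · exact ⟨1, one_pos, fun k => h.elim k⟩
  · obtain ⟨k, hk⟩ := Finite.exists_min c
    exact ⟨c k, hc k, hk⟩

/-- **The bubble tree.**  `μ i` = energy, `Neck i z a b` = an arbitrary predicate (a neck centred at
`z` between the scales `a` and `b`). -/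
theorem tree_met {M : Type*} [MeasurableSpace M] (U : Ultrafilter ι) {e : ι → ℝ}
    (he0 : ∀ i, 0 < e i) (he : Tendsto e U (𝓝 0)) {d : ι → M → M → ℝ} (hd : ∀ i, PD (d i))
    (μ : ι → Measure M) [∀ i, IsFiniteMeasure (μ i)]
    (hm : ∀ i x r, MeasurableSet {y | d i x y < r}) {ε E K B b0 : ℝ} (hε : 0 < ε)
    (hE : ∀ i, (μ i).real univ ≤ E) (hK : 0 < K) (hb0 : 0 < b0) (Ω : ι → Set M) (x0 : ι → M)
    (hx0 : ∀ i, x0 i ∈ Ω i) {top : ι → ℝ} (htop : ∀ i, 0 < top i)
    (hB : ∀ i, ∀ x ∈ Ω i, d i (x0 i) x ≤ B * top i)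
    (hr1 : ∀ i, ∃ r1, 0 < r1 ∧ ∀ x ∈ Ω i, (μ i).real {y | d i x y < r1} ≤ ε)
    (Neck : ι → M → ℝ → ℝ → Prop) {N0 : ℕ}
    (hN : ∀ i, ∀ z ∈ Ω i, ∃ Bad : Finset ℝ, Bad.card ≤ N0 ∧ ∀ a b, 0 < a → a < b →
      b ≤ b0 * top i → (∀ s ∈ Bad, s ∉ Icc a b) →
        (μ i).real {y | d i z y < b / K} ≤ ε ∨ Neck i z a b) :
    ∃ (V : Type) (_ : Fintype V) (root : V) (par : V → V) (dep : V → ℕ) (lam : ℕ → ι → ℝ)
      (ctr : V → ι → M) (C : ℝ), IsTree root par dep ∧ lam 0 = top ∧ Chain U lam ∧ 1 ≤ C ∧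
      (∀ i, ctr root i = x0 i) ∧ (∀ v i, ctr v i ∈ Ω i) ∧
      (∀ᶠ i in U, ∀ v, d i (ctr v i) (ctr (par v) i) ≤ C * lam (dep (par v)) i) ∧
      (∀ᶠ i in U, ∀ v w, v ≠ w → dep v = dep w →
        lam (dep (par v)) i ≤ C * d i (ctr v i) (ctr w i)) ∧
      (∀ C', C ≤ C' → ∀ᶠ i in U, ∀ v, v ≠ root →
        Neck i (ctr v i) (C' * lam (dep v) i) (lam (dep (par v)) i / C')) ∧
      ∀ ρ, 0 < ρ → ∃ c, 0 < c ∧ ∀ R, ∀ᶠ i in U, ∀ v, ∀ x ∈ Ω i,
        d i x (ctr v i) ≤ R * lam (dep v) i →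
        (∀ w, w ≠ root → par w = v → ρ * lam (dep v) i ≤ d i x (ctr w i)) →
        (μ i).real {y | d i x y < c * lam (dep v) i} ≤ ε := by
  classical
  choose r1 hr0 hr1 using hr1
  obtain ⟨N, hNE⟩ := exists_nat_gt (E / ε)
  have hNE' : E < (N + 1) * ε := by
    rw [div_lt_iff₀ hε] at hNE
    linarith
  choose z hzΩ hz0 hz using fun i =>
    exists_points (hd i) (μ i) (hm i) (hE i) hNE' (hr0 i) (Ω i) (hr1 i) (hx0 i)
  choose Bad hBad hNk using fun i (a : Fin (N + 1)) => hN i (z i a) (hzΩ i a)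
  choose bad _ hbad using fun i a => exists_enum_pad (Bad i a) (hBad i a) (top i)
  let ds : Fin (N + 1) → Fin (N + 1) → ι → ℝ := fun a b i => d i (z i a) (z i b)
  let bs : Fin (N + 1) → Fin N0 → ι → ℝ := fun a k i => max 0 (min (bad i a k) (top i))
  obtain ⟨D, lam, hl0, hc, hgap, hbot⟩ := scales0 U he0 he htop
    (κ := (Fin (N + 1) × Fin (N + 1)) ⊕ (Fin (N + 1) × Fin N0) ⊕ Unit)
    (Sum.elim (fun p => ds p.1 p.2) (Sum.elim (fun p => bs p.1 p.2) fun _ i => min (r1 i) (top i)))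
    (by
      rintro (⟨a, b⟩ | ⟨a, k⟩ | _)
      · refine ⟨max 1 (2 * B), le_max_left _ _, Eventually.of_forall fun i => ?_⟩
        have h1 := (hd i).tri (z i a) (x0 i) (z i b)
        rw [(hd i).symm (z i a) (x0 i)] at h1
        have h2 := mul_le_mul_of_nonneg_right (le_max_right 1 (2 * B)) (htop i).le
        have h3 := hB i _ (hzΩ i a)
        have h4 := hB i _ (hzΩ i b)
        show d i (z i a) (z i b) ≤ _
        linarith
      · exact Le.of_le (Eventually.of_forall fun i => max_le (htop i).le (min_le_right _ _))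
      · exact Le.of_le (Eventually.of_forall fun i => min_le_right _ _))
  have hlp : ∀ j, ∀ᶠ i in U, 0 ≤ lam j i := fun j => Eventually.of_forall fun i => (hc.pos j i).le
  have hdp : ∀ a b, ∀ᶠ i in U, 0 ≤ ds a b i := fun a b =>
    Eventually.of_forall fun i => (hd i).nonneg _ _
  let eqv : ℕ → Fin (N + 1) → Fin (N + 1) → Prop := fun j a b => Le U (ds a b) (lam j)
  have heq : ∀ j, Equivalence (eqv j) := fun j =>
    ⟨fun a => Le.of_le (Eventually.of_forall fun i => by
        simp only [ds, (hd i).self]; exact (hc.pos j i).le),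
      fun {a b} h => (Le.of_le (Eventually.of_forall fun i => ((hd i).symm _ _).le)).trans h,
      fun {a b c} h h' =>
        (Le.of_le (Eventually.of_forall fun i => (hd i).tri _ (z i b) _)).trans (h.add h')⟩
  have hmono : ∀ j a b, eqv (j + 1) a b → eqv j a b := fun j a b h => h.trans (hc.ll j).le
  have h0 : ∀ a b, eqv 0 a b := fun a b => by
    refine ⟨max 1 (2 * B), le_max_left _ _, Eventually.of_forall fun i => ?_⟩
    have h1 := (hd i).tri (z i a) (x0 i) (z i b)
    rw [(hd i).symm (z i a) (x0 i)] at h1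
    have h2 := mul_le_mul_of_nonneg_right (le_max_right 1 (2 * B)) (htop i).le
    have h3 := hB i _ (hzΩ i a)
    have h4 := hB i _ (hzΩ i b)
    rw [hl0]
    show d i (z i a) (z i b) ≤ _
    linarith
  let Reg : ℕ → Fin (N + 1) → Prop := fun j a =>
    ∃ c, 0 < c ∧ ∀ᶠ i in U, (μ i).real {y | d i (z i a) y < c * lam (j - 1) i} ≤ ε
  have hmon : ∀ i x y r r', d i x y + r ≤ r' →
      (μ i).real {w | d i x w < r} ≤ (μ i).real {w | d i y w < r'} := fun i x y r r' h =>
    measureReal_mono fun w (hw : d i x w < r) => by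
      have := (hd i).tri y x w
      rw [(hd i).symm y x] at this
      show d i y w < r'
      linarith
  have hD : ∀ a, Reg (D + 1) a := fun a => by
    rcases hbot (Sum.inr (Sum.inr ())) with ⟨C, hC, h⟩ | h
    · refine ⟨C⁻¹, by positivity, h.mono fun i hi => le_trans (hmon i _ _ _ (r1 i) ?_)
        (hr1 i _ (hzΩ i a))⟩
      have h1 : lam D i ≤ C * r1 i :=
        le_trans hi (mul_le_mul_of_nonneg_left (min_le_left _ _) (by linarith))
      rw [(hd i).self, zero_add, Nat.add_sub_cancel, inv_mul_le_iff₀ (by linarith)]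
      exact h1
    · obtain ⟨i, hi⟩ := h.exists
      exact absurd (lt_min (hr0 i) (htop i)) (not_lt.2 hi)
  obtain ⟨V, hV, root, par, dep, pt, hT, hroot, hdep, hpar, hinj, hneck, hcov⟩ :=
    tree_abs 0 eqv heq h0 Reg hD
  obtain ⟨C1, hC1, h1⟩ := Le.unif (U := U) (fun v => hlp (dep (par v))) hpar
  obtain ⟨C2, hC2, h2⟩ := Le.unif_imp (U := U) (κ := V × V)
    (s := fun p => lam (dep (par p.1))) (t := fun p => ds (pt p.1) (pt p.2))
    (P := fun p => p.1 ≠ p.2 ∧ dep p.1 = dep p.2) (fun p => hdp _ _) (fun p hp => by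
      have hne : p.1 ≠ root := fun h => hp.1 (h.trans (hT.eq_root (by
        rw [← hp.2, h, hT.dep_root])).symm)
      refine (hgap (Sum.inl (pt p.1, pt p.2)) (dep (par p.1))).resolve_right fun h => ?_
      rw [hT.dep_par _ hne] at h
      exact hp.1 (hinj _ _ hp.2 h))
  obtain ⟨C3, hC3, h3⟩ := Le.unif_or (U := U) (κ := V × Fin N0)
    (s := fun p => lam (dep (par p.1))) (t := fun p => bs (pt p.1) p.2)
    (s' := fun p => bs (pt p.1) p.2) (t' := fun p => lam (dep (par p.1) + 1))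
    (fun p => Eventually.of_forall fun i => le_max_left _ _) (fun p => hlp _)
    (fun p => hgap (Sum.inr (Sum.inl (pt p.1, p.2))) _)
  have hC4 : 0 < b0⁻¹ := by positivity
  have hltop : ∀ j, ∀ᶠ i in U, lam j i ≤ top i := fun j => by
    rcases Nat.eq_zero_or_pos j with rfl | hj
    · exact Eventually.of_forall fun i => by rw [hl0]
    · filter_upwards [hc.ll' hj 1 one_pos] with i hi
      rwa [hl0, one_mul] at hi
  refine ⟨V, hV, root, par, dep, lam, fun v i => z i (pt v), C1 + C2 + C3 + b0⁻¹, hT, hl0, hc,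
    by linarith, fun i => by simp only [hroot, hz0], fun v i => hzΩ i _, ?_, ?_, ?_, ?_⟩
  · filter_upwards [h1] with i hi v
    exact (hi v).trans (mul_le_mul_of_nonneg_right (by linarith) (hc.pos _ i).le)
  · filter_upwards [h2] with i hi v w hne hdw
    exact (hi (v, w) ⟨hne, hdw⟩).trans
      (mul_le_mul_of_nonneg_right (by linarith) ((hd i).nonneg _ _))
  · intro C' hC'
    have hC0 : 0 < C' := by linarith
    refine eventually_all.2 fun v => ?_
    by_cases hv : v = root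
    · exact Eventually.of_forall fun i h => absurd hv h
    have hdv := hT.dep_par v hv
    have hnr : ¬ ∀ᶠ i in U, (μ i).real
        {y | d i (z i (pt v)) y < (C' * K)⁻¹ * lam (dep v - 1) i} ≤ ε :=
      fun h => hneck v hv ⟨_, by positivity, h⟩
    rw [← Ultrafilter.eventually_not] at hnr
    filter_upwards [hnr, h3, hltop (dep (par v)),
      hc.ll (dep (par v)) (1 / (2 * C' * C')) (by positivity)] with i hi h3 h4 h5 _
    rw [hdv] at h5
    have p1 := hc.pos (dep v) i
    have p2 := hc.pos (dep (par v)) i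
    have q1 : lam (dep (par v)) i / C' ≤ b0 * top i := by
      rw [div_le_iff₀ hC0]
      have : 1 ≤ b0 * C' := by
        have := mul_le_mul_of_nonneg_left (show b0⁻¹ ≤ C' by linarith) hb0.le
        rwa [mul_inv_cancel₀ hb0.ne'] at this
      nlinarith [htop i]
    refine (hNk i (pt v) _ _ (by positivity) ?_ q1 ?_).resolve_left fun h => hi ?_
    · have : C' * (1 / (2 * C' * C') * lam (dep (par v)) i) = lam (dep (par v)) i / C' / 2 := by
        field_simp
      have h6 := mul_le_mul_of_nonneg_left h5 hC0.le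
      have : 0 < lam (dep (par v)) i / C' := by positivity
      linarith
    · intro s hs hI
      obtain ⟨k, rfl⟩ := hbad i (pt v) s hs
      have h6 : lam (dep (par v)) i / C' ≤ lam (dep (par v)) i :=
        div_le_self p2.le (by linarith)
      have h7 : 0 < bad i (pt v) k := lt_of_lt_of_le (by positivity) hI.1
      have e : bs (pt v) k i = bad i (pt v) k := by
        simp only [bs]
        rw [min_eq_left (hI.2.trans (h6.trans h4)), max_eq_right h7.le]
      have h8 := hI.2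
      rw [le_div_iff₀ hC0] at h8
      rcases h3 (v, k) with h | h
      · simp only [e] at h
        nlinarith
      · simp only [e, hdv] at h
        nlinarith [hI.1]
    · have e : dep v - 1 = dep (par v) := by omega
      have e' : (C' * K)⁻¹ * lam (dep (par v)) i = lam (dep (par v)) i / C' / K := by field_simp
      rwa [e, e']
  · intro ρ hρ
    have hc1 : ∀ p : V × Fin (N + 1), ∃ c, 0 < c ∧ (Reg (dep p.1 + 1) p.2 → ∀ᶠ i in U,
        (μ i).real {y | d i (z i p.2) y < c * lam (dep p.1) i} ≤ ε) := fun p => by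
      by_cases h : Reg (dep p.1 + 1) p.2
      · obtain ⟨c, hc0, h⟩ := h
        exact ⟨c, hc0, fun _ => h⟩
      · exact ⟨1, one_pos, fun h' => absurd h' h⟩
    choose cc hcc0 hcc using hc1
    obtain ⟨c0, hc0, hc0'⟩ := exists_pos_lb cc hcc0
    have hcp : 0 < min (ρ / 4) (c0 / 5) := by positivity
    have hc4 := min_le_left (ρ / 4) (c0 / 5)
    have hc5 := min_le_right (ρ / 4) (c0 / 5)
    generalize min (ρ / 4) (c0 / 5) = c at hcp hc4 hc5
    refine ⟨c, hcp, fun R => eventually_all.2 fun v => ?_⟩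
    have key : ∀ a, ∀ᶠ i in U, ∀ x, d i x (z i (pt v)) ≤ R * lam (dep v) i →
        (∀ w, w ≠ root → par w = v → ρ * lam (dep v) i ≤ d i x (z i (pt w))) →
        d i x (z i a) < 3 * (c * lam (dep v) i) →
        (μ i).real {y | d i x y < c * lam (dep v) i} ≤ ε := fun a => by
      by_cases ha : eqv (dep v) a (pt v)
      · rcases hcov v a (fun b hb => (heq _).trans ((heq _).symm (hmono _ _ _ hb)) ha) with
          ⟨w, hw, hwv, h⟩ | ⟨b, hb, h⟩
        · filter_upwards [Le.trans_ll h (hc.ll _) c hcp] with i hi x _ hx2 hx3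
          have h6 := hx2 w hw hwv
          have h7 := (hd i).tri x (z i a) (z i (pt w))
          have h8 := mul_le_mul_of_nonneg_right hc4 (hc.pos (dep v) i).le
          simp only [ds] at hi
          linarith
        · filter_upwards [Le.trans_ll h (hc.ll _) c hcp, hcc (v, b) hb] with i hi hi' x _ _ hx3
          refine le_trans (hmon i _ _ _ _ ?_) hi'
          have h7 := (hd i).tri x (z i a) (z i b)
          have h8 := mul_le_mul_of_nonneg_right hc5 (hc.pos (dep v) i).le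
          have h9 := mul_le_mul_of_nonneg_right (hc0' (v, b)) (hc.pos (dep v) i).le
          simp only [ds] at hi
          linarith
      · have hn : ¬ ∀ᶠ i in U, ds a (pt v) i ≤ max 1 (R + 3 * c) * lam (dep v) i :=
          fun h => ha ⟨_, le_max_left _ _, h⟩
        rw [← Ultrafilter.eventually_not] at hn
        filter_upwards [hn] with i hi x hx1 _ hx3
        refine absurd ?_ hi
        have h7 := (hd i).tri (z i a) x (z i (pt v))
        rw [(hd i).symm (z i a) x] at h7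
        have h8 := mul_le_mul_of_nonneg_right (le_max_right 1 (R + 3 * c)) (hc.pos (dep v) i).le
        simp only [ds]
        linarith
    filter_upwards [eventually_all.2 key] with i hi x hx hx1 hx2
    by_contra hlt
    obtain ⟨a, ha⟩ := hz i x hx _ (not_le.1 hlt)
    exact hlt (hi a x hx1 hx2 ha)

end Crest.Agent.N207.I
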